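import Vale.Agent.P014.H580.K6
import Vale.Agent.P014.H687.NPC

/-!
Character data for sums over factorisations, bilinear structure in two linked coordinates.
-/

namespace Vale.Agent.P017.H626

open Finset Function Vale.Agent.P014.H580 Vale.Agent.P014.FM

/-- the character `(2 | d)` -/
noncomputable def chi8 (d : ℕ) : ℝ := ((ZMod.χ₈ (d : ZMod 8) : ℤ) : ℝ)

lemma chi8_mul (a b : ℕ) : chi8 (a * b) = chi8 a * chi8 b := by
  unfold chi8
  rw [Nat.cast_mul, map_mul, Int.cast_mul]

lemma chi8_one : chi8 1 = 1 := by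
  unfold chi8
  rw [Nat.cast_one, map_one, Int.cast_one]

lemma chi8_abs (d : ℕ) : |chi8 d| ≤ 1 := by
  unfold chi8
  have h : ∀ x : ZMod 8, |ZMod.χ₈ x| ≤ 1 := by decide
  exact_mod_cast h (d : ZMod 8)

lemma chi8_odd {d : ℕ} (h : Odd d) : chi8 d = 1 ∨ chi8 d = -1 := by
  unfold chi8
  rw [ZMod.χ₈_nat_eq_if_mod_eight]
  rw [Nat.odd_iff] at h
  rw [if_neg (by omega)]
  split_ifs <;> simp

lemma chi4_one' : chi4 1 = 1 := by
  unfold chi4
  norm_num

/-- the real character `x ↦ χ₄(x)^a χ₈(x)^b (x|c)` -/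
noncomputable def ch (a b c x : ℕ) : ℝ := chi4 x ^ a * chi8 x ^ b * J x c

lemma ch_mul (a b c x y : ℕ) : ch a b c (x * y) = ch a b c x * ch a b c y := by
  unfold ch
  rw [Vale.Agent.P014.FM.chi4_mul, chi8_mul, J_mul_left, mul_pow, mul_pow]
  ring

lemma ch_one (a b c : ℕ) : ch a b c 1 = 1 := by
  unfold ch
  rw [chi4_one', chi8_one, one_pow, one_pow]
  unfold J
  simp

lemma ch_abs (a b c x : ℕ) : |ch a b c x| ≤ 1 := by
  unfold ch
  rw [abs_mul, abs_mul, abs_pow, abs_pow]
  exact mul_le_one₀ (mul_le_one₀ (pow_le_one₀ (abs_nonneg _) (Vale.Agent.P014.FM.chi4_abs x))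
    (by positivity) (pow_le_one₀ (abs_nonneg _) (chi8_abs x))) (abs_nonneg _) (J_abs x c)

lemma ch_even {a b c x : ℕ} (ha : a ≠ 0) (h : ¬ Odd x) : ch a b c x = 0 := by
  unfold ch
  rw [Vale.Agent.P014.FM.chi4_even h, zero_pow ha]
  ring

lemma ch_ncop {a b c x : ℕ} (hc : c ≠ 0) (h : ¬ Nat.Coprime x c) : ch a b c x = 0 := by
  unfold ch
  rw [J_eq_zero hc h, mul_zero]

/-- the basic weight `m ^ (-ω(n))` -/
noncomputable def qw (m n : ℕ) : ℝ := (1 / (m : ℝ)) ^ n.primeFactors.card

lemma qw_nonneg (m n : ℕ) : 0 ≤ qw m n := by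
  unfold qw
  positivity

lemma qw_le_one {m : ℕ} (hm : 1 ≤ m) (n : ℕ) : qw m n ≤ 1 := by
  unfold qw
  apply pow_le_one₀ (by positivity)
  rw [div_le_one (by exact_mod_cast hm)]
  exact_mod_cast hm

lemma qw_mul {m a b : ℕ} (h : Nat.Coprime a b) : qw m (a * b) = qw m a * qw m b := by
  unfold qw
  rw [Nat.Coprime.primeFactors_mul h,
    Finset.card_union_of_disjoint (Nat.Coprime.disjoint_primeFactors h), pow_add]

/-- the data of a twisted sum over factorisations -/
structure Dat (ι : Type*) where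
  m : ℕ
  a : ℕ
  b : ℕ
  c : ℕ
  A : ι → ℕ
  B : ι → ℕ
  C : ι → ℕ
  P : ι → ι → ZMod 2
  hm : 1 ≤ m
  ha : a ≠ 0
  hc : Odd c
  hC : ∀ u, Odd (C u)
  hCc : ∀ u p, p.Prime → p ∣ C u → p ∣ c
  hP : ∀ w, P w w = 0

section general

variable {ι : Type*}

/-- the part depending on the product only -/
noncomputable def pw (d : Dat ι) (n : ℕ) : ℝ := by
  classical exact (if Squarefree n then qw d.m n else 0) * ch d.a d.b d.c n

lemma pw_def (d : Dat ι) (n : ℕ) [Decidable (Squarefree n)] :
    pw d n = (if Squarefree n then qw d.m n else 0) * ch d.a d.b d.c n := by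
  unfold pw
  congr

lemma pw_abs (d : Dat ι) (n : ℕ) : |pw d n| ≤ 1 := by
  classical
  rw [pw_def, abs_mul]
  refine mul_le_one₀ ?_ (abs_nonneg _) (ch_abs _ _ _ _)
  split_ifs
  · rw [abs_of_nonneg (qw_nonneg _ _)]
    exact qw_le_one d.hm n
  · simp

lemma pw_mul (d : Dat ι) {m n : ℕ} (h : Nat.Coprime m n) : pw d (m * n) = pw d m * pw d n := by
  classical
  rw [pw_def, pw_def, pw_def, ch_mul]
  by_cases h1 : Squarefree m
  · by_cases h2 : Squarefree n
    · rw [if_pos h1, if_pos h2, if_pos ((Nat.squarefree_mul h).2 ⟨h1, h2⟩), qw_mul h]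
      ring
    · rw [if_neg h2, if_neg (fun h3 => h2 ((Nat.squarefree_mul h).1 h3).2)]
      ring
  · rw [if_neg h1, if_neg (fun h3 => h1 ((Nat.squarefree_mul h).1 h3).1)]
    ring

lemma pw_not_sq (d : Dat ι) {n : ℕ} (h : ¬ Squarefree n) : pw d n = 0 := by
  classical
  rw [pw_def, if_neg h, zero_mul]

lemma pw_even (d : Dat ι) {n : ℕ} (h : ¬ Odd n) : pw d n = 0 := by
  classical
  rw [pw_def, ch_even d.ha h, mul_zero]

lemma pw_ncop (d : Dat ι) {n : ℕ} (h : ¬ Nat.Coprime n d.c) : pw d n = 0 := by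
  classical
  rw [pw_def, ch_ncop d.hc.pos.ne' h, mul_zero]

variable [Fintype ι]

/-- the sign attached to a tuple -/
noncomputable def wtG (d : Dat ι) (D : ι → ℕ) : ℝ :=
  (∏ u, ch (d.A u) (d.B u) (d.C u) (D u)) *
    ∏ u, ∏ v, (if d.P u v = 1 then J (D u) (D v) else 1)

/-- the full summand -/
noncomputable def gG (d : Dat ι) (D : ι → ℕ) : ℝ := pw d (∏ u, D u) * wtG d D

lemma Jif_abs (p : Prop) [Decidable p] (a b : ℕ) : |(if p then J a b else 1)| ≤ 1 := by
  split_ifs
  · exact J_abs _ _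
  · simp

variable [DecidableEq ι]

/-- the sign is, up to the linked symbol, of product type -/
lemma wtG_sep (d : Dat ι) (u v : ι)
    (huv : u ≠ v) (h1 : d.P u v = 1) (h2 : d.P v u ≠ 1) (D : ι → ℕ) :
    ∃ A B : ℕ → ℝ, (∀ x, |A x| ≤ 1) ∧ (∀ y, |B y| ≤ 1) ∧
      ∀ x y, wtG d (update (update D v y) u x) = A x * B y * J x y := by
  set K : (ι → ℕ) → ℝ := fun D =>
    (∏ w, ch (d.A w) (d.B w) (d.C w) (D w)) *
      ∏ q ∈ (univ ×ˢ univ).erase (u, v), (if d.P q.1 q.2 = 1 then J (D q.1) (D q.2) else 1) with hK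
  have h3 : ∀ D, wtG d D = K D * J (D u) (D v) := by
    intro D
    unfold wtG
    rw [hK]
    simp only
    rw [mul_assoc]
    congr 1
    have hmem : (u, v) ∈ (univ : Finset ι) ×ˢ (univ : Finset ι) :=
      Finset.mem_product.2 ⟨Finset.mem_univ u, Finset.mem_univ v⟩
    rw [← Finset.prod_product', ← Finset.mul_prod_erase (univ ×ˢ univ) _ hmem, mul_comm]
    simp only
    rw [if_pos h1]
  have hKS : SepH u v K := by
    apply SepH.mul
    · apply SepH.prod
      intro w _
      have hb : ∀ D : ι → ℕ, |ch (d.A w) (d.B w) (d.C w) (D w)| ≤ 1 := fun D => ch_abs _ _ _ _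
      by_cases hw : w = u
      · refine SepH.of_right huv hb ?_
        intro D x
        subst hw
        simp only [update_of_ne huv]
      · refine SepH.of_left hb ?_
        intro D x
        simp only [update_of_ne hw]
    · apply SepH.prod
      rintro ⟨s, t⟩ hst
      rw [Finset.mem_erase] at hst
      have hne := hst.1
      have hb : ∀ D : ι → ℕ, |(if d.P s t = 1 then J (D s) (D t) else 1)| ≤ 1 :=
        fun D => Jif_abs _ _ _
      have hcon : ∀ H : d.P s t ≠ 1,
          SepH u v (fun D => (if d.P s t = 1 then J (D s) (D t) else 1)) := by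
        intro H
        refine SepH.of_left hb ?_
        intro D x
        simp only [if_neg H]
      by_cases hs : s = u
      · by_cases ht : t = v
        · exact absurd (by rw [hs, ht]) hne
        · -- does not depend on v
          refine SepH.of_right huv hb ?_
          intro D x
          subst hs
          simp only [update_of_ne huv, update_of_ne ht]
      · by_cases ht : t = u
        · by_cases hsv : s = v
          · apply hcon
            rw [hsv, ht]
            exact h2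
          · refine SepH.of_right huv hb ?_
            intro D x
            subst ht
            simp only [update_of_ne huv, update_of_ne hsv]
        · refine SepH.of_left hb ?_
          intro D x
          simp only [update_of_ne hs, update_of_ne ht]
  obtain ⟨A, B, hA, hB, h⟩ := hKS D
  refine ⟨A, B, hA, hB, ?_⟩
  intro x y
  have h4 := h x y
  dsimp only at h4
  rw [h3, update_self, update_of_ne huv.symm, update_self, h4]

/-- the summand in two linked coordinates -/
lemma gG_sep (d : Dat ι) (u v : ι) (huv : u ≠ v) (h1 : d.P u v = 1) (h2 : d.P v u ≠ 1) (D : ι → ℕ)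
    (hDu : D u = 1) (hDv : D v = 1) :
    ∃ A B : ℕ → ℝ, (∀ x, |A x| ≤ 1) ∧ (∀ y, |B y| ≤ 1) ∧ (∀ x, A x ≠ 0 → Odd x ∧ Squarefree x) ∧
      (∀ y, B y ≠ 0 → Odd y ∧ Squarefree y) ∧
      ∀ x y, 1 ≤ y → gG d (update (update D v y) u x) = A x * B y * J x y := by
  obtain ⟨A, B, hA, hB, h⟩ := wtG_sep d u v huv h1 h2 D
  set r := ∏ w, D w with hr
  classical
  refine ⟨fun x => (if Nat.Coprime x r then pw d x else 0) * A x,
    fun y => (if Nat.Coprime y r then pw d y * pw d r else 0) * B y, ?_, ?_, ?_, ?_, ?_⟩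
  · intro x
    rw [abs_mul]
    refine mul_le_one₀ ?_ (abs_nonneg _) (hA x)
    split_ifs
    · exact pw_abs _ _
    · simp
  · intro y
    rw [abs_mul]
    refine mul_le_one₀ ?_ (abs_nonneg _) (hB y)
    split_ifs
    · rw [abs_mul]
      exact mul_le_one₀ (pw_abs _ _) (abs_nonneg _) (pw_abs _ _)
    · simp
  · intro x hx
    have h3 : pw d x ≠ 0 := by
      intro h4
      apply hx
      dsimp only
      rw [h4]
      simp
    constructor
    · by_contra h4
      exact h3 (pw_even d h4)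
    · by_contra h4
      exact h3 (pw_not_sq d h4)
  · intro y hy
    have h3 : pw d y ≠ 0 := by
      intro h4
      apply hy
      dsimp only
      rw [h4]
      simp
    constructor
    · by_contra h4
      exact h3 (pw_even d h4)
    · by_contra h4
      exact h3 (pw_not_sq d h4)
  · intro x y hy
    unfold gG
    rw [h x y]
    have hprod : ∏ w, update (update D v y) u x w = x * (y * r) := by
      rw [prod_upd _ u x (by rw [update_of_ne huv]; exact hDu), prod_upd _ v y hDv]
    rw [hprod]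
    dsimp only
    by_cases hxy : Nat.Coprime x y
    · by_cases hxr : Nat.Coprime x r
      · by_cases hyr : Nat.Coprime y r
        · rw [if_pos hxr, if_pos hyr, pw_mul d (Nat.Coprime.mul_right hxy hxr), pw_mul d hyr]
          ring
        · rw [if_neg hyr, pw_not_sq]
          · ring
          · intro h3
            apply hyr
            have h4 := Squarefree.squarefree_of_dvd (Dvd.intro_left x rfl) h3
            exact Nat.coprime_of_squarefree_mul h4
      · rw [if_neg hxr, pw_not_sq]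
        · ring
        · intro h3
          apply hxr
          have h4 : Squarefree (x * r) := Squarefree.squarefree_of_dvd
            ⟨y, by ring⟩ h3
          exact Nat.coprime_of_squarefree_mul h4
    · rw [J_eq_zero (by omega) hxy]
      ring

/-- the contribution of one linked pair of large coordinates -/
theorem S1_one (d : Dat ι) : ∃ C : ℝ, 1 ≤ C ∧ ∀ (u v : ι)
    (X Z : ℕ) (H : (ι → ℕ) → ℝ), u ≠ v → d.P u v = 1 → d.P v u ≠ 1 → SepH u v H →
    1 ≤ X → 1 ≤ Z →
    |∑ D ∈ TX ι X, gG d D * (H D * bd Z u v D)|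
      ≤ C * X * (1 + Real.log X) ^ (Fintype.card ι + 1) * (Z : ℝ) ^ (-(1 : ℝ) / 32) := by
  obtain ⟨C, hC, hbil⟩ := bilin
  refine ⟨C, hC, ?_⟩
  intro u v X Z H huv h1 h2 hH hX hZ
  have hX1 : (1 : ℝ) ≤ X := by exact_mod_cast hX
  have hlogX : 0 ≤ Real.log X := Real.log_nonneg hX1
  have hZ0 : (0 : ℝ) < Z := by exact_mod_cast hZ
  have hC0 : (0 : ℝ) ≤ C := by linarith
  rw [sum_fib2T X u v huv]
  refine (Finset.abs_sum_le_sum_abs _ _).trans ?_
  have hone : ∀ D ∈ (TX ι X).filter (fun D => D u = 1 ∧ D v = 1),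
      |∑ y ∈ Icc 1 (X / ∏ w, D w), ∑ x ∈ Icc 1 (X / (∏ w, D w) / y),
        gG d (update (update D v y) u x) *
          (H (update (update D v y) u x) * bd Z u v (update (update D v y) u x))|
      ≤ C * X * (1 + Real.log X) * (Z : ℝ) ^ (-(1 : ℝ) / 32) * (1 / ((∏ w, D w : ℕ) : ℝ)) := by
    intro D hD
    rw [Finset.mem_filter, mem_TX] at hD
    obtain ⟨⟨hD1, hD2⟩, hDu, hDv⟩ := hD
    have hp := one_le_prod hD1
    have hp0 : (0 : ℝ) < ((∏ w, D w : ℕ) : ℝ) := by exact_mod_cast hp
    obtain ⟨A, B, hA, hB, hA2, hB2, h⟩ := gG_sep d u v huv h1 h2 D hDu hDv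
    obtain ⟨A', B', hA', hB', h'⟩ := hH D
    dsimp only at h'
    set N := X / ∏ w, D w with hN
    have hN1 : 1 ≤ N := by
      rw [hN, Nat.one_le_div_iff (by omega)]
      exact hD2
    set a : ℕ → ℝ := fun x => if Z ≤ x then A x * A' x else 0 with ha
    set b : ℕ → ℝ := fun y => if Z ≤ y then B y * B' y else 0 with hb
    have hterm : ∑ y ∈ Icc 1 N, ∑ x ∈ Icc 1 (N / y),
        gG d (update (update D v y) u x) *
          (H (update (update D v y) u x) * bd Z u v (update (update D v y) u x))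
        = ∑ y ∈ Icc 1 N, ∑ x ∈ Icc 1 (N / y), a x * b y * J x y := by
      apply Finset.sum_congr rfl
      intro y hy
      apply Finset.sum_congr rfl
      intro x _
      rw [Finset.mem_Icc] at hy
      rw [h x y hy.1, h' x y]
      unfold bd
      rw [update_self, update_of_ne huv.symm, update_self, ha, hb]
      dsimp only
      by_cases hx : Z ≤ x
      · by_cases hy' : Z ≤ y
        · rw [if_pos ⟨hx, hy'⟩, if_pos hx, if_pos hy']
          ring
        · rw [if_neg (fun hc => hy' hc.2), if_neg hy']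
          ring
      · rw [if_neg (fun hc => hx hc.1), if_neg hx]
        ring
    rw [hterm]
    have ha1 : ∀ x, |a x| ≤ 1 := by
      intro x
      rw [ha]
      dsimp only
      split_ifs
      · rw [abs_mul]
        exact mul_le_one₀ (hA x) (abs_nonneg _) (hA' x)
      · simp
    have hb1 : ∀ x, |b x| ≤ 1 := by
      intro x
      rw [hb]
      dsimp only
      split_ifs
      · rw [abs_mul]
        exact mul_le_one₀ (hB x) (abs_nonneg _) (hB' x)
      · simp
    have ha2 : ∀ x, a x ≠ 0 → Odd x ∧ Squarefree x ∧ Z ≤ x := by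
      intro x hx
      rw [ha] at hx
      dsimp only at hx
      by_cases hZx : Z ≤ x
      · rw [if_pos hZx] at hx
        have := hA2 x (left_ne_zero_of_mul hx)
        exact ⟨this.1, this.2, hZx⟩
      · rw [if_neg hZx] at hx
        exact absurd rfl hx
    have hb2 : ∀ x, b x ≠ 0 → Odd x ∧ Squarefree x ∧ Z ≤ x := by
      intro x hx
      rw [hb] at hx
      dsimp only at hx
      by_cases hZx : Z ≤ x
      · rw [if_pos hZx] at hx
        have := hB2 x (left_ne_zero_of_mul hx)
        exact ⟨this.1, this.2, hZx⟩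
      · rw [if_neg hZx] at hx
        exact absurd rfl hx
    refine (hbil N Z a b ha1 hb1 ha2 hb2 hZ hN1).trans ?_
    have hNle : (N : ℝ) ≤ X / ((∏ w, D w : ℕ) : ℝ) := Nat.cast_div_le
    have hN0 : (0 : ℝ) < N := by exact_mod_cast hN1
    have hNX : (N : ℝ) ≤ X := by exact_mod_cast Nat.div_le_self _ _
    have hlog : Real.log N ≤ Real.log X := Real.log_le_log hN0 hNX
    calc C * (N : ℝ) * (1 + Real.log N) * (Z : ℝ) ^ (-(1 : ℝ) / 32)
        ≤ C * (X / ((∏ w, D w : ℕ) : ℝ)) * (1 + Real.log X) * (Z : ℝ) ^ (-(1 : ℝ) / 32) := by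
          have h0 : 0 ≤ 1 + Real.log N := by
            have := Real.log_nonneg (by exact_mod_cast hN1 : (1 : ℝ) ≤ N)
            linarith
          gcongr
      _ = _ := by ring
  refine (Finset.sum_le_sum hone).trans ?_
  rw [← Finset.mul_sum]
  have hsum : ∑ D ∈ (TX ι X).filter (fun D => D u = 1 ∧ D v = 1), 1 / ((∏ w, D w : ℕ) : ℝ)
      ≤ (1 + Real.log X) ^ (Fintype.card ι) := by
    refine le_trans ?_ (sum_recipT (ι := ι) X)
    apply Finset.sum_le_sum_of_subset_of_nonneg
    · exact Finset.filter_subset _ _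
    · intro D _ _
      positivity
  calc C * X * (1 + Real.log X) * (Z : ℝ) ^ (-(1 : ℝ) / 32) *
        ∑ D ∈ (TX ι X).filter (fun D => D u = 1 ∧ D v = 1), 1 / ((∏ w, D w : ℕ) : ℝ)
      ≤ C * X * (1 + Real.log X) * (Z : ℝ) ^ (-(1 : ℝ) / 32) *
        (1 + Real.log X) ^ (Fintype.card ι) := by gcongr
    _ = _ := by ring

/-- all linked pairs -/
theorem S1 (d : Dat ι) : ∃ C : ℝ, 1 ≤ C ∧ ∀ (X Z : ℕ) (Q : Finset (ι × ι)),
    (∀ q ∈ Q, d.P q.1 q.2 = 1 ∧ d.P q.2 q.1 ≠ 1) → 1 ≤ X → 1 ≤ Z →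
    |∑ D ∈ TX ι X, gG d D - ∑ D ∈ TX ι X, gG d D * NQ Z Q D|
      ≤ Q.card * (C * X * (1 + Real.log X) ^ (Fintype.card ι + 1) * (Z : ℝ) ^ (-(1 : ℝ) / 32)) := by
  obtain ⟨C, hC, h⟩ := S1_one d
  refine ⟨C, hC, ?_⟩
  intro X Z Q hQ hX hZ
  induction Q using Finset.induction_on with
  | empty => simp [NQ]
  | insert q Q hq ih =>
    have h1 := ih (fun q' hq' => hQ q' (Finset.mem_insert_of_mem hq'))
    have h2 := hQ q (Finset.mem_insert_self _ _)
    have huv : q.1 ≠ q.2 := by
      intro h3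
      rw [h3] at h2
      exact h2.2 h2.1
    have hsep : SepH q.1 q.2 (NQ Z Q) :=
      NQ_sep d.P Z Q q.1 q.2 huv (fun q' hq' => hQ q' (Finset.mem_insert_of_mem hq')) h2.1 hq
    have h3 := h q.1 q.2 X Z (NQ Z Q) huv h2.1 h2.2 hsep hX hZ
    have h4 : ∑ D ∈ TX ι X, gG d D * NQ Z (insert q Q) D
        = ∑ D ∈ TX ι X, gG d D * NQ Z Q D
          - ∑ D ∈ TX ι X, gG d D * (NQ Z Q D * bd Z q.1 q.2 D) := by
      rw [← Finset.sum_sub_distrib]
      apply Finset.sum_congr rfl
      intro D _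
      have : NQ Z (insert q Q) D = (1 - bd Z q.1 q.2 D) * NQ Z Q D := by
        unfold NQ
        rw [Finset.prod_insert hq]
      rw [this]
      ring
    rw [h4, Finset.card_insert_of_notMem hq]
    push_cast
    have h5 : ∑ D ∈ TX ι X, gG d D - (∑ D ∈ TX ι X, gG d D * NQ Z Q D
          - ∑ D ∈ TX ι X, gG d D * (NQ Z Q D * bd Z q.1 q.2 D))
        = (∑ D ∈ TX ι X, gG d D - ∑ D ∈ TX ι X, gG d D * NQ Z Q D)
          + ∑ D ∈ TX ι X, gG d D * (NQ Z Q D * bd Z q.1 q.2 D) := by ring
    rw [h5]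
    refine (abs_add_le _ _).trans ?_
    linarith

end general

end Vale.Agent.P017.H626
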