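import Vale.Agent.P017.H626.A2
import Vale.Agent.P014.H580.K7

/-!
The summand as a function of one coordinate is a real character; large coordinates linked to a
nontrivial coordinate.
-/

namespace Vale.Agent.P017.H626

open Finset Function Vale.Agent.P014.H580 Vale.Agent.P014.FM Vale.Agent.P014.H687.FM

/-- functions which are characters on odd numbers prime to `r` -/
def Ty8 (r : ℕ) (F : ℕ → ℝ) (Q : ℕ) : Prop :=
  Q ≠ 0 ∧ ∃ c : ℝ, |c| ≤ 1 ∧ ∃ a : ℕ, ∃ b : ℕ, ∀ x, Odd x → Nat.Coprime x r →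
    F x = c * ch a b Q x

lemma Ty8.of {r : ℕ} {F : ℕ → ℝ} {Q : ℕ} (h : Ty r F Q) : Ty8 r F Q := by
  obtain ⟨h0, c, hc, a, h⟩ := h
  refine ⟨h0, c, hc, a, 0, fun x hx hxr => ?_⟩
  rw [h x hx hxr, ch, pow_zero, mul_one]

lemma ch_mul_ch (a b c a' b' c' x : ℕ) (hc : c ≠ 0) (hc' : c' ≠ 0) :
    ch a b c x * ch a' b' c' x = ch (a + a') (b + b') (c * c') x := by
  unfold ch
  rw [J_mul_right _ _ _ hc hc', pow_add, pow_add]
  ring

section general

variable {ι : Type*} [Fintype ι] [DecidableEq ι]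

/-- the summand as a function of one coordinate -/
lemma one_var' (d : Dat ι) (v : ι) (D : ι → ℕ) (hDv : D v = 1) (hodd : Odd (∏ u, D u)) :
    ∃ c : ℝ, |c| ≤ 1 ∧ ∃ a b : ℕ, a ≠ 0 ∧ ∀ x, gG d (update D v x)
      = c * (sqh (qw d.m) (fun _ : Unit => x) * (if Nat.Coprime x (∏ u, D u) then 1 else 0) *
        ch a b (d.c * d.C v * lprod d.P v D) x) := by
  set r := ∏ u, D u with hr
  obtain ⟨hQ0, c, hc, a, h⟩ := wt2_ty d.P d.hP v D hodd
  rw [← hr] at h
  set A : ℝ := ∏ w ∈ univ.erase v, ch (d.A w) (d.B w) (d.C w) (D w) with hA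
  have hA1 : |A| ≤ 1 := by
    rw [hA, Finset.abs_prod]
    exact Finset.prod_le_one (fun _ _ => abs_nonneg _) (fun w _ => ch_abs _ _ _ _)
  have hwt1 : ∀ x, ∏ w, ch (d.A w) (d.B w) (d.C w) (update D v x w)
      = ch (d.A v) (d.B v) (d.C v) x * A := by
    intro x
    rw [← Finset.mul_prod_erase univ _ (Finset.mem_univ v), update_self, hA]
    congr 1
    apply Finset.prod_congr rfl
    intro w hw
    rw [update_of_ne (Finset.ne_of_mem_erase hw)]
  have hc0 : d.c ≠ 0 := d.hc.pos.ne'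
  have hC0 : d.C v ≠ 0 := (d.hC v).pos.ne'
  have ha0 := d.ha
  refine ⟨pw d r * A * c, ?_, d.a + d.A v + a, d.b + d.B v, by omega, ?_⟩
  · rw [abs_mul, abs_mul]
    exact mul_le_one₀ (mul_le_one₀ (pw_abs _ _) (abs_nonneg _) hA1) (abs_nonneg _) hc
  intro x
  have hsqh : sqh (qw d.m) (fun _ : Unit => x) = if Squarefree x then qw d.m x else 0 := by
    unfold sqh
    simp
  rw [hsqh]
  unfold gG
  rw [prod_upd D v x hDv, ← hr]
  by_cases hxr : Nat.Coprime x r
  · rw [pw_mul d hxr, if_pos hxr, mul_one]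
    by_cases hsq : Squarefree x
    · by_cases hx : Odd x
      · rw [if_pos hsq]
        unfold wtG
        have hx2 := h x hx hxr
        dsimp only at hx2
        rw [hwt1 x, hx2]
        have hpw : pw d x = qw d.m x * ch d.a d.b d.c x := by
          classical
          rw [pw_def, if_pos hsq]
        have e1 : ch (d.a + d.A v + a) (d.b + d.B v) (d.c * d.C v * lprod d.P v D) x
            = ch d.a d.b d.c x * ch (d.A v) (d.B v) (d.C v) x * (chi4 x ^ a * J x (lprod d.P v D)) := by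
          have e2 : chi4 x ^ a * J x (lprod d.P v D) = ch a 0 (lprod d.P v D) x := by
            rw [ch, pow_zero, mul_one]
          rw [e2, ch_mul_ch _ _ _ _ _ _ _ hc0 hC0, ch_mul_ch _ _ _ _ _ _ _ (mul_ne_zero hc0 hC0) hQ0,
            add_zero]
        rw [hpw, e1]
        ring
      · rw [pw_even d hx, ch_even (by omega) hx]
        ring
    · rw [pw_not_sq d hsq, if_neg hsq]
      ring
  · rw [if_neg hxr, pw_not_sq]
    · ring
    · intro h3
      exact hxr (Nat.coprime_of_squarefree_mul h3)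

omit [DecidableEq ι] in
lemma wtG_abs' (d : Dat ι) (D : ι → ℕ) : |wtG d D| ≤ 1 := by
  unfold wtG
  rw [abs_mul, Finset.abs_prod, Finset.abs_prod]
  refine mul_le_one₀ ?_ (Finset.prod_nonneg (fun _ _ => abs_nonneg _)) ?_
  · exact Finset.prod_le_one (fun _ _ => abs_nonneg _) (fun w _ => ch_abs _ _ _ _)
  · apply Finset.prod_le_one (fun _ _ => abs_nonneg _)
    intro s _
    rw [Finset.abs_prod]
    exact Finset.prod_le_one (fun _ _ => abs_nonneg _) (fun t _ => Jif_abs _ _ _)

omit [DecidableEq ι] in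
lemma gG_abs' (d : Dat ι) (D : ι → ℕ) : |gG d D| ≤ sqh (qw d.m) D := by
  classical
  unfold gG sqh
  rw [abs_mul]
  have h1 : |pw d (∏ u, D u)| ≤ if Squarefree (∏ u, D u) then qw d.m (∏ u, D u) else 0 := by
    by_cases h : Squarefree (∏ u, D u)
    · rw [if_pos h, pw_def, if_pos h, abs_mul, abs_of_nonneg (qw_nonneg _ _)]
      calc qw d.m (∏ u, D u) * |ch d.a d.b d.c (∏ u, D u)| ≤ qw d.m (∏ u, D u) * 1 :=
            mul_le_mul_of_nonneg_left (ch_abs _ _ _ _) (qw_nonneg _ _)
        _ = _ := mul_one _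
    · rw [if_neg h, pw_not_sq d h]
      simp
  calc |pw d (∏ u, D u)| * |wtG d D| ≤ |pw d (∏ u, D u)| * 1 :=
        mul_le_mul_of_nonneg_left (wtG_abs' d D) (abs_nonneg _)
    _ = |pw d (∏ u, D u)| := mul_one _
    _ ≤ _ := by
      refine h1.trans (le_of_eq ?_)
      congr

omit [DecidableEq ι] in
/-- the modulus is not a square -/
lemma mod_nonsq' (d : Dat ι) (v : ι) (D : ι → ℕ) (hsq : Squarefree (∏ u, D u))
    (hcop : Nat.Coprime (∏ u, D u) d.c) (h : ∃ t, d.P v t ≠ d.P t v ∧ 1 < D t) :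
    ¬ IsSquare (d.c * d.C v * lprod d.P v D) := by
  set L := lprod d.P v D with hL
  have hLd : L ∣ ∏ u, D u := lprod_dvd d.P v D
  have hLsq : Squarefree L := Squarefree.squarefree_of_dvd hLd hsq
  have hL0 : L ≠ 0 := hLsq.ne_zero
  have hL1 : L ≠ 1 := by
    obtain ⟨t, ht1, ht2⟩ := h
    have h1 : D t ∣ L := by
      rw [hL]
      unfold lprod
      have h2 : D t = (if d.P v t = d.P t v then 1 else D t) := by rw [if_neg ht1]
      conv_lhs => rw [h2]
      exact Finset.dvd_prod_of_mem _ (Finset.mem_univ t)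
    intro h3
    rw [h3] at h1
    have := Nat.dvd_one.1 h1
    omega
  obtain ⟨p, hp, hpL⟩ := Nat.exists_prime_and_dvd hL1
  have hpc : ¬ p ∣ d.c := by
    intro h1
    have h2 := Nat.dvd_gcd (hpL.trans hLd) h1
    rw [Nat.Coprime.gcd_eq_one hcop] at h2
    exact hp.one_lt.ne' (Nat.dvd_one.1 h2)
  have hpC : ¬ p ∣ d.C v := fun h1 => hpc (d.hCc v p hp h1)
  rintro ⟨s, hs⟩
  have h1 : (d.c * d.C v * L).factorization p = (s * s).factorization p := by rw [hs]
  have hc0 : d.c ≠ 0 := d.hc.pos.ne'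
  have hC0 : d.C v ≠ 0 := (d.hC v).pos.ne'
  have hs0 : s ≠ 0 := by
    rintro rfl
    rw [mul_zero, mul_eq_zero, mul_eq_zero] at hs
    tauto
  rw [Nat.factorization_mul (mul_ne_zero hc0 hC0) hL0, Nat.factorization_mul hs0 hs0,
    Nat.factorization_mul hc0 hC0] at h1
  simp only [Finsupp.coe_add, Pi.add_apply] at h1
  have h2 : Nat.factorization d.c p = 0 := Nat.factorization_eq_zero_of_not_dvd hpc
  have h2' : Nat.factorization (d.C v) p = 0 := Nat.factorization_eq_zero_of_not_dvd hpC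
  have h3 : L.factorization p = 1 := by
    have h4 := hLsq.natFactorization_le_one p
    have h5 : 0 < L.factorization p := hp.factorization_pos_of_dvd hL0 hpL
    omega
  rw [h2, h2', h3] at h1
  omega

end general

/-- the character sum -/
noncomputable def SJ' (a b Q r j N : ℕ) : ℝ :=
  ∑ n ∈ (Icc 1 N).filter (fun n => Squarefree n ∧ n.Coprime r ∧ n.primeFactors.card = j),
    ch a b Q n

/-- the character sum estimate -/
def CharB' (X Y J0 : ℕ) (W M : ℝ) : Prop :=
  ∀ a b Q r j N : ℕ, a ≠ 0 → Odd Q → ¬ IsSquare Q → (8 * Q : ℝ) ≤ W → 1 ≤ r → r ≤ X → j ≤ J0 →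
    Y ≤ N + 1 → N ≤ X → |SJ' a b Q r j N| ≤ N / M

/-- a bound for the number of `j` -/
lemma qsum_le {m : ℕ} (hm : 1 ≤ m) (J0 : ℕ) : ∑ j ∈ range (J0 + 1), (1 / (m : ℝ)) ^ j ≤ J0 + 1 := by
  have hm1 : (1 : ℝ) ≤ m := by exact_mod_cast hm
  calc ∑ j ∈ range (J0 + 1), (1 / (m : ℝ)) ^ j ≤ ∑ _j ∈ range (J0 + 1), (1 : ℝ) := by
        apply Finset.sum_le_sum
        intro j _
        apply pow_le_one₀ (by positivity)
        rw [div_le_one (by linarith)]
        exact hm1
    _ = J0 + 1 := by simp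

/-- splitting according to the number of prime factors -/
lemma split_sum' (m a b Q r J0 N Y : ℕ) (hY : 1 ≤ Y) (hYN : Y ≤ N) :
    ∑ x ∈ Icc 1 N, (if x.primeFactors.card ≤ J0 then
        (if Y ≤ x then (sqh (qw m) (fun _ : Unit => x) * (if Nat.Coprime x r then 1 else 0) *
          ch a b Q x) else 0) else 0)
      = ∑ j ∈ range (J0 + 1), (1 / (m : ℝ)) ^ j * (SJ' a b Q r j N - SJ' a b Q r j (Y - 1)) := by
  classical
  have hsqh : ∀ x, sqh (qw m) (fun _ : Unit => x) = if Squarefree x then qw m x else 0 := by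
    intro x
    unfold sqh
    simp
  have h1 : ∀ j, SJ' a b Q r j N - SJ' a b Q r j (Y - 1)
      = ∑ x ∈ Icc 1 N, (if Y ≤ x then (if Squarefree x ∧ x.Coprime r ∧ x.primeFactors.card = j
          then ch a b Q x else 0) else 0) := by
    intro j
    unfold SJ'
    rw [Finset.sum_filter, Finset.sum_filter]
    have h2 : Icc 1 N = Icc 1 (Y - 1) ∪ Icc Y N := by
      ext x
      simp only [mem_union, mem_Icc]
      omega
    have hd : Disjoint (Icc 1 (Y - 1)) (Icc Y N) := by
      rw [Finset.disjoint_left]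
      intro x hx hx'
      simp only [mem_Icc] at hx hx'
      omega
    rw [h2, Finset.sum_union hd, Finset.sum_union hd, add_sub_cancel_left]
    have h3 : ∑ x ∈ Icc 1 (Y - 1), (if Y ≤ x then (if Squarefree x ∧ x.Coprime r ∧
        x.primeFactors.card = j then ch a b Q x else 0) else 0) = 0 := by
      apply Finset.sum_eq_zero
      intro x hx
      rw [mem_Icc] at hx
      rw [if_neg (by omega)]
    rw [h3, zero_add]
    apply Finset.sum_congr rfl
    intro x hx
    rw [mem_Icc] at hx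
    rw [if_pos hx.1]
  simp only [h1, Finset.mul_sum]
  rw [Finset.sum_comm]
  apply Finset.sum_congr rfl
  intro x _
  rw [hsqh]
  by_cases hYx : Y ≤ x
  · simp only [if_pos hYx]
    by_cases hsq : Squarefree x ∧ x.Coprime r
    · rw [if_pos hsq.1, if_pos hsq.2, mul_one]
      have h4 : ∀ j, (if Squarefree x ∧ x.Coprime r ∧ x.primeFactors.card = j
          then ch a b Q x else 0) = if x.primeFactors.card = j then ch a b Q x
            else 0 := by
        intro j
        by_cases hj : x.primeFactors.card = j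
        · rw [if_pos ⟨hsq.1, hsq.2, hj⟩, if_pos hj]
        · rw [if_neg (fun h => hj h.2.2), if_neg hj]
      simp only [h4, mul_ite, mul_zero]
      rw [Finset.sum_ite_eq]
      by_cases hJ : x.primeFactors.card ≤ J0
      · rw [if_pos hJ, if_pos (by rw [mem_range]; omega)]
        rfl
      · rw [if_neg hJ, if_neg (by rw [mem_range]; omega)]
    · have h4 : ∀ j, (if Squarefree x ∧ x.Coprime r ∧ x.primeFactors.card = j
          then ch a b Q x else 0) = 0 := by
        intro j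
        rw [if_neg (fun h => hsq ⟨h.1, h.2.1⟩)]
      have h5 : (if Squarefree x then qw m x else 0) * (if x.Coprime r then (1 : ℝ) else 0) = 0 := by
        by_cases h6 : Squarefree x
        · rw [if_neg (fun h7 => hsq ⟨h6, h7⟩), mul_zero]
        · rw [if_neg h6, zero_mul]
      simp only [h4, h5, zero_mul, mul_zero, Finset.sum_const_zero, ite_self]
  · simp [hYx]

section general

open Classical

variable {ι : Type*} [Fintype ι] [DecidableEq ι]

/-- the inner sum -/
lemma S2_inner' (d : Dat ι) (X Y Z J0 : ℕ) (W M : ℝ) (hM : 0 < M) (hY : 2 ≤ Y) (hZ1 : 1 ≤ Z)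
    (hZY : Z ≤ Y)
    (hW : ∀ v, (8 * ((d.c : ℝ) * d.C v * (Z : ℝ) ^ (Fintype.card ι))) ≤ W) (hB : CharB' X Y J0 W M)
    (V : Finset ι) (v : ι) (D : ι → ℕ) (hD : D ∈ TX ι X) (hDv : D v = 1) :
    |∑ x ∈ Icc 1 (X / ∏ u, D u), gG d (update D v x) *
      (HH d.P Z Y V v (update D v x) * tr J0 x)| ≤
        2 * (J0 + 1) * X / M * (1 / ((∏ u, D u : ℕ) : ℝ)) := by
  rw [mem_TX] at hD
  obtain ⟨hD1, hD2⟩ := hD
  set r := ∏ u, D u with hr
  have hr1 : 1 ≤ r := one_le_prod hD1
  have hrR : (0 : ℝ) < r := by exact_mod_cast hr1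
  have hnn : 0 ≤ 2 * ((J0 : ℝ) + 1) * X / M * (1 / (r : ℝ)) := by positivity
  have hzero : (∀ x ∈ Icc 1 (X / r), gG d (update D v x) *
      (HH d.P Z Y V v (update D v x) * tr J0 x) = 0) →
      |∑ x ∈ Icc 1 (X / r), gG d (update D v x) *
      (HH d.P Z Y V v (update D v x) * tr J0 x)| ≤ 2 * ((J0 : ℝ) + 1) * X / M * (1 / (r : ℝ)) := by
    intro h
    rw [Finset.sum_eq_zero h, abs_zero]
    exact hnn
  -- degenerate cases
  by_cases hκ : HH d.P Z Y V v (update D v Y) = 0
  · apply hzero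
    intro x _
    by_cases hx : Y ≤ x
    · rw [HH_upd d.P Z Y V v D hY hZY x hx, hκ]
      ring
    · rw [HH_small d.P Z Y V v D x hx]
      ring
  by_cases hpw : pw d r = 0
  · apply hzero
    intro x _
    have : gG d (update D v x) = 0 := by
      unfold gG
      rw [prod_upd D v x hDv, ← hr]
      by_cases hxr : Nat.Coprime x r
      · rw [pw_mul d hxr, hpw]
        ring
      · rw [pw_not_sq]
        · ring
        · intro h3
          exact hxr (Nat.coprime_of_squarefree_mul h3)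
    rw [this]
    ring
  have hodd : Odd r := by
    by_contra h
    exact hpw (pw_even d h)
  have hsq : Squarefree r := by
    by_contra h
    exact hpw (pw_not_sq d h)
  have hcop : Nat.Coprime r d.c := by
    by_contra h
    exact hpw (pw_ncop d h)
  obtain ⟨hlt, hex⟩ := HH_ne d.P Z Y V v D hZY hκ
  obtain ⟨c, hc, a, b, ha, hone⟩ := one_var' d v D hDv hodd
  rw [← hr] at hone
  set Q := d.c * d.C v * lprod d.P v D with hQ
  set N := X / r with hN
  by_cases hYN : Y ≤ N
  swap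
  · apply hzero
    intro x hx
    rw [mem_Icc] at hx
    rw [HH_small d.P Z Y V v D x (by omega)]
    ring
  have hQodd : Odd Q := by
    rw [hQ, Nat.odd_mul, Nat.odd_mul]
    refine ⟨⟨d.hc, d.hC v⟩, ?_⟩
    obtain ⟨k, hk⟩ := lprod_dvd d.P v D
    rw [← hr] at hk
    rw [hk, Nat.odd_mul] at hodd
    exact hodd.1
  have hQns : ¬ IsSquare Q := mod_nonsq' d v D hsq hcop hex
  have hQW : (8 * Q : ℝ) ≤ W := by
    refine le_trans ?_ (hW v)
    have h1 : (lprod d.P v D : ℝ) ≤ (Z : ℝ) ^ (Fintype.card ι) := by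
      exact_mod_cast lprod_le d.P v D Z hZ1 hlt
    rw [hQ]
    push_cast
    gcongr
  have hterm : ∑ x ∈ Icc 1 N, gG d (update D v x) *
      (HH d.P Z Y V v (update D v x) * tr J0 x)
      = c * HH d.P Z Y V v (update D v Y) * ∑ x ∈ Icc 1 N, (if x.primeFactors.card ≤ J0 then
        (if Y ≤ x then (sqh (qw d.m) (fun _ : Unit => x) * (if Nat.Coprime x r then 1 else 0) *
          ch a b Q x) else 0) else 0) := by
    rw [Finset.mul_sum]
    apply Finset.sum_congr rfl
    intro x _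
    rw [hone x]
    unfold tr
    by_cases hJ : x.primeFactors.card ≤ J0
    · by_cases hYx : Y ≤ x
      · rw [if_pos hJ, if_pos hJ, if_pos hYx, HH_upd d.P Z Y V v D hY hZY x hYx]
        ring
      · rw [if_pos hJ, if_pos hJ, if_neg hYx, HH_small d.P Z Y V v D x hYx]
        ring
    · rw [if_neg hJ, if_neg hJ]
      ring
  rw [hterm, split_sum' d.m a b Q r J0 N Y (by omega) hYN, abs_mul, abs_mul]
  have hNX : N ≤ X := Nat.div_le_self _ _
  have hNR : (N : ℝ) ≤ X / r := Nat.cast_div_le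
  have h3 : |∑ j ∈ range (J0 + 1), (1 / (d.m : ℝ)) ^ j *
      (SJ' a b Q r j N - SJ' a b Q r j (Y - 1))|
      ≤ 2 * ((J0 : ℝ) + 1) * X / M * (1 / (r : ℝ)) := by
    refine (Finset.abs_sum_le_sum_abs _ _).trans ?_
    have h4 : ∀ j ∈ range (J0 + 1), |(1 / (d.m : ℝ)) ^ j *
        (SJ' a b Q r j N - SJ' a b Q r j (Y - 1))|
        ≤ (1 / (d.m : ℝ)) ^ j * (2 * (X / r) / M) := by
      intro j hj
      rw [mem_range] at hj
      rw [abs_mul, abs_of_nonneg (by positivity : (0 : ℝ) ≤ (1 / (d.m : ℝ)) ^ j)]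
      apply mul_le_mul_of_nonneg_left _ (by positivity)
      have h5 := hB a b Q r j N ha hQodd hQns hQW hr1 hD2 (by omega) (by omega) hNX
      have h6 := hB a b Q r j (Y - 1) ha hQodd hQns hQW hr1 hD2 (by omega) (by omega) (by omega)
      have h7 : ((Y - 1 : ℕ) : ℝ) / M ≤ (X / r) / M := by
        have : ((Y - 1 : ℕ) : ℝ) ≤ N := by exact_mod_cast (by omega : Y - 1 ≤ N)
        have h8 := this.trans hNR
        gcongr
      have h8 : (N : ℝ) / M ≤ (X / r) / M := by gcongr
      refine (abs_sub _ _).trans ?_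
      have : 2 * ((X : ℝ) / r) / M = (X / r) / M + (X / r) / M := by ring
      rw [this]
      linarith
    refine (Finset.sum_le_sum h4).trans ?_
    rw [← Finset.sum_mul]
    have h5 := qsum_le d.hm J0
    calc (∑ j ∈ range (J0 + 1), (1 / (d.m : ℝ)) ^ j) * (2 * ((X : ℝ) / r) / M)
        ≤ ((J0 : ℝ) + 1) * (2 * ((X : ℝ) / r) / M) := by gcongr
      _ = 2 * ((J0 : ℝ) + 1) * X / M * (1 / (r : ℝ)) := by ring
  have h4 : |c| * |HH d.P Z Y V v (update D v Y)| ≤ 1 :=
    mul_le_one₀ hc (abs_nonneg _) (HH_abs d.P Z Y V v _)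
  calc |c| * |HH d.P Z Y V v (update D v Y)| *
        |∑ j ∈ range (J0 + 1), (1 / (d.m : ℝ)) ^ j * (SJ' a b Q r j N - SJ' a b Q r j (Y - 1))|
      ≤ 1 * |∑ j ∈ range (J0 + 1), (1 / (d.m : ℝ)) ^ j *
          (SJ' a b Q r j N - SJ' a b Q r j (Y - 1))| := by
        gcongr
    _ ≤ _ := by rw [one_mul]; exact h3

/-- the tail over many prime factors -/
noncomputable def tailS' (ι : Type*) [Fintype ι] [DecidableEq ι] (m X J0 : ℕ) : ℝ :=
  ∑ D ∈ (TX ι X).filter (fun D => J0 < (∏ u, D u).primeFactors.card), sqh (qw m) D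

/-- one coordinate -/
lemma S2_one' (d : Dat ι) (X Y Z J0 : ℕ) (W M : ℝ) (hM : 0 < M) (hY : 2 ≤ Y) (hZ1 : 1 ≤ Z)
    (hZY : Z ≤ Y)
    (hW : ∀ v, (8 * ((d.c : ℝ) * d.C v * (Z : ℝ) ^ (Fintype.card ι))) ≤ W) (hB : CharB' X Y J0 W M)
    (V : Finset ι) (v : ι) :
    |∑ D ∈ TX ι X, gG d D * HH d.P Z Y V v D|
      ≤ 2 * (J0 + 1) * X / M * (1 + Real.log X) ^ (Fintype.card ι) + tailS' ι d.m X J0 := by
  have hsplit : ∑ D ∈ TX ι X, gG d D * HH d.P Z Y V v D
      = ∑ D ∈ TX ι X, gG d D * (HH d.P Z Y V v D * tr J0 (D v))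
        + ∑ D ∈ TX ι X, gG d D * (HH d.P Z Y V v D * (1 - tr J0 (D v))) := by
    rw [← Finset.sum_add_distrib]
    apply Finset.sum_congr rfl
    intro D _
    ring
  rw [hsplit]
  refine (abs_add_le _ _).trans (add_le_add ?_ ?_)
  · rw [sum_fibT X v]
    refine (Finset.abs_sum_le_sum_abs _ _).trans ?_
    have h1 : ∀ D ∈ (TX ι X).filter (fun D => D v = 1),
        |∑ x ∈ Icc 1 (X / ∏ u, D u), gG d (update D v x) *
          (HH d.P Z Y V v (update D v x) * tr J0 (update D v x v))|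
        ≤ 2 * (J0 + 1) * X / M * (1 / ((∏ u, D u : ℕ) : ℝ)) := by
      intro D hD
      rw [Finset.mem_filter] at hD
      have := S2_inner' d X Y Z J0 W M hM hY hZ1 hZY hW hB V v D hD.1 hD.2
      simpa only [update_self] using this
    refine (Finset.sum_le_sum h1).trans ?_
    rw [← Finset.mul_sum]
    apply mul_le_mul_of_nonneg_left _ (by positivity)
    refine le_trans ?_ (sum_recipT (ι := ι) X)
    apply Finset.sum_le_sum_of_subset_of_nonneg
    · exact Finset.filter_subset _ _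
    · intro D _ _
      positivity
  · refine (Finset.abs_sum_le_sum_abs _ _).trans ?_
    unfold tailS'
    rw [Finset.sum_filter]
    apply Finset.sum_le_sum
    intro D hD
    rw [mem_TX] at hD
    by_cases hJ : J0 < (∏ u, D u).primeFactors.card
    · rw [if_pos hJ, abs_mul]
      have h1 := gG_abs' d D
      have h2 : |HH d.P Z Y V v D * (1 - tr J0 (D v))| ≤ 1 := by
        rw [abs_mul]
        refine mul_le_one₀ (HH_abs _ _ _ _ _ _) (abs_nonneg _) ?_
        unfold tr
        split_ifs <;> simp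
      calc |gG d D| * |HH d.P Z Y V v D * (1 - tr J0 (D v))|
          ≤ sqh (qw d.m) D * 1 := mul_le_mul h1 h2 (abs_nonneg _) (sqh_nonneg _ (qw_nonneg _) _)
        _ = sqh (qw d.m) D := mul_one _
    · rw [if_neg hJ]
      have h1 : tr J0 (D v) = 1 := by
        unfold tr
        rw [if_pos]
        have h2 : (D v).primeFactors ⊆ (∏ u, D u).primeFactors :=
          Nat.primeFactors_mono (Finset.dvd_prod_of_mem _ (Finset.mem_univ v))
            (by have := one_le_prod hD.1; omega)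
        have := Finset.card_le_card h2
        omega
      rw [h1]
      simp

/-- all coordinates -/
theorem S2' (d : Dat ι) (X Y Z J0 : ℕ) (W M : ℝ) (hM : 0 < M) (hY : 2 ≤ Y) (hZ1 : 1 ≤ Z)
    (hZY : Z ≤ Y)
    (hW : ∀ v, (8 * ((d.c : ℝ) * d.C v * (Z : ℝ) ^ (Fintype.card ι))) ≤ W) (hB : CharB' X Y J0 W M)
    (V : Finset ι) :
    |∑ D ∈ TX ι X, gG d D * NQ Z (allP d.P) D
        - ∑ D ∈ TX ι X, gG d D * (NQ Z (allP d.P) D * MV d.P Y V D)|
      ≤ V.card * (2 * (J0 + 1) * X / M * (1 + Real.log X) ^ (Fintype.card ι)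
        + tailS' ι d.m X J0) := by
  induction V using Finset.induction_on with
  | empty => simp [MV]
  | insert v V hv ih =>
    have h3 := S2_one' d X Y Z J0 W M hM hY hZ1 hZY hW hB V v
    have h4 : ∑ D ∈ TX ι X, gG d D * (NQ Z (allP d.P) D * MV d.P Y (insert v V) D)
        = ∑ D ∈ TX ι X, gG d D * (NQ Z (allP d.P) D * MV d.P Y V D)
          - ∑ D ∈ TX ι X, gG d D * HH d.P Z Y V v D := by
      rw [← Finset.sum_sub_distrib]
      apply Finset.sum_congr rfl
      intro D _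
      have : MV d.P Y (insert v V) D = (1 - Cv d.P Y v D) * MV d.P Y V D := by
        unfold MV
        rw [Finset.prod_insert hv]
      rw [this]
      unfold HH
      ring
    rw [h4, Finset.card_insert_of_notMem hv]
    push_cast
    have h5 : ∑ D ∈ TX ι X, gG d D * NQ Z (allP d.P) D -
        (∑ D ∈ TX ι X, gG d D * (NQ Z (allP d.P) D * MV d.P Y V D)
          - ∑ D ∈ TX ι X, gG d D * HH d.P Z Y V v D)
        = (∑ D ∈ TX ι X, gG d D * NQ Z (allP d.P) D
          - ∑ D ∈ TX ι X, gG d D * (NQ Z (allP d.P) D * MV d.P Y V D))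
          + ∑ D ∈ TX ι X, gG d D * HH d.P Z Y V v D := by ring
    rw [h5]
    refine (abs_add_le _ _).trans ?_
    linarith

end general

end Vale.Agent.P017.H626
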