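import Vale.Agent.P017.H626.A4

/-!
The reduction to the main terms.
-/

namespace Vale.Agent.P017.H626

open Finset Function Vale.Agent.P014.H580 Vale.Agent.P014.FM Vale.Agent.P014.H687.FM Filter

lemma chi8_per (n k : ℕ) : chi8 (n + 8 * k) = chi8 n := by
  unfold chi8
  have : ((n + 8 * k : ℕ) : ZMod 8) = (n : ZMod 8) := by
    push_cast
    have h8 : (8 : ZMod 8) = 0 := by decide
    rw [h8, zero_mul, add_zero]
  rw [this]

theorem npchar_ch {Q : ℕ} (hQ : Odd Q) (hs : ¬ IsSquare Q) {a b : ℕ} (ha : a ≠ 0) :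
    NPChar (8 * Q) (fun m => ((ch a b Q m : ℝ) : ℂ)) := by
  have hQ0 : Q ≠ 0 := by rintro rfl; exact absurd hQ (by decide)
  obtain ⟨n, hn⟩ := Vale.Agent.P014.H580.exists_neg hQ hs
  have hcop : Nat.Coprime Q 8 := by
    have : Nat.Coprime Q 2 := Nat.coprime_two_right.2 hQ
    exact Nat.Coprime.pow_right 3 this
  obtain ⟨z, hz1, hz2⟩ := Nat.chineseRemainder hcop n 1
  have hJb : J z Q = -1 := by
    unfold Vale.Agent.P014.H580.J
    have h1 : jacobiSym (z : ℤ) Q = jacobiSym (n : ℤ) Q := by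
      rw [jacobiSym.mod_left, jacobiSym.mod_left (n : ℤ)]
      congr 1
      exact_mod_cast hz1
    rw [h1, hn]
    simp
  have hz8 : z % 8 = 1 := hz2
  have hcb : chi4 z = 1 := by
    unfold chi4
    rw [if_pos (by omega)]
  have h8b : chi8 z = 1 := by
    unfold chi8
    rw [ZMod.χ₈_nat_eq_if_mod_eight, if_neg (by omega), if_pos (by omega)]
    simp
  refine NPChar.of_ne_one (b := z) (by have := hQ.pos; omega) ?_ ?_ ?_ ?_ ?_ ?_
  · intro m k
    rw [ch_mul]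
    push_cast
    ring
  · intro m
    unfold ch
    have h4 : chi4 (m + 8 * Q) = chi4 m := by
      have := chi4_per m (2 * Q)
      rw [← this]
      congr 1
      ring
    rw [h4, chi8_per, J_per m 8 Q]
  · intro m hm
    rcases Nat.mod_two_eq_zero_or_one m with h | h
    · rw [ch_even ha (by rw [Nat.odd_iff]; omega)]
      simp
    · have : ¬ m.Coprime Q := by
        intro hc
        refine hm (Nat.Coprime.mul_right ?_ hc)
        exact Nat.Coprime.pow_right 3 (Nat.coprime_two_right.2 (Nat.odd_iff.2 h))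
      rw [ch_ncop hQ0 this]
      simp
  · intro m
    rw [Complex.norm_real, Real.norm_eq_abs]
    exact ch_abs _ _ _ _
  · unfold ch
    rw [hJb, hcb, h8b]
    norm_num
  · refine Nat.Coprime.mul_right ?_ ?_
    · refine Nat.Coprime.pow_right 3 (Nat.coprime_two_right.2 (Nat.odd_iff.2 ?_))
      omega
    · by_contra h
      have := J_zero hQ0 h
      rw [this] at hJb
      norm_num at hJb

/-- the character sum estimate from Siegel-Walfisz -/
lemma charB'' (hsw : SW) (K η : ℝ) (hK : 1 ≤ K) (hη : 0 < η) : ∃ X₀ : ℝ, ∀ X Y J0 : ℕ, X₀ ≤ X →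
    3 ≤ X → Real.exp ((Real.log X) ^ η) + 1 ≤ Y → (J0 : ℝ) ≤ K * Real.log (Real.log X) →
    CharB' X Y J0 ((Real.log X) ^ K) ((Real.log X) ^ K) := by
  obtain ⟨X₀, h⟩ := fm3 hsw K η hK hη
  refine ⟨X₀, ?_⟩
  intro X Y J0 hX hX3 hY hJ0 a b Q r j N ha hQo hQs hQW hr hrX hj hYN hNX
  have hX1 : (1 : ℝ) ≤ X := by exact_mod_cast (by omega : 1 ≤ X)
  have hXK : (X : ℝ) ≤ (X : ℝ) ^ K := by
    calc (X : ℝ) = (X : ℝ) ^ (1 : ℝ) := (Real.rpow_one _).symm
      _ ≤ (X : ℝ) ^ K := Real.rpow_le_rpow_of_exponent_le hX1 hK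
  have hNR : (N : ℝ) ≤ X := by exact_mod_cast hNX
  have hrR : (r : ℝ) ≤ X := by exact_mod_cast hrX
  have hjR : (j : ℝ) ≤ J0 := by exact_mod_cast hj
  have hYR : (Y : ℝ) ≤ N + 1 := by exact_mod_cast hYN
  have h1 := h X hX (8 * Q) (fun m => ((ch a b Q m : ℝ) : ℂ)) (by push_cast; exact hQW)
    (npchar_ch hQo hQs ha) r hr (hrR.trans hXK) j (hjR.trans hJ0) N (by linarith)
    (hNR.trans hXK)
  rw [Nat.floor_natCast] at h1
  rw [← Complex.ofReal_sum, Complex.norm_real, Real.norm_eq_abs] at h1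
  exact h1

/-- the numerical facts needed, for `L = log X`, `N` the number of indices, `m` the weight,
`c` a constant -/
structure Num' (N m : ℕ) (c η : ℝ) (L : ℝ) : Prop where
  big : 16 ≤ L
  c1 : c ≤ L
  exp : 4 * (L ^ (N + 2)) ^ 32 ≤ Real.exp (L ^ η)
  lin : 2 * (N : ℝ) * (3 * L ^ ((1 : ℝ) / 2)) ≤ L
  log1 : 4 * (m : ℝ) * Real.log L + 1 ≤ L

lemma num_ev' (N m : ℕ) (c η : ℝ) (hη : 0 < η) : ∀ᶠ L : ℝ in atTop, Num' N m c η L := by
  have h := eventually_log_rpow_le 1 (((N + 2) * 32 : ℕ) + 2) η hη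
  have h2 := eventually_log_rpow_le 1 (4 * m + 1) 1 one_pos
  filter_upwards [h, h2, eventually_ge_atTop 16, eventually_ge_atTop c,
    eventually_ge_atTop ((6 * (N : ℝ)) ^ 2)] with L h1 h2 h3 h4 h5
  have hL0 : 0 < L := by linarith
  have hlog1 : 1 ≤ Real.log L := by
    rw [Real.le_log_iff_exp_le hL0]
    have := Real.exp_one_lt_d9
    linarith
  refine ⟨h3, h4, ?_, ?_, ?_⟩
  · rw [Real.rpow_one] at h1
    have e1 : (L ^ (N + 2)) ^ 32 = Real.exp (((N + 2) * 32 : ℕ) * Real.log L) := by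
      rw [← pow_mul, mul_comm (((N + 2) * 32 : ℕ) : ℝ), Real.exp_mul, Real.exp_log hL0,
        Real.rpow_natCast]
    have e4 : (4 : ℝ) ≤ Real.exp (2 * Real.log L) := by
      rw [mul_comm, Real.exp_mul, Real.exp_log hL0]
      rw [Real.rpow_two]
      nlinarith
    rw [e1]
    calc 4 * Real.exp (((N + 2) * 32 : ℕ) * Real.log L)
        ≤ Real.exp (2 * Real.log L) * Real.exp (((N + 2) * 32 : ℕ) * Real.log L) := by gcongr
      _ = Real.exp ((((N + 2) * 32 : ℕ) + 2) * Real.log L) := by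
          rw [← Real.exp_add]
          congr 1
          ring
      _ ≤ Real.exp (L ^ η) := Real.exp_le_exp.2 h1
  · rw [← Real.sqrt_eq_rpow]
    have h6 : 6 * (N : ℝ) ≤ Real.sqrt L := Real.le_sqrt_of_sq_le h5
    calc 2 * (N : ℝ) * (3 * Real.sqrt L) = 6 * N * Real.sqrt L := by ring
      _ ≤ Real.sqrt L * Real.sqrt L := by gcongr
      _ = L := Real.mul_self_sqrt hL0.le
  · rw [Real.rpow_one, Real.rpow_one] at h2
    nlinarith

section general

variable {ι : Type*} [Fintype ι] [DecidableEq ι]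

lemma rpow_nat_le {L : ℝ} (hL : 1 ≤ L) (n : ℕ) {K : ℝ} (h : (n : ℝ) ≤ K) : L ^ n ≤ L ^ K := by
  calc L ^ n = L ^ (n : ℝ) := (Real.rpow_natCast _ _).symm
    _ ≤ L ^ K := Real.rpow_le_rpow_of_exponent_le hL h

/-- the reduction to the main terms, with an explicit rate -/
theorem main_rate (hsw : SW) (d : Dat ι) (hι : Fintype.card ι = d.m ^ 2) (hm : 2 ≤ d.m)
    (hmax : MaxUn d.P d.m) : ∃ C X₀ δ : ℝ, 0 < C ∧ 0 < δ ∧ ∀ X : ℕ, X₀ ≤ X →
    |∑ D ∈ TX ι X, gG d D - ∑ D ∈ TX ι X, gG d D * mUG d.P d.m D|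
      ≤ C * X * (Real.log X) ^ (-δ) := by
  classical
  have hne : Nonempty ι := by
    rw [← Fintype.card_pos_iff, hι]
    have : 0 < d.m := by omega
    positivity
  obtain ⟨N, hN⟩ : ∃ N, N = Fintype.card ι := ⟨_, rfl⟩
  have hNm : N = d.m ^ 2 := hN.trans hι
  have hm0 : (0 : ℝ) < d.m := by exact_mod_cast (by omega : 0 < d.m)
  have hm2 : (2 : ℝ) ≤ d.m := by exact_mod_cast hm
  have hN4 : 4 ≤ N := by
    rw [hNm]
    nlinarith
  have hN0 : (0 : ℝ) < N := by exact_mod_cast (by omega : 0 < N)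
  have hN4R : (4 : ℝ) ≤ N := by exact_mod_cast hN4
  obtain ⟨η, hη⟩ : ∃ η : ℝ, η = 1 / (2 * d.m * N) := ⟨_, rfl⟩
  have hη0 : 0 < η := by rw [hη]; positivity
  have hη2 : η ≤ 1 / 2 := by
    rw [hη]
    apply one_div_le_one_div_of_le (by norm_num)
    nlinarith
  obtain ⟨K, hK⟩ : ∃ K : ℝ, K = (((N + 2) * 32 * N + 2 + N + 4 * d.m : ℕ) : ℝ) := ⟨_, rfl⟩
  have hK1 : 1 ≤ K := by
    rw [hK]
    exact_mod_cast (by omega : 1 ≤ (N + 2) * 32 * N + 2 + N + 4 * d.m)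
  obtain ⟨cC, hcC⟩ : ∃ cC : ℝ, ∀ v, 8 * ((d.c : ℝ) * d.C v) * 2 ^ N ≤ cC := by
    refine ⟨∑ v, 8 * ((d.c : ℝ) * d.C v) * 2 ^ N, fun v => ?_⟩
    exact Finset.single_le_sum (f := fun v => 8 * ((d.c : ℝ) * d.C v) * 2 ^ N)
      (fun _ _ => by positivity) (Finset.mem_univ v)
  obtain ⟨C1, hC1, hS1⟩ := S1 d
  obtain ⟨C2, hC2, htail⟩ := tail_le' (ι := ι) d.hm hι
  obtain ⟨C3, hC3, hfew⟩ := few_le' (ι := ι) hm
  obtain ⟨X₁, hchar⟩ := charB'' hsw K η hK1 hη0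
  obtain ⟨L₀, hL₀⟩ := eventually_atTop.1 (num_ev' N d.m cC η hη0)
  obtain ⟨Pc, hPc⟩ : ∃ Pc : ℝ, ((allP d.P).card : ℝ) = Pc := ⟨_, rfl⟩
  have hP0 : 0 ≤ Pc := by rw [← hPc]; exact Nat.cast_nonneg _
  obtain ⟨Uc, hUc⟩ : ∃ Uc : ℝ, ((UsG d.P d.m).card : ℝ) = Uc := ⟨_, rfl⟩
  have hU0 : 0 ≤ Uc := by rw [← hUc]; exact Nat.cast_nonneg _
  obtain ⟨δ, hδ⟩ : ∃ δ : ℝ, δ = 1 / (2 * d.m) := ⟨_, rfl⟩
  have hδ0 : 0 < δ := by rw [hδ]; positivity
  have hδ1 : δ ≤ 1 := by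
    rw [hδ, div_le_one (by positivity)]
    linarith
  refine ⟨Pc * (C1 * 2 ^ (N + 1)) + N * (2 ^ (N + 1) + 2 * C2) + (1 + Uc) * (C3 * 4 ^ N),
    max X₁ (max (Real.exp L₀) 9), δ, by positivity, hδ0, ?_⟩
  intro X hX
  have hX1 : X₁ ≤ X := (le_max_left _ _).trans hX
  have hX2 : Real.exp L₀ ≤ X := (le_max_left _ _).trans ((le_max_right _ _).trans hX)
  have hX9R : (9 : ℝ) ≤ X := (le_max_right _ _).trans ((le_max_right _ _).trans hX)
  have hX9 : 9 ≤ X := by exact_mod_cast hX9R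
  have hXpos : (0 : ℝ) < X := by linarith
  obtain ⟨L, hL⟩ : ∃ L, Real.log X = L := ⟨_, rfl⟩
  have hLL : L₀ ≤ L := by rw [← hL, Real.le_log_iff_exp_le hXpos]; exact hX2
  obtain ⟨hbig, hcL, hexp, hlin, hlog1⟩ := hL₀ L hLL
  have hL0 : 0 < L := by linarith
  have hL1 : 1 ≤ L := by linarith
  have hlogL : 0 ≤ Real.log L := Real.log_nonneg hL1
  obtain ⟨e, he⟩ : ∃ e, e = L ^ η := ⟨_, rfl⟩
  rw [← he] at hexp
  have he1 : 1 ≤ e := by rw [he]; exact Real.one_le_rpow hL1 hη0.le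
  obtain ⟨A, hA⟩ : ∃ A, (L ^ (N + 2)) ^ 32 = A := ⟨_, rfl⟩
  rw [hA] at hexp
  have hA1 : 1 ≤ A := by rw [← hA]; exact one_le_pow₀ (one_le_pow₀ hL1)
  have hAL : L ≤ A := by
    rw [← hA, ← pow_mul]
    exact le_self_pow₀ hL1 (by positivity)
  -- the parameters
  obtain ⟨Z, hZ⟩ : ∃ Z, Z = ⌈A⌉₊ := ⟨_, rfl⟩
  obtain ⟨Y, hY⟩ : ∃ Y, Y = ⌈Real.exp e⌉₊ + 1 := ⟨_, rfl⟩
  obtain ⟨J0, hJ0⟩ : ∃ J0, J0 = ⌊4 * d.m * Real.log L⌋₊ := ⟨_, rfl⟩
  have hZ1 : A ≤ Z := by rw [hZ]; exact Nat.le_ceil _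
  have hZ2 : (Z : ℝ) ≤ 2 * A := by
    rw [hZ]
    have := (Nat.ceil_lt_add_one (by linarith : 0 ≤ A)).le
    linarith
  have hYlow : Real.exp e + 1 ≤ Y := by
    rw [hY]
    push_cast
    linarith [Nat.le_ceil (Real.exp e)]
  have hYup : (Y : ℝ) ≤ 3 * Real.exp e := by
    rw [hY]
    have h1 := (Nat.ceil_lt_add_one (Real.exp_pos e).le).le
    have h2 : 1 ≤ Real.exp e := Real.one_le_exp (by linarith)
    push_cast
    linarith
  have hZ2' : 2 ≤ Z := by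
    have : (2 : ℝ) ≤ Z := by linarith
    exact_mod_cast this
  have hZY : Z ≤ Y := by
    have h1 : (Z : ℝ) ≤ Y := by linarith
    exact_mod_cast h1
  have hY2 : 2 ≤ Y := hZ2'.trans hZY
  have hYpos : (0 : ℝ) < Y := by
    have : 0 < Y := by omega
    exact_mod_cast this
  have hY1R : (1 : ℝ) ≤ Y := by
    have : 1 ≤ Y := by omega
    exact_mod_cast this
  have hlog3 : Real.log 3 ≤ 2 := by
    rw [Real.log_le_iff_le_exp (by norm_num)]
    have := Real.add_one_le_exp (2 : ℝ)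
    linarith
  have hlogY : Real.log Y ≤ 2 + e := by
    calc Real.log Y ≤ Real.log (3 * Real.exp e) := Real.log_le_log hYpos hYup
      _ = Real.log 3 + e := by rw [Real.log_mul (by norm_num) (Real.exp_pos e).ne', Real.log_exp]
      _ ≤ 2 + e := by linarith
  have hlogY0 : 0 ≤ Real.log Y := Real.log_nonneg hY1R
  have hYX : (Y ^ (Fintype.card ι)) ^ 2 ≤ X := by
    rw [← hN]
    have h1 : ((Y : ℝ) ^ N) ^ 2 ≤ X := by
      have h2 : e ≤ L ^ ((1 : ℝ) / 2) := by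
        rw [he]
        exact Real.rpow_le_rpow_of_exponent_le hL1 hη2
      calc ((Y : ℝ) ^ N) ^ 2 = Real.exp ((2 * N) * Real.log Y) := by
            rw [mul_comm, Real.exp_mul, Real.exp_log hYpos, ← pow_mul]
            rw [mul_comm (2 : ℝ)]
            norm_cast
        _ ≤ Real.exp L := by
            apply Real.exp_le_exp.2
            refine le_trans ?_ hlin
            have : Real.log Y ≤ 3 * L ^ ((1 : ℝ) / 2) := by linarith
            gcongr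
        _ = X := by rw [← hL]; exact Real.exp_log hXpos
    exact_mod_cast h1
  have hJ1 : (J0 : ℝ) ≤ 4 * d.m * Real.log L := by
    rw [hJ0]
    exact Nat.floor_le (by positivity)
  have hJ2 : 4 * d.m * Real.log L ≤ J0 + 1 := by
    rw [hJ0]
    exact (Nat.lt_floor_add_one _).le
  have hKm : (4 * d.m : ℝ) ≤ K := by
    rw [hK]
    push_cast
    have : (0 : ℝ) ≤ (N + 2) * 32 * N + 2 + N := by positivity
    linarith
  have hJ3 : (J0 : ℝ) ≤ K * Real.log L := hJ1.trans (by gcongr)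
  have hcb := hchar X Y J0 hX1 (by omega) (by rw [hL, ← he]; exact hYlow) (by rw [hL]; exact hJ3)
  rw [hL] at hcb
  have hinv : L⁻¹ ≤ L ^ (-δ) := by
    rw [← Real.rpow_neg_one]
    exact Real.rpow_le_rpow_of_exponent_le hL1 (by linarith)
  -- first error
  have T1 : |∑ D ∈ TX ι X, gG d D - ∑ D ∈ TX ι X, gG d D * NQ Z (allP d.P) D|
      ≤ Pc * (C1 * 2 ^ (N + 1)) * X * L ^ (-δ) := by
    have hT1 := hS1 X Z (allP d.P) (by
      intro q hq
      unfold allP at hq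
      exact (Finset.mem_filter.1 hq).2) (by omega) (by omega)
    rw [← hN, hL, hPc] at hT1
    have hZ32 : (Z : ℝ) ^ (-(1 : ℝ) / 32) ≤ (L ^ (N + 2))⁻¹ := by
      calc (Z : ℝ) ^ (-(1 : ℝ) / 32) ≤ ((L ^ (N + 2)) ^ 32) ^ (-(1 : ℝ) / 32) :=
            Real.rpow_le_rpow_of_nonpos (by positivity) (by rw [hA]; exact hZ1) (by norm_num)
        _ = (L ^ (N + 2))⁻¹ := by
            rw [← Real.rpow_natCast (L ^ (N + 2)) 32, ← Real.rpow_mul (by positivity)]
            norm_num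
            rw [Real.rpow_neg_one]
    have hL1L : (1 + L) ≤ 2 * L := by linarith
    refine hT1.trans ?_
    calc Pc * (C1 * X * (1 + L) ^ (N + 1) * (Z : ℝ) ^ (-(1 : ℝ) / 32))
        ≤ Pc * (C1 * X * (2 * L) ^ (N + 1) * (L ^ (N + 2))⁻¹) := by gcongr
      _ = Pc * (C1 * 2 ^ (N + 1)) * X * L⁻¹ := by
          rw [mul_pow, pow_succ L (N + 1)]
          field_simp
      _ ≤ Pc * (C1 * 2 ^ (N + 1)) * X * L ^ (-δ) := by gcongr
  -- second error
  have T2 : |∑ D ∈ TX ι X, gG d D * NQ Z (allP d.P) D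
        - ∑ D ∈ TX ι X, gG d D * (NQ Z (allP d.P) D * MV d.P Y univ D)|
      ≤ N * (2 ^ (N + 1) + 2 * C2) * X * L ^ (-δ) := by
    have hW : ∀ v, (8 * ((d.c : ℝ) * d.C v * (Z : ℝ) ^ (Fintype.card ι))) ≤ L ^ K := by
      intro v
      rw [← hN]
      calc 8 * ((d.c : ℝ) * d.C v * (Z : ℝ) ^ N) ≤ 8 * ((d.c : ℝ) * d.C v * (2 * A) ^ N) := by
            gcongr
        _ = 8 * ((d.c : ℝ) * d.C v) * 2 ^ N * A ^ N := by rw [mul_pow]; ring
        _ ≤ L * A ^ N := by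
            have := (hcC v).trans hcL
            gcongr
        _ = L ^ ((N + 2) * 32 * N + 1) := by
            rw [← hA, ← pow_mul, ← pow_mul, mul_comm L, ← pow_succ]
            congr 1
            ring
        _ ≤ L ^ K := by
            apply rpow_nat_le hL1
            rw [hK]
            exact_mod_cast (by omega : (N + 2) * 32 * N + 1 ≤
              (N + 2) * 32 * N + 2 + N + 4 * d.m)
    have hT2 := S2' d X Y Z J0 (L ^ K) (L ^ K)
      (by positivity) hY2 (by omega) hZY hW hcb univ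
    rw [Finset.card_univ, ← hN, hL] at hT2
    have htl : tailS' ι d.m X J0 ≤ 2 * C2 * X * L⁻¹ := by
      have h1 := htail X J0 (by omega)
      rw [hL] at h1
      unfold tailS'
      refine h1.trans ?_
      have h2 : ((1 : ℝ) / 2) ^ J0 ≤ 2 * L ^ (-(2 * d.m : ℝ)) := by
        have hl2 : (1 : ℝ) / 2 ≤ Real.log 2 := by have := Real.log_two_gt_d9; linarith
        have h3 : ((1 : ℝ) / 2) ^ J0 = Real.exp (-(J0 * Real.log 2)) := by
          rw [Real.exp_neg, mul_comm, Real.exp_mul, Real.exp_log (by norm_num), Real.rpow_natCast,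
            one_div, inv_pow]
        have h4 : 2 * L ^ (-(2 * d.m : ℝ)) = Real.exp (Real.log 2 - 2 * d.m * Real.log L) := by
          rw [sub_eq_add_neg, Real.exp_add, Real.exp_log (by norm_num),
            Real.rpow_def_of_pos hL0]
          congr 2
          ring
        rw [h3, h4]
        apply Real.exp_le_exp.2
        have h5 : 2 * d.m * Real.log L ≤ (J0 + 1) * Real.log 2 := by
          calc 2 * d.m * Real.log L = (4 * d.m * Real.log L) * (1 / 2) := by ring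
            _ ≤ (J0 + 1) * Real.log 2 := by gcongr
        linarith
      have h7 : L ^ (2 * d.m - 1 : ℝ) * L ^ (-(2 * d.m : ℝ)) = L⁻¹ := by
        rw [← Real.rpow_add hL0, ← Real.rpow_neg_one]
        congr 1
        ring
      calc C2 * X * L ^ (2 * d.m - 1 : ℝ) * (1 / 2) ^ J0
          ≤ C2 * X * L ^ (2 * d.m - 1 : ℝ) * (2 * L ^ (-(2 * d.m : ℝ))) := by
            gcongr
        _ = 2 * C2 * X * (L ^ (2 * d.m - 1 : ℝ) * L ^ (-(2 * d.m : ℝ))) := by ring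
        _ = 2 * C2 * X * L⁻¹ := by rw [h7]
    refine hT2.trans ?_
    have h1 : 2 * (J0 + 1) * X / L ^ K * (1 + L) ^ N ≤ 2 ^ (N + 1) * X * L⁻¹ := by
      have hM : L ^ (N + 2) ≤ L ^ K := by
        apply rpow_nat_le hL1
        rw [hK]
        exact_mod_cast (by nlinarith : N + 2 ≤ (N + 2) * 32 * N + 2 + N + 4 * d.m)
      have hJL : (J0 : ℝ) + 1 ≤ L := by linarith
      calc 2 * (J0 + 1) * X / L ^ K * (1 + L) ^ N ≤ 2 * L * X / L ^ (N + 2) * (2 * L) ^ N := by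
            have : 1 + L ≤ 2 * L := by linarith
            gcongr
        _ = 2 ^ (N + 1) * X * L⁻¹ := by
            rw [mul_pow, pow_succ (2 : ℝ) N, pow_add L N 2]
            field_simp
    calc (N : ℝ) * (2 * (J0 + 1) * X / L ^ K * (1 + L) ^ N + tailS' ι d.m X J0)
        ≤ N * (2 ^ (N + 1) * X * L⁻¹ + 2 * C2 * X * L⁻¹) := by gcongr
      _ = N * (2 ^ (N + 1) + 2 * C2) * X * L⁻¹ := by ring
      _ ≤ _ := by gcongr
  -- third error
  have T3 : |∑ D ∈ TX ι X, gG d D * (NQ Z (allP d.P) D * MV d.P Y univ D)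
        - ∑ D ∈ TX ι X, gG d D * mUG d.P d.m D|
      ≤ (1 + Uc) * (C3 * 4 ^ N) * X * L ^ (-δ) := by
    have hT3 := S3' d hmax X Y Z hZ2' hZY
    have hfw := hfew X Y hX9 (by omega) hYX
    rw [← hN, hL] at hfw
    rw [hUc] at hT3
    refine hT3.trans ?_
    have h1 : (1 + Real.log Y) ^ N ≤ 4 ^ N * L ^ (η * N) := by
      calc (1 + Real.log Y) ^ N ≤ (4 * e) ^ N := by
            gcongr
            linarith
        _ = 4 ^ N * L ^ (η * N) := by
            rw [mul_pow, he, Real.rpow_mul hL0.le, Real.rpow_natCast]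
    have h2 : L ^ (-(1 / (d.m : ℝ))) * L ^ (η * N) = L ^ (-δ) := by
      rw [← Real.rpow_add hL0]
      congr 1
      rw [hη, hδ]
      field_simp
      ring
    have hfw' : ∑ D ∈ (TX ι X).filter (fun D => (Lg Y D).card < d.m), sqh (qw d.m) D
        ≤ C3 * X * L ^ (-(1 / (d.m : ℝ))) * (1 + Real.log Y) ^ N := by
      convert hfw using 3
    calc (1 + Uc) * ∑ D ∈ (TX ι X).filter (fun D => (Lg Y D).card < d.m), sqh (qw d.m) D
        ≤ (1 + Uc) * (C3 * X * L ^ (-(1 / (d.m : ℝ))) * (1 + Real.log Y) ^ N) := by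
          gcongr
      _ ≤ (1 + Uc) * (C3 * X * L ^ (-(1 / (d.m : ℝ))) * (4 ^ N * L ^ (η * N))) := by gcongr
      _ = (1 + Uc) * (C3 * 4 ^ N) * X * (L ^ (-(1 / (d.m : ℝ))) * L ^ (η * N)) := by ring
      _ = _ := by rw [h2]
  rw [hL]
  have a1 := abs_le.1 T1
  have a2 := abs_le.1 T2
  have a3 := abs_le.1 T3
  rw [abs_le]
  obtain ⟨b, hb⟩ : ∃ b, X * L ^ (-δ) = b := ⟨_, rfl⟩
  have e1 : Pc * (C1 * 2 ^ (N + 1)) * X * L ^ (-δ) = Pc * (C1 * 2 ^ (N + 1)) * b := by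
    rw [← hb]; ring
  have e2 : N * (2 ^ (N + 1) + 2 * C2) * X * L ^ (-δ) = N * (2 ^ (N + 1) + 2 * C2) * b := by
    rw [← hb]; ring
  have e3 : (1 + Uc) * (C3 * 4 ^ N) * X * L ^ (-δ) = (1 + Uc) * (C3 * 4 ^ N) * b := by
    rw [← hb]; ring
  have e4 : (Pc * (C1 * 2 ^ (N + 1)) + N * (2 ^ (N + 1) + 2 * C2) + (1 + Uc) * (C3 * 4 ^ N)) * X *
      L ^ (-δ) = (Pc * (C1 * 2 ^ (N + 1)) + N * (2 ^ (N + 1) + 2 * C2)
        + (1 + Uc) * (C3 * 4 ^ N)) * b := by
    rw [← hb]; ring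
  rw [e1] at a1
  rw [e2] at a2
  rw [e3] at a3
  rw [e4]
  constructor
  · linarith [a1.1, a2.1, a3.1]
  · linarith [a1.2, a2.2, a3.2]

/-- **the reduction to the main terms** -/
theorem main_eps (hsw : SW) (d : Dat ι) (hι : Fintype.card ι = d.m ^ 2) (hm : 2 ≤ d.m)
    (hmax : MaxUn d.P d.m) : ∀ ε : ℝ, 0 < ε → ∃ X₀ : ℕ, ∀ X : ℕ, X₀ ≤ X →
    |∑ D ∈ TX ι X, gG d D * (1 - mUG d.P d.m D)| ≤ ε * X := by
  intro ε hε
  obtain ⟨C, X₁, δ, hC, hδ, h⟩ := main_rate hsw d hι hm hmax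
  have ht : Tendsto (fun X : ℕ => C * (Real.log X) ^ (-δ)) atTop (nhds 0) := by
    have h1 := (tendsto_rpow_neg_atTop hδ).comp
      (Real.tendsto_log_atTop.comp tendsto_natCast_atTop_atTop)
    have h2 := h1.const_mul C
    rw [mul_zero] at h2
    exact h2
  obtain ⟨X₂, hX₂⟩ := eventually_atTop.1 (ht.eventually (ge_mem_nhds hε))
  refine ⟨max ⌈X₁⌉₊ X₂, ?_⟩
  intro X hX
  have hX1 : X₁ ≤ X := (Nat.le_ceil _).trans (by exact_mod_cast (le_max_left _ _).trans hX)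
  have h1 := h X hX1
  have h2 := hX₂ X ((le_max_right _ _).trans hX)
  have h3 : ∑ D ∈ TX ι X, gG d D * (1 - mUG d.P d.m D)
      = ∑ D ∈ TX ι X, gG d D - ∑ D ∈ TX ι X, gG d D * mUG d.P d.m D := by
    rw [← Finset.sum_sub_distrib]
    exact Finset.sum_congr rfl fun D _ => by ring
  rw [h3]
  refine h1.trans ?_
  calc C * X * (Real.log X) ^ (-δ) = (C * (Real.log X) ^ (-δ)) * X := by ring
    _ ≤ ε * X := mul_le_mul_of_nonneg_right h2 (Nat.cast_nonneg _)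

end general

end Vale.Agent.P017.H626
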