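import Vale.Agent.P017.H626.B1

/-!
The contribution of one unlinked set as a combination of products over the primes.
-/

namespace Vale.Agent.P017.H626

open Finset Function Vale.Agent.P014.H580 Vale.Agent.P014.FM Vale.Agent.P014.H687.FM Filter

/-! ### signs -/

/-- sign of an element of `ZMod 2` -/
noncomputable def sg2 (a : ZMod 2) : ℝ := if a = 1 then -1 else 1

lemma z2 (a : ZMod 2) : a = 0 ∨ a = 1 := by
  revert a
  decide

lemma sg2_zero : sg2 0 = 1 := by
  unfold sg2
  rw [if_neg (by decide)]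

lemma sg2_one : sg2 1 = -1 := by
  unfold sg2
  rw [if_pos rfl]

lemma sg2_add (a b : ZMod 2) : sg2 (a + b) = sg2 a * sg2 b := by
  have h11 : (1 : ZMod 2) + 1 = 0 := by decide
  rcases z2 a with rfl | rfl <;> rcases z2 b with rfl | rfl <;>
    simp [sg2_zero, sg2_one, h11]

lemma sg2_sum {κ : Type*} (s : Finset κ) (f : κ → ZMod 2) :
    sg2 (∑ i ∈ s, f i) = ∏ i ∈ s, sg2 (f i) := by
  classical
  induction s using Finset.induction_on with
  | empty => simp [sg2_zero]
  | insert a s ha ih => rw [Finset.sum_insert ha, Finset.prod_insert ha, sg2_add, ih]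

lemma sg2_pow (l a : ZMod 2) : sg2 (l * a) = sg2 a ^ l.val := by
  rcases z2 l with rfl | rfl
  · rw [zero_mul, sg2_zero]
    simp
  · rw [one_mul]
    have : (1 : ZMod 2).val = 1 := rfl
    rw [this, pow_one]

lemma sg2_sq (a : ZMod 2) : sg2 a * sg2 a = 1 := by
  rcases z2 a with rfl | rfl <;> simp [sg2_zero, sg2_one]

lemma sg2_abs (a : ZMod 2) : |sg2 a| = 1 := by
  rcases z2 a with rfl | rfl <;> simp [sg2_zero, sg2_one]

/-- class modulo 4 -/
def e4' (n : ℕ) : ZMod 2 := if n % 4 = 3 then 1 else 0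

lemma chi4_sg {n : ℕ} (h : Odd n) : chi4 n = sg2 (e4' n) := by
  unfold chi4 e4'
  rw [Nat.odd_iff] at h
  rcases (by omega : n % 4 = 1 ∨ n % 4 = 3) with h | h
  · rw [if_pos h, if_neg (by omega), sg2_zero]
  · rw [if_neg (by omega), if_pos h, if_pos h, sg2_one]

lemma e4'_one : e4' 1 = 0 := by
  unfold e4'
  rw [if_neg (by norm_num)]

lemma pair_recip {x y : ℕ} (hx : Odd x) (hy : Odd y) (h : Nat.Coprime x y) :
    J x y * J y x = sg2 (e4' x * e4' y) := by
  rw [J_recip hx hy, mul_assoc, J_sq h.symm, mul_one, chi4_sg hy, mul_comm]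
  unfold e4'
  by_cases h3 : x % 4 = 3
  · rw [if_pos h3, if_pos h3, mul_one, pow_one]
  · rw [if_neg h3, if_neg h3, mul_zero, pow_zero, sg2_zero]

/-! ### Fourier analysis -/

/-- the pairing -/
noncomputable def chv {κ : Type*} [Fintype κ] (l e : κ → ZMod 2) : ℝ := ∏ i, sg2 (l i * e i)

section fourier

variable {κ : Type*} [Fintype κ] [DecidableEq κ]

lemma orth1' (x y : ZMod 2) : ∑ a : ZMod 2, sg2 (a * x) * sg2 (a * y) = if x = y then 2 else 0 := by
  have h2 : (univ : Finset (ZMod 2)) = {0, 1} := by decide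
  rw [h2, Finset.sum_pair (by decide)]
  rcases z2 x with rfl | rfl <;> rcases z2 y with rfl | rfl <;>
    simp [sg2_zero, sg2_one]
  all_goals norm_num

lemma orth' (x y : κ → ZMod 2) :
    ∑ l : κ → ZMod 2, chv l x * chv l y = if x = y then 2 ^ Fintype.card κ else 0 := by
  have h1 := Finset.prod_univ_sum (t := fun _ : κ => (univ : Finset (ZMod 2)))
    (f := fun i a => sg2 (a * x i) * sg2 (a * y i))
  rw [Fintype.piFinset_univ] at h1
  have h2 : ∑ l : κ → ZMod 2, chv l x * chv l y =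
      ∑ l : κ → ZMod 2, ∏ i, (sg2 (l i * x i) * sg2 (l i * y i)) := by
    refine Finset.sum_congr rfl fun l _ => ?_
    rw [chv, chv, ← Finset.prod_mul_distrib]
  rw [h2, ← h1]
  simp_rw [orth1']
  by_cases hxy : x = y
  · rw [if_pos hxy, hxy]
    simp
  · rw [if_neg hxy]
    obtain ⟨i, hi⟩ := Function.ne_iff.1 hxy
    exact Finset.prod_eq_zero (mem_univ i) (if_neg hi)

/-- Fourier transform -/
noncomputable def hat' (F : (κ → ZMod 2) → ℝ) (l : κ → ZMod 2) : ℝ := ∑ e, F e * chv l e

theorem inv' (F : (κ → ZMod 2) → ℝ) (e : κ → ZMod 2) :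
    2 ^ Fintype.card κ * F e = ∑ l, hat' F l * chv l e := by
  unfold hat'
  simp_rw [Finset.sum_mul]
  rw [Finset.sum_comm]
  have : ∀ x : κ → ZMod 2, ∑ l, F x * chv l x * chv l e =
      F x * if x = e then 2 ^ Fintype.card κ else 0 := by
    intro x
    rw [← orth', Finset.mul_sum]
    exact Finset.sum_congr rfl fun l _ => by ring
  simp_rw [this]
  simp [mul_comm]

omit [DecidableEq κ] in
lemma chv_const (t : ZMod 2) (e : κ → ZMod 2) : chv (fun _ => t) e = sg2 (t * ∑ i, e i) := by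
  unfold chv
  rw [Finset.mul_sum, sg2_sum]

end fourier

/-! ### the sign on an unlinked set -/

section general

variable {ι : Type*} [Fintype ι] [DecidableEq ι]

/-- a linear order on the indices -/
noncomputable def ord (u : ι) : Fin (Fintype.card ι) := Fintype.equivFin ι u

omit [DecidableEq ι] in
lemma ord_inj {u v : ι} (h : ord u = ord v) : u = v := (Fintype.equivFin ι).injective h

/-- the quadratic form of an unlinked set -/
noncomputable def Qs (U : Finset ι) (P : ι → ι → ZMod 2) (e : U → ZMod 2) : ZMod 2 :=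
  ∑ u : U, ∑ v : U, if ord (u : ι) < ord (v : ι) then P u v * (e u * e v) else 0

omit [DecidableEq ι] in
lemma prod_pairs (U : Finset ι) (f : ι → ι → ℝ) (h1 : ∀ u, f u u = 1) :
    ∏ u ∈ U, ∏ v ∈ U, f u v = ∏ u ∈ U, ∏ v ∈ U, (if ord u < ord v then f u v * f v u else 1) := by
  have e1 : ∀ u v, f u v = (if ord u < ord v then f u v else 1) *
      (if ord v < ord u then f u v else 1) := by
    intro u v
    rcases lt_trichotomy (ord u) (ord v) with h | h | h
    · rw [if_pos h, if_neg (not_lt.2 h.le), mul_one]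
    · rw [ord_inj h, if_neg (lt_irrefl _), h1]
      ring
    · rw [if_neg (not_lt.2 h.le), if_pos h, one_mul]
  have e2 : ∏ u ∈ U, ∏ v ∈ U, (if ord v < ord u then f u v else 1)
      = ∏ u ∈ U, ∏ v ∈ U, (if ord u < ord v then f v u else 1) := Finset.prod_comm
  calc ∏ u ∈ U, ∏ v ∈ U, f u v = ∏ u ∈ U, ∏ v ∈ U, ((if ord u < ord v then f u v else 1) *
      (if ord v < ord u then f u v else 1)) := by
        refine Finset.prod_congr rfl fun u _ => Finset.prod_congr rfl fun v _ => ?_
        rw [← e1]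
    _ = _ := by
        simp only [Finset.prod_mul_distrib]
        rw [e2]
        simp only [← Finset.prod_mul_distrib]
        refine Finset.prod_congr rfl fun u _ => Finset.prod_congr rfl fun v _ => ?_
        split_ifs
        · rfl
        · ring

omit [DecidableEq ι] in
lemma tup_cop [DecidableEq ι] {n : ℕ} (hn : Squarefree n) {D : ι → ℕ} (hD : D ∈ tup ι n) {u v : ι}
    (huv : u ≠ v) : (D u).Coprime (D v) := by
  have h := (mem_tup hn.ne_zero).1 hD
  have h1 : D u * D v ∣ n := by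
    rw [← h, ← Finset.prod_pair huv]
    exact Finset.prod_dvd_prod_of_subset _ _ _ (Finset.subset_univ _)
  exact Nat.coprime_of_squarefree_mul (hn.squarefree_of_dvd h1)

lemma J_one_left' (b : ℕ) : J 1 b = 1 := by
  unfold Vale.Agent.P014.H580.J
  rw [Nat.cast_one, jacobiSym.one_left]
  simp

theorem wtG_eq (d : Dat ι) {U : Finset ι} (hU : ∀ u ∈ U, ∀ v ∈ U, d.P u v = d.P v u)
    {n : ℕ} (hn : Squarefree n) (ho : Odd n) {D : ι → ℕ} (hD : D ∈ tup ι n)
    (hs : ∀ u, u ∉ U → D u = 1) :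
    wtG d D = (∏ u ∈ U, ch (d.A u) (d.B u) (d.C u) (D u)) *
      sg2 (Qs U d.P (fun u => e4' (D u))) := by
  have hodd : ∀ u, Odd (D u) := fun u => Odd.of_dvd_nat ho (tup_dvd hD u)
  unfold wtG
  congr 1
  · symm
    refine Finset.prod_subset (Finset.subset_univ _) fun u _ hu => ?_
    rw [hs u hu, ch_one]
  · have h4 : ∏ u, ∏ v, (if d.P u v = 1 then J (D u) (D v) else 1)
        = ∏ u ∈ U, ∏ v ∈ U, (if d.P u v = 1 then J (D u) (D v) else 1) := by
      symm
      have h2 : ∀ u v, u ∉ U → (if d.P u v = 1 then J (D u) (D v) else 1) = 1 := by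
        intro u v hu
        rw [hs u hu, J_one_left']
        simp
      have h3 : ∀ u v, v ∉ U → (if d.P u v = 1 then J (D u) (D v) else 1) = 1 := by
        intro u v hv
        rw [hs v hv, Vale.Agent.P014.FM.J_one_right]
        simp
      rw [Finset.prod_subset (Finset.subset_univ U)
        (fun u _ hu => Finset.prod_eq_one fun v _ => h2 u v hu)]
      refine Finset.prod_congr rfl fun u _ => ?_
      exact Finset.prod_subset (Finset.subset_univ _) fun v _ hv => h3 u v hv
    rw [h4, prod_pairs U _ (fun u => by rw [d.hP, if_neg (by decide)])]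
    unfold Qs
    rw [sg2_sum]
    rw [← Finset.prod_coe_sort U (fun u => ∏ v ∈ U, (if ord u < ord v then
      (if d.P u v = 1 then J (D u) (D v) else 1) * (if d.P v u = 1 then J (D v) (D u) else 1)
        else 1))]
    refine Finset.prod_congr rfl fun u _ => ?_
    rw [sg2_sum, ← Finset.prod_coe_sort U (fun v => (if ord (u : ι) < ord v then
      (if d.P u v = 1 then J (D u) (D v) else 1) * (if d.P v u = 1 then J (D v) (D u) else 1)
        else 1))]
    refine Finset.prod_congr rfl fun v _ => ?_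
    by_cases ho : ord (u : ι) < ord (v : ι)
    · rw [if_pos ho, if_pos ho]
      have huv : (u : ι) ≠ v := by
        intro h
        rw [h] at ho
        exact lt_irrefl _ ho
      rw [← hU u u.2 v v.2]
      by_cases h1 : d.P u v = 1
      · rw [if_pos h1, if_pos h1, h1, one_mul]
        exact pair_recip (hodd _) (hodd _) (tup_cop hn hD huv)
      · have h01 : ∀ z : ZMod 2, z ≠ 1 → z = 0 := by decide
        rw [if_neg h1, if_neg h1, h01 _ h1, zero_mul, sg2_zero]
        ring
    · rw [if_neg ho, if_neg ho, sg2_zero]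

/-- the average of the characters on `U` -/
noncomputable def favG (d : Dat ι) (U : Finset ι) (l : U → ZMod 2) (p : ℕ) : ℝ :=
  (1 / (d.m : ℝ)) * ∑ u : U, ch (d.A u + (l u).val) (d.B u) (d.C u) p

open Classical in
/-- the part supported on `U` -/
noncomputable def mainG (d : Dat ι) (U : Finset ι) (n : ℕ) : ℝ :=
  qw d.m n * ∑ D ∈ (tup ι n).filter (fun D => ∀ u, u ∉ U → D u = 1), wtG d D

lemma ch_sg (a b c : ℕ) (l : ZMod 2) {x : ℕ} (hx : Odd x) :
    ch a b c x * sg2 (l * e4' x) = ch (a + l.val) b c x := by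
  unfold ch
  rw [sg2_pow, ← chi4_sg hx, pow_add]
  ring

theorem mainG_eq (d : Dat ι) {U : Finset ι} (hU : U ∈ UsG d.P d.m) {n : ℕ} (hn : Squarefree n)
    (ho : Odd n) :
    mainG d U n = (1 / 2 ^ d.m) * ∑ l : U → ZMod 2,
      hat' (fun e => sg2 (Qs U d.P e)) l * ∏ p ∈ n.primeFactors, favG d U l p := by
  classical
  rw [mem_UsG] at hU
  obtain ⟨hcard, hun⟩ := hU
  have hcard' : Fintype.card U = d.m := by rw [Fintype.card_coe, hcard]
  -- the product over the primes
  have h1 : ∀ l : U → ZMod 2, ∏ p ∈ n.primeFactors, favG d U l p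
      = qw d.m n * ∑ D ∈ (tup ι n).filter (fun D => ∀ u, u ∉ U → D u = 1),
          ∏ u : U, ch (d.A u + (l u).val) (d.B u) (d.C u) (D u) := by
    intro l
    set lx : ι → ZMod 2 := fun u => if h : u ∈ U then l ⟨u, h⟩ else 0 with hlx
    have hlx' : ∀ u : U, lx u = l u := by
      intro u
      rw [hlx]
      dsimp only
      rw [dif_pos u.2]
    have h2 := sum_supp (ι := ι) (U := U)
      (g := fun u x => ch (d.A u + (lx u).val) (d.B u) (d.C u) x)
      (fun u => ch_one _ _ _) (fun u a b => ch_mul _ _ _ _ _) hn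
    have h3 : ∀ D : ι → ℕ, ∏ u : U, ch (d.A u + (l u).val) (d.B u) (d.C u) (D u)
        = ∏ u ∈ U, ch (d.A u + (lx u).val) (d.B u) (d.C u) (D u) := by
      intro D
      rw [← Finset.prod_coe_sort U]
      refine Finset.prod_congr rfl fun u _ => ?_
      rw [hlx']
    simp only [h3]
    rw [h2]
    unfold favG qw
    rw [Finset.prod_mul_distrib, Finset.prod_const]
    congr 1
    refine Finset.prod_congr rfl fun p _ => ?_
    rw [← Finset.sum_coe_sort U]
    refine Finset.sum_congr rfl fun u _ => ?_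
    rw [hlx']
  simp_rw [h1]
  unfold mainG
  have h2 : ∀ D ∈ (tup ι n).filter (fun D => ∀ u, u ∉ U → D u = 1), wtG d D
      = (1 / 2 ^ d.m) * ∑ l : U → ZMod 2, hat' (fun e => sg2 (Qs U d.P e)) l *
          ∏ u : U, ch (d.A u + (l u).val) (d.B u) (d.C u) (D u) := by
    intro D hD
    rw [Finset.mem_filter] at hD
    have hodd : ∀ u, Odd (D u) := fun u => Odd.of_dvd_nat ho (tup_dvd hD.1 u)
    rw [wtG_eq d hun hn ho hD.1 hD.2]
    have h3 := inv' (fun e => sg2 (Qs U d.P e)) (fun u : U => e4' (D u))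
    rw [hcard'] at h3
    have h2m : (2 : ℝ) ^ d.m ≠ 0 := by positivity
    have h4 : sg2 (Qs U d.P (fun u => e4' (D u))) = (1 / 2 ^ d.m) *
        ∑ l, hat' (fun e => sg2 (Qs U d.P e)) l * chv l (fun u : U => e4' (D u)) := by
      rw [← h3]
      field_simp
    rw [h4, ← Finset.prod_coe_sort U, mul_left_comm, Finset.mul_sum]
    congr 1
    refine Finset.sum_congr rfl fun l _ => ?_
    rw [mul_left_comm]
    congr 1
    unfold chv
    rw [← Finset.prod_mul_distrib]
    refine Finset.prod_congr rfl fun u _ => ?_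
    exact ch_sg _ _ _ _ (hodd u)
  rw [Finset.sum_congr rfl h2, ← Finset.mul_sum, Finset.sum_comm, mul_left_comm, Finset.mul_sum]
  congr 1
  refine Finset.sum_congr rfl fun l _ => ?_
  rw [← Finset.mul_sum]
  ring

end general

/-- averages of characters, not all equal -/
theorem fav_small (hsw : SW) {κ : Type*} [Fintype κ] [DecidableEq κ] (m : ℕ)
    (hm : Fintype.card κ = m)
    (g : κ → ℕ → ℝ) (hg : ∀ i n, |g i n| ≤ 1) (i j : κ) (hij : i ≠ j) (q : ℕ)
    (hnp : NPChar q (fun n => ((g i n * g j n : ℝ) : ℂ)))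
    (hval : ∀ n, g i n * g j n = 1 ∨ g i n * g j n = -1 ∨ (g i n * g j n = 0 ∧ ¬ n.Coprime q)) :
    ∀ ε : ℝ, 0 < ε → ∃ X₀ : ℕ, ∀ X : ℕ, X₀ ≤ X → ∀ S : Finset ℕ, S ⊆ sqf X →
      |∑ n ∈ S, ∏ p ∈ n.primeFactors, ((1 / (m : ℝ)) * ∑ k, g k p)| ≤ ε * X := by
  have hm2 : 2 ≤ m := by
    rw [← hm]
    have : ({i, j} : Finset κ).card ≤ Fintype.card κ := Finset.card_le_univ _
    rwa [Finset.card_pair hij] at this
  have hm0 : (0 : ℝ) < m := by exact_mod_cast (by omega : 0 < m)
  have hm2R : (2 : ℝ) ≤ m := by exact_mod_cast hm2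
  set δ : ℝ := 2 / m with hδ
  have hδ0 : 0 < δ := by positivity
  have hδ1 : δ ≤ 1 := by
    rw [hδ, div_le_one hm0]
    exact hm2R
  obtain ⟨C, hC, hb⟩ := fm2d hsw hnp hval δ hδ0.le hδ1
  have hlim : Tendsto (fun X : ℕ => C * Real.log X ^ (-(δ / 2))) atTop (nhds 0) := by
    have h1 := (tendsto_rpow_neg_atTop (by positivity : (0 : ℝ) < δ / 2)).comp
      (Real.tendsto_log_atTop.comp tendsto_natCast_atTop_atTop)
    have h2 := h1.const_mul C
    rw [mul_zero] at h2
    exact h2
  intro ε hε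
  obtain ⟨X₁, hX₁⟩ := eventually_atTop.1 (hlim.eventually (ge_mem_nhds hε))
  refine ⟨max X₁ 3, fun X hX S hS => ?_⟩
  have hX1 := hX₁ X ((le_max_left _ _).trans hX)
  have hX3 : (3 : ℝ) ≤ X := by exact_mod_cast (le_max_right _ _).trans hX
  set fv : ℕ → ℝ := fun p => (1 / (m : ℝ)) * ∑ k, g k p with hfv
  have hf1 : ∀ p, |fv p| ≤ 1 := by
    intro p
    rw [hfv]
    dsimp only
    rw [abs_mul, abs_of_pos (by positivity : (0 : ℝ) < 1 / (m : ℝ))]
    have h1 : |∑ k, g k p| ≤ m := by
      calc |∑ k, g k p| ≤ ∑ k, |g k p| := Finset.abs_sum_le_sum_abs _ _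
        _ ≤ ∑ _k : κ, (1 : ℝ) := Finset.sum_le_sum fun k _ => hg k p
        _ = m := by simp [hm]
    rw [one_div, inv_mul_le_iff₀ hm0, mul_one]
    exact h1
  have hf2 : ∀ p, g i p * g j p = -1 → |fv p| ≤ 1 - δ := by
    intro p hp
    have h1 : g i p + g j p = 0 := by
      have ha := abs_le.1 (hg i p)
      have hb := abs_le.1 (hg j p)
      have h2 : (g i p + g j p) ^ 2 ≤ 0 := by nlinarith
      nlinarith [sq_nonneg (g i p + g j p)]
    have h2 : ∑ k, g k p = ∑ k ∈ univ \ {i, j}, g k p := by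
      rw [← Finset.sum_sdiff (Finset.subset_univ {i, j}), Finset.sum_pair hij, h1, add_zero]
    have h3 : |∑ k, g k p| ≤ m - 2 := by
      rw [h2]
      calc |∑ k ∈ univ \ {i, j}, g k p| ≤ ∑ k ∈ univ \ {i, j}, |g k p| :=
            Finset.abs_sum_le_sum_abs _ _
        _ ≤ ∑ _k ∈ univ \ {i, j}, (1 : ℝ) := Finset.sum_le_sum fun k _ => hg k p
        _ = m - 2 := by
            rw [Finset.sum_const, Finset.card_sdiff_of_subset (Finset.subset_univ _),
              Finset.card_pair hij, Finset.card_univ, hm, nsmul_eq_mul, mul_one,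
              Nat.cast_sub hm2]
            norm_num
    rw [hfv]
    dsimp only
    rw [abs_mul, abs_of_pos (by positivity : (0 : ℝ) < 1 / (m : ℝ)), one_div,
      inv_mul_le_iff₀ hm0, hδ]
    have h4 : (m : ℝ) * (1 - 2 / m) = m - 2 := by field_simp
    rw [h4]
    exact h3
  have h1 := hb X hX3 (fun p => |fv p|) (fun p => abs_nonneg _) (fun p _ => hf1 p)
    (fun p _ hp => hf2 p hp)
  rw [Nat.floor_natCast] at h1
  have h2 : |∑ n ∈ S, ∏ p ∈ n.primeFactors, fv p| ≤ ∑ n ∈ sqf X, mf (fun p => |fv p|) n := by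
    refine (Finset.abs_sum_le_sum_abs _ _).trans ?_
    refine le_trans (le_of_eq (Finset.sum_congr rfl fun n _ => Finset.abs_prod _ _)) ?_
    exact Finset.sum_le_sum_of_subset_of_nonneg hS
      (fun n _ _ => mf_nonneg (fun p => abs_nonneg _) n)
  calc |∑ n ∈ S, ∏ p ∈ n.primeFactors, fv p| ≤ C * X * Real.log X ^ (-(δ / 2)) := h2.trans h1
    _ = (C * Real.log X ^ (-(δ / 2))) * X := by ring
    _ ≤ ε * X := by gcongr

end Vale.Agent.P017.H626
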