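import Vale.Agent.P017.H626.B2

/-!
The main term of an unlinked set when there are no characters at the level of the coordinates.
-/

namespace Vale.Agent.P017.H626

open Finset Function Vale.Agent.P014.H580 Vale.Agent.P014.FM Vale.Agent.P014.H687.FM Filter

section general

variable {ι : Type*} [Fintype ι] [DecidableEq ι]

/-- the constant of an unlinked set -/
noncomputable def gam (P : ι → ι → ZMod 2) (m : ℕ) (U : Finset ι) (s : ZMod 2) : ℝ :=
  (2 / 2 ^ m) * ∑ e : U → ZMod 2, if ∑ u, e u = s then sg2 (Qs U P e) else 0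

/-- the limit constant of `l` -/
noncomputable def kap' {κ : Type*} [Fintype κ] [DecidableEq κ] (i : κ) (s : ZMod 2)
    (l : κ → ZMod 2) : ℝ :=
  if l = (fun _ => l i) then sg2 (l i * s) else 0

lemma sum_kap' {κ : Type*} [Fintype κ] [DecidableEq κ] (i : κ) (s : ZMod 2)
    (F : (κ → ZMod 2) → ℝ) :
    ∑ l, F l * kap' i s l = ∑ t : ZMod 2, F (fun _ => t) * sg2 (t * s) := by
  have h1 : ∀ l : κ → ZMod 2, F l * kap' i s l =
      if l = (fun _ => l i) then F l * sg2 (l i * s) else 0 := by
    intro l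
    unfold kap'
    split_ifs <;> simp
  simp_rw [h1]
  rw [← Finset.sum_filter]
  refine Finset.sum_bij' (fun l _ => l i) (fun t _ => fun _ => t) ?_ ?_ ?_ ?_ ?_
  · intro l _; exact mem_univ _
  · intro t _
    rw [Finset.mem_filter]
    exact ⟨mem_univ _, rfl⟩
  · intro l hl
    exact (Finset.mem_filter.1 hl).2.symm
  · intro t _; rfl
  · intro l hl
    have h := (Finset.mem_filter.1 hl).2
    rw [← h]

lemma gam_hat (P : ι → ι → ZMod 2) (m : ℕ) (U : Finset ι) (s : ZMod 2) :
    (1 / 2 ^ m) * ∑ t : ZMod 2, hat' (fun e => sg2 (Qs U P e)) (fun _ => t) * sg2 (t * s)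
      = gam P m U s := by
  unfold gam hat'
  have h1 : ∑ t : ZMod 2, (∑ e : U → ZMod 2, sg2 (Qs U P e) * chv (fun _ => t) e) * sg2 (t * s)
      = ∑ e : U → ZMod 2, sg2 (Qs U P e) * (if ∑ u, e u = s then 2 else 0) := by
    simp_rw [Finset.sum_mul]
    rw [Finset.sum_comm]
    refine Finset.sum_congr rfl fun e _ => ?_
    rw [← orth1', Finset.mul_sum]
    refine Finset.sum_congr rfl fun t _ => ?_
    rw [chv_const]
    ring
  rw [h1, Finset.mul_sum, Finset.mul_sum]
  refine Finset.sum_congr rfl fun e _ => ?_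
  split_ifs <;> ring

lemma prod_ch {a b c n : ℕ} (hn : Squarefree n) :
    ∏ p ∈ n.primeFactors, ch a b c p = ch a b c n := by
  let f : ℕ →* ℝ := { toFun := ch a b c, map_one' := ch_one a b c, map_mul' := ch_mul a b c }
  have h : f (∏ p ∈ n.primeFactors, p) = ∏ p ∈ n.primeFactors, f p := map_prod f _ _
  rw [Nat.prod_primeFactors_of_squarefree hn] at h
  exact h.symm

lemma npchar_chi4 (k : ℕ) (hk : Odd k) : NPChar 4 (fun n => ((ch k 0 1 n : ℝ) : ℂ)) := by
  have hk0 : k ≠ 0 := hk.pos.ne'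
  have h3 : ch k 0 1 3 = -1 := by
    unfold ch chi4
    rw [Vale.Agent.P014.FM.J_one_right]
    norm_num
    exact hk.neg_one_pow
  refine NPChar.of_ne_one (b := 3) (by norm_num) ?_ ?_ ?_ ?_ ?_ (by norm_num)
  · intro m n
    rw [ch_mul]
    push_cast
    ring
  · intro n
    unfold ch
    rw [Vale.Agent.P014.FM.J_one_right, Vale.Agent.P014.FM.J_one_right, pow_zero, pow_zero]
    have := chi4_per n 1
    rw [mul_one] at this
    rw [this]
  · intro n hn
    have : ¬ Odd n := by
      intro ho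
      apply hn
      exact Nat.Coprime.pow_right 2 (Nat.coprime_two_right.2 ho)
    rw [ch_even hk0 this]
    simp
  · intro n
    rw [Complex.norm_real, Real.norm_eq_abs]
    exact ch_abs _ _ _ _
  · rw [h3]
    norm_num

lemma ch_val (a b n : ℕ) : ch a b 1 n = 1 ∨ ch a b 1 n = -1 ∨ (ch a b 1 n = 0 ∧ ¬ Odd n) := by
  unfold ch
  rw [Vale.Agent.P014.FM.J_one_right, mul_one]
  by_cases h : Odd n
  · have h4 : chi4 n = 1 ∨ chi4 n = -1 := by
      rw [chi4_sg h]
      rcases z2 (e4' n) with h | h <;> rw [h] <;> simp [sg2_zero, sg2_one]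
    have h8 := chi8_odd h
    have key : ∀ x y : ℝ, (x = 1 ∨ x = -1) → (y = 1 ∨ y = -1) → ∀ i j : ℕ,
        x ^ i * y ^ j = 1 ∨ x ^ i * y ^ j = -1 := by
      intro x y hx hy i j
      have h1 : ∀ z : ℝ, (z = 1 ∨ z = -1) → ∀ k : ℕ, z ^ k = 1 ∨ z ^ k = -1 := by
        intro z hz k
        rcases hz with rfl | rfl
        · left; exact one_pow k
        · exact neg_one_pow_eq_or ℝ k
      rcases h1 x hx i with h | h <;> rcases h1 y hy j with h' | h' <;> rw [h, h'] <;> simp
    rcases key _ _ h4 h8 a b with h' | h'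
    · exact Or.inl h'
    · exact Or.inr (Or.inl h')
  · by_cases hab : a = 0 ∧ b = 0
    · left
      rw [hab.1, hab.2, pow_zero, pow_zero, one_mul]
    · right; right
      refine ⟨?_, h⟩
      by_cases ha : a = 0
      · have hb : b ≠ 0 := fun hb => hab ⟨ha, hb⟩
        have : chi8 n = 0 := by
          unfold chi8
          rw [ZMod.χ₈_nat_eq_if_mod_eight, if_pos]
          · simp
          · rw [Nat.not_odd_iff_even, Nat.even_iff] at h
            exact h
        rw [this, zero_pow hb, mul_zero]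
      · rw [Vale.Agent.P014.FM.chi4_even h, zero_pow ha, zero_mul]

/-- the main term of one unlinked set -/
theorem mainG_lim (hsw : SW) (d : Dat ι) (hA : ∀ u, d.A u = 0) (hB : ∀ u, d.B u = 0)
    (hC : ∀ u, d.C u = 1) {U : Finset ι} (hU : U ∈ UsG d.P d.m) (s : ZMod 2) :
    ∀ ε : ℝ, 0 < ε → ∃ X₀ : ℕ, ∀ X : ℕ, X₀ ≤ X → ∀ S : Finset ℕ, S ⊆ sqf X →
      (∀ n ∈ S, Odd n ∧ e4' n = s) →
      |∑ n ∈ S, mainG d U n - gam d.P d.m U s * S.card| ≤ ε * X := by
  classical
  have hcard' : Fintype.card U = d.m := by rw [Fintype.card_coe, (mem_UsG.1 hU).1]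
  have hm1 := d.hm
  have hm0 : (0 : ℝ) < d.m := by exact_mod_cast hm1
  obtain ⟨i0⟩ : Nonempty U := by
    rw [← Fintype.card_pos_iff, hcard']
    omega
  -- each term
  have key : ∀ l : U → ZMod 2, ∀ ε : ℝ, 0 < ε → ∃ X₀ : ℕ, ∀ X : ℕ, X₀ ≤ X → ∀ S : Finset ℕ,
      S ⊆ sqf X → (∀ n ∈ S, Odd n ∧ e4' n = s) →
      |∑ n ∈ S, ∏ p ∈ n.primeFactors, favG d U l p - kap' i0 s l * S.card| ≤ ε * X := by
    intro l
    by_cases hl : l = (fun _ => l i0)
    · intro ε hε
      refine ⟨0, fun X _ S hS hfam => ?_⟩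
      have h1 : ∀ n ∈ S, ∏ p ∈ n.primeFactors, favG d U l p = sg2 (l i0 * s) := by
        intro n hn
        have hsq := (mem_sqf.1 (hS hn)).2
        have h2 : ∀ p, favG d U l p = ch (l i0).val 0 1 p := by
          intro p
          unfold favG
          rw [Finset.sum_congr rfl (g := fun _ => ch (l i0).val 0 1 p)]
          · rw [Finset.sum_const, Finset.card_univ, hcard', nsmul_eq_mul]
            field_simp
          · intro u _
            rw [hA, hB, hC, hl, zero_add]
        simp_rw [h2]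
        rw [prod_ch hsq]
        have h3 := ch_sg 0 0 1 (l i0) (hfam n hn).1
        rw [zero_add, (hfam n hn).2] at h3
        rw [← h3]
        unfold ch
        rw [Vale.Agent.P014.FM.J_one_right]
        simp
      rw [Finset.sum_congr rfl h1, Finset.sum_const, nsmul_eq_mul]
      unfold kap'
      rw [if_pos hl, mul_comm, sub_self, abs_zero]
      positivity
    · obtain ⟨j, hj⟩ : ∃ j, l j ≠ l i0 := by
        by_contra hcon
        push Not at hcon
        exact hl (funext hcon)
      have hij : j ≠ i0 := fun h => hj (by rw [h])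
      have hodd : Odd ((l j).val + (l i0).val) := by
        rcases z2 (l j) with h | h <;> rcases z2 (l i0) with h' | h'
        · exact absurd (h.trans h'.symm) hj
        · rw [h, h']; decide
        · rw [h, h']; decide
        · exact absurd (h.trans h'.symm) hj
      have hg : ∀ n, ch (d.A j + (l j).val) (d.B j) (d.C j) n *
          ch (d.A i0 + (l i0).val) (d.B i0) (d.C i0) n
          = ch ((l j).val + (l i0).val) 0 1 n := by
        intro n
        rw [hA, hA, hB, hB, hC, hC, ch_mul_ch _ _ _ _ _ _ _ one_ne_zero one_ne_zero,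
          zero_add, zero_add, mul_one]
      have h1 := fav_small hsw d.m hcard'
        (fun u : U => fun n => ch (d.A u + (l u).val) (d.B u) (d.C u) n)
        (fun u n => ch_abs _ _ _ _) j i0 hij 4
        (by
          simp only [hg]
          exact npchar_chi4 _ hodd)
        (by
          intro n
          simp only [hg]
          rcases ch_val ((l j).val + (l i0).val) 0 n with h | h | ⟨h, h'⟩
          · exact Or.inl h
          · exact Or.inr (Or.inl h)
          · refine Or.inr (Or.inr ⟨h, fun hc => h' ?_⟩)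
            exact Nat.coprime_two_right.1 (Nat.Coprime.coprime_dvd_right (by norm_num) hc))
      intro ε hε
      obtain ⟨X₀, hX₀⟩ := h1 ε hε
      refine ⟨X₀, fun X hX S hS _ => ?_⟩
      unfold kap'
      rw [if_neg hl, zero_mul, sub_zero]
      exact hX₀ X hX S hS
  intro ε hε
  set B : ℝ := ∑ l : U → ZMod 2, |hat' (fun e => sg2 (Qs U d.P e)) l| + 1 with hB'
  have hB0 : 0 < B := by
    have : 0 ≤ ∑ l : U → ZMod 2, |hat' (fun e => sg2 (Qs U d.P e)) l| :=
      Finset.sum_nonneg fun _ _ => abs_nonneg _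
    linarith
  have key2 := fun l => key l (ε / B) (by positivity)
  choose X₀ hX₀ using key2
  refine ⟨∑ l, X₀ l, fun X hX S hS hfam => ?_⟩
  have h1 : ∑ n ∈ S, mainG d U n = (1 / 2 ^ d.m) * ∑ l : U → ZMod 2,
      hat' (fun e => sg2 (Qs U d.P e)) l * ∑ n ∈ S, ∏ p ∈ n.primeFactors, favG d U l p := by
    rw [Finset.sum_congr rfl fun n hn => mainG_eq d hU (mem_sqf.1 (hS hn)).2 (hfam n hn).1,
      ← Finset.mul_sum, Finset.sum_comm]
    congr 1
    refine Finset.sum_congr rfl fun l _ => ?_
    rw [Finset.mul_sum]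
  have h2 : gam d.P d.m U s * S.card = (1 / 2 ^ d.m) * ∑ l : U → ZMod 2,
      hat' (fun e => sg2 (Qs U d.P e)) l * (kap' i0 s l * S.card) := by
    rw [← gam_hat, ← sum_kap' i0, mul_assoc, Finset.sum_mul]
    congr 1
    refine Finset.sum_congr rfl fun l _ => ?_
    ring
  rw [h1, h2, ← mul_sub, ← Finset.sum_sub_distrib, abs_mul]
  have h3 : |(1 : ℝ) / 2 ^ d.m| ≤ 1 := by
    rw [abs_of_pos (by positivity), div_le_one (by positivity)]
    exact one_le_pow₀ (by norm_num)
  have h4 : |∑ l : U → ZMod 2, (hat' (fun e => sg2 (Qs U d.P e)) l *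
      ∑ n ∈ S, ∏ p ∈ n.primeFactors, favG d U l p
      - hat' (fun e => sg2 (Qs U d.P e)) l * (kap' i0 s l * S.card))| ≤
      ∑ l : U → ZMod 2, |hat' (fun e => sg2 (Qs U d.P e)) l| * (ε / B * X) := by
    refine (Finset.abs_sum_le_sum_abs _ _).trans (Finset.sum_le_sum fun l _ => ?_)
    rw [← mul_sub, abs_mul]
    apply mul_le_mul_of_nonneg_left _ (abs_nonneg _)
    apply hX₀ l X _ S hS hfam
    exact (Finset.single_le_sum (f := X₀) (fun _ _ => Nat.zero_le _) (mem_univ l)).trans hX
  calc |(1 : ℝ) / 2 ^ d.m| * |∑ l : U → ZMod 2, (hat' (fun e => sg2 (Qs U d.P e)) l *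
      ∑ n ∈ S, ∏ p ∈ n.primeFactors, favG d U l p
      - hat' (fun e => sg2 (Qs U d.P e)) l * (kap' i0 s l * S.card))|
      ≤ 1 * ∑ l : U → ZMod 2, |hat' (fun e => sg2 (Qs U d.P e)) l| * (ε / B * X) := by
        gcongr
    _ = (∑ l : U → ZMod 2, |hat' (fun e => sg2 (Qs U d.P e)) l|) * (ε / B * X) := by
        rw [one_mul, Finset.sum_mul]
    _ ≤ B * (ε / B * X) := by
        apply mul_le_mul_of_nonneg_right _ (by positivity)
        linarith
    _ = ε * X := by
        field_simp

end general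

end Vale.Agent.P017.H626
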