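import Vale.Agent.P017.H626.B3

/-!
Sums over a family of squarefree numbers defined by characters.
-/

namespace Vale.Agent.P017.H626

open Finset Function Vale.Agent.P014.H580 Vale.Agent.P014.FM Vale.Agent.P014.H687.FM Filter

section general

variable {ι : Type*} [Fintype ι] [DecidableEq ι]

/-- change of the twist by a character of the product -/
def Dat.tw {ι : Type*} (d : Dat ι) (a b c : ℕ) (ha : a ≠ 0) (hc : Odd c)
    (hCc : ∀ u p, p.Prime → p ∣ d.C u → p ∣ c) : Dat ι :=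
  { d with a := a, b := b, c := c, ha := ha, hc := hc, hCc := hCc }

/-- the full sum over factorisations -/
noncomputable def kerG (d : Dat ι) (n : ℕ) : ℝ := qw d.m n * ∑ D ∈ tup ι n, wtG d D

/-- sums over squarefree numbers and their factorisations -/
lemma sum_sqf_tup (X : ℕ) (g : ℕ → ℝ) (F : (ι → ℕ) → ℝ) :
    ∑ n ∈ sqf X, g n * ∑ D ∈ tup ι n, F D
      = ∑ D ∈ TX ι X, sqh g D * F D := by
  classical
  have h1 : ∀ D ∈ (TX ι X).filter (fun D => Squarefree (∏ u, D u)), ∏ u, D u ∈ sqf X := by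
    intro D hD
    rw [Finset.mem_filter, mem_TX] at hD
    rw [mem_sqf]
    exact ⟨⟨one_le_prod hD.1.1, hD.1.2⟩, hD.2⟩
  have h2 : ∑ D ∈ TX ι X, sqh g D * F D
      = ∑ D ∈ (TX ι X).filter (fun D => Squarefree (∏ u, D u)), g (∏ u, D u) * F D := by
    rw [Finset.sum_filter]
    apply Finset.sum_congr rfl
    intro D _
    unfold sqh
    split_ifs
    · rfl
    · ring
  rw [h2, ← Finset.sum_fiberwise_of_maps_to h1]
  apply Finset.sum_congr rfl
  intro n hn
  rw [mem_sqf] at hn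
  rw [Finset.mul_sum]
  have hn0 : n ≠ 0 := hn.2.ne_zero
  apply Finset.sum_congr
  · ext D
    rw [mem_tup hn0, Finset.mem_filter, Finset.mem_filter, mem_TX]
    constructor
    · intro h4
      have h5 : ∀ u, 1 ≤ D u := fun u => Nat.pos_of_dvd_of_pos
        (h4 ▸ Finset.dvd_prod_of_mem D (mem_univ u)) (Nat.pos_of_ne_zero hn0)
      rw [h4]
      exact ⟨⟨⟨h5, hn.1.2⟩, hn.2⟩, rfl⟩
    · rintro ⟨_, h4⟩
      exact h4
  · intro D hD
    rw [Finset.mem_filter] at hD
    rw [hD.2]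

/-- **the reduction to the main terms for a family** -/
theorem fam_main (hsw : SW) (d : Dat ι) (hι : Fintype.card ι = d.m ^ 2) (hm : 2 ≤ d.m)
    (hmax : MaxUn d.P d.m) {T : Type*} [Fintype T] (α : T → ℝ) (a b c : T → ℕ)
    (ha : ∀ t, a t ≠ 0) (hc : ∀ t, Odd (c t))
    (hCc : ∀ t, ∀ u p, p.Prime → p ∣ d.C u → p ∣ c t) (f : ℕ → ℝ)
    (hf : ∀ n, f n = ∑ t, α t * ch (a t) (b t) (c t) n) :
    ∀ ε : ℝ, 0 < ε → ∃ X₀ : ℕ, ∀ X : ℕ, X₀ ≤ X →
      |∑ n ∈ sqf X, f n * (kerG d n - ∑ U ∈ UsG d.P d.m, mainG d U n)| ≤ ε * X := by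
  classical
  have key : ∀ t : T, ∀ ε : ℝ, 0 < ε → ∃ X₀ : ℕ, ∀ X : ℕ, X₀ ≤ X →
      |∑ D ∈ TX ι X, gG (d.tw (a t) (b t) (c t) (ha t) (hc t) (hCc t)) D *
        (1 - mUG d.P d.m D)| ≤ ε * X := fun t =>
    main_eps hsw (d.tw (a t) (b t) (c t) (ha t) (hc t) (hCc t)) hι hm hmax
  intro ε hε
  set B : ℝ := ∑ t, |α t| + 1 with hB'
  have hB0 : 0 < B := by
    have : 0 ≤ ∑ t, |α t| := Finset.sum_nonneg fun _ _ => abs_nonneg _
    linarith
  have key2 := fun t => key t (ε / B) (by positivity)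
  choose X₀ hX₀ using key2
  refine ⟨∑ t, X₀ t, fun X hX => ?_⟩
  have h1 : ∑ n ∈ sqf X, f n * (kerG d n - ∑ U ∈ UsG d.P d.m, mainG d U n)
      = ∑ t, α t * ∑ D ∈ TX ι X, gG (d.tw (a t) (b t) (c t) (ha t) (hc t) (hCc t)) D *
        (1 - mUG d.P d.m D) := by
    have e1 : ∀ n, kerG d n - ∑ U ∈ UsG d.P d.m, mainG d U n
        = qw d.m n * ∑ D ∈ tup ι n, (wtG d D * (1 - mUG d.P d.m D)) := by
      intro n
      unfold kerG mainG
      rw [← Finset.mul_sum, ← mul_sub]
      congr 1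
      simp only [mul_sub, mul_one, Finset.sum_sub_distrib]
      congr 1
      simp only [Finset.sum_filter]
      rw [Finset.sum_comm]
      apply Finset.sum_congr rfl
      intro D _
      unfold mUG
      rw [Finset.mul_sum]
      apply Finset.sum_congr rfl
      intro U _
      by_cases h : ∀ u, u ∉ U → D u = 1
      · rw [if_pos h, if_pos h, mul_one]
      · rw [if_neg h, if_neg h, mul_zero]
    have e2 : ∀ n ∈ sqf X, f n * (kerG d n - ∑ U ∈ UsG d.P d.m, mainG d U n)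
        = (f n * qw d.m n) * ∑ D ∈ tup ι n, (wtG d D * (1 - mUG d.P d.m D)) := by
      intro n _
      rw [e1, mul_assoc]
    rw [Finset.sum_congr rfl e2, sum_sqf_tup X (fun n => f n * qw d.m n)]
    simp_rw [Finset.mul_sum]
    rw [Finset.sum_comm]
    refine Finset.sum_congr rfl fun D _ => ?_
    have e3 : sqh (fun n => f n * qw d.m n) D
        = ∑ t, α t * pw (d.tw (a t) (b t) (c t) (ha t) (hc t) (hCc t)) (∏ u, D u) := by
      unfold sqh
      by_cases hsq : Squarefree (∏ u, D u)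
      · rw [if_pos hsq]
        show f (∏ u, D u) * qw d.m (∏ u, D u) = _
        rw [hf, Finset.sum_mul]
        refine Finset.sum_congr rfl fun t _ => ?_
        rw [pw_def, if_pos hsq]
        show _ = α t * (qw d.m (∏ u, D u) * ch (a t) (b t) (c t) (∏ u, D u))
        ring
      · rw [if_neg hsq]
        symm
        refine Finset.sum_eq_zero fun t _ => ?_
        rw [pw_not_sq _ hsq, mul_zero]
    rw [e3, Finset.sum_mul]
    refine Finset.sum_congr rfl fun t _ => ?_
    have e4 : gG (d.tw (a t) (b t) (c t) (ha t) (hc t) (hCc t)) D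
        = pw (d.tw (a t) (b t) (c t) (ha t) (hc t) (hCc t)) (∏ u, D u) * wtG d D := rfl
    rw [e4]
    ring
  rw [h1]
  refine (Finset.abs_sum_le_sum_abs _ _).trans ?_
  calc ∑ t, |α t * ∑ D ∈ TX ι X, gG (d.tw (a t) (b t) (c t) (ha t) (hc t) (hCc t)) D *
        (1 - mUG d.P d.m D)| ≤ ∑ t, |α t| * (ε / B * X) := by
        refine Finset.sum_le_sum fun t _ => ?_
        rw [abs_mul]
        apply mul_le_mul_of_nonneg_left _ (abs_nonneg _)
        apply hX₀ t X
        exact (Finset.single_le_sum (f := X₀) (fun _ _ => Nat.zero_le _) (mem_univ t)).trans hX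
    _ = (∑ t, |α t|) * (ε / B * X) := by rw [Finset.sum_mul]
    _ ≤ B * (ε / B * X) := by
        apply mul_le_mul_of_nonneg_right _ (by positivity)
        linarith
    _ = ε * X := by
        field_simp

/-- the moments over a family contained in a class modulo 4, without characters at the level of the
coordinates -/
theorem fam_pure (hsw : SW) (d : Dat ι) (hA : ∀ u, d.A u = 0) (hB : ∀ u, d.B u = 0)
    (hC : ∀ u, d.C u = 1) (hι : Fintype.card ι = d.m ^ 2) (hm : 2 ≤ d.m)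
    (hmax : MaxUn d.P d.m) (s : ZMod 2) {T : Type*} [Fintype T] (α : T → ℝ) (a b c : T → ℕ)
    (ha : ∀ t, a t ≠ 0) (hc : ∀ t, Odd (c t)) (F : ℕ → Prop) [DecidablePred F]
    (hf : ∀ n, (if F n then (1 : ℝ) else 0) = ∑ t, α t * ch (a t) (b t) (c t) n)
    (hF : ∀ n, F n → Odd n ∧ e4' n = s) :
    ∀ ε : ℝ, 0 < ε → ∃ X₀ : ℕ, ∀ X : ℕ, X₀ ≤ X →
      |∑ n ∈ (sqf X).filter F, kerG d n
        - (∑ U ∈ UsG d.P d.m, gam d.P d.m U s) * ((sqf X).filter F).card| ≤ ε * X := by
  classical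
  intro ε hε
  obtain ⟨X₁, h1⟩ := fam_main hsw d hι hm hmax α a b c ha hc (by
    intro t u p hp hpC
    rw [hC] at hpC
    exact absurd (Nat.dvd_one.1 hpC) hp.one_lt.ne') (fun n => if F n then (1 : ℝ) else 0) hf
    (ε / 2) (by positivity)
  set B : ℝ := (UsG d.P d.m).card + 1 with hB'
  have hB0 : 0 < B := by positivity
  have key : ∀ U : UsG d.P d.m, ∃ X₀ : ℕ, ∀ X : ℕ, X₀ ≤ X → ∀ S : Finset ℕ, S ⊆ sqf X →
      (∀ n ∈ S, Odd n ∧ e4' n = s) →
      |∑ n ∈ S, mainG d U n - gam d.P d.m U s * S.card| ≤ (ε / 2 / B) * X := fun U =>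
    mainG_lim hsw d hA hB hC U.2 s _ (by positivity)
  choose X₀ hX₀ using key
  refine ⟨max X₁ (∑ U, X₀ U), fun X hX => ?_⟩
  have h2 := h1 X ((le_max_left _ _).trans hX)
  set S := (sqf X).filter F with hS
  have e1 : ∑ n ∈ sqf X, (if F n then (1 : ℝ) else 0) *
      (kerG d n - ∑ U ∈ UsG d.P d.m, mainG d U n)
      = ∑ n ∈ S, kerG d n - ∑ U ∈ UsG d.P d.m, ∑ n ∈ S, mainG d U n := by
    rw [Finset.sum_comm, ← Finset.sum_sub_distrib, hS, Finset.sum_filter]
    refine Finset.sum_congr rfl fun n _ => ?_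
    split_ifs <;> simp
  rw [e1] at h2
  have h3 : |∑ U ∈ UsG d.P d.m, ∑ n ∈ S, mainG d U n
      - (∑ U ∈ UsG d.P d.m, gam d.P d.m U s) * S.card| ≤ ε / 2 * X := by
    rw [Finset.sum_mul, ← Finset.sum_sub_distrib, ← Finset.sum_coe_sort]
    refine (Finset.abs_sum_le_sum_abs _ _).trans ?_
    calc ∑ U : UsG d.P d.m, |∑ n ∈ S, mainG d U n - gam d.P d.m U s * S.card|
        ≤ ∑ _U : UsG d.P d.m, (ε / 2 / B) * X := by
          refine Finset.sum_le_sum fun U _ => ?_
          apply hX₀ U X _ S (Finset.filter_subset _ _)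
          · intro n hn
            exact hF n (Finset.mem_filter.1 hn).2
          · exact (Finset.single_le_sum (f := X₀) (fun _ _ => Nat.zero_le _)
              (mem_univ U)).trans ((le_max_right _ _).trans hX)
      _ = (UsG d.P d.m).card * ((ε / 2 / B) * X) := by
          rw [Finset.sum_const, nsmul_eq_mul, Finset.card_univ, Fintype.card_coe]
      _ ≤ B * ((ε / 2 / B) * X) := by
          apply mul_le_mul_of_nonneg_right _ (by positivity)
          linarith
      _ = ε / 2 * X := by field_simp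
  have a1 := abs_le.1 h2
  have a2 := abs_le.1 h3
  rw [abs_le]
  constructor
  · linarith [a1.1, a2.1]
  · linarith [a1.2, a2.2]

end general

end Vale.Agent.P017.H626
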