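import Vale.Agent.P017.H626.B4

/-!
The index set `F_2^k × F_2^k`: unlinked sets have at most `2^k` elements.
-/

namespace Vale.Agent.P017.H626

open Finset Function

variable {k : ℕ}

/-- the vectors -/
abbrev Wk (k : ℕ) := Fin k → ZMod 2

/-- the indices -/
abbrev Ix (k : ℕ) := Wk k × Wk k

/-- the dot product -/
def dt (x y : Wk k) : ZMod 2 := ∑ i, x i * y i

lemma dt_comm (x y : Wk k) : dt x y = dt y x := by
  unfold dt
  exact Finset.sum_congr rfl fun i _ => mul_comm _ _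

lemma dt_add_left (x y z : Wk k) : dt (x + y) z = dt x z + dt y z := by
  unfold dt
  rw [← Finset.sum_add_distrib]
  exact Finset.sum_congr rfl fun i _ => by rw [Pi.add_apply]; ring

lemma dt_add_right (x y z : Wk k) : dt x (y + z) = dt x y + dt x z := by
  rw [dt_comm, dt_add_left, dt_comm y, dt_comm z]

lemma dt_zero_left (x : Wk k) : dt 0 x = 0 := by
  unfold dt
  exact Finset.sum_eq_zero fun i _ => by rw [Pi.zero_apply, zero_mul]

lemma dt_zero_right (x : Wk k) : dt x 0 = 0 := by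
  rw [dt_comm, dt_zero_left]

lemma two_zero (a : ZMod 2) : a + a = 0 := by
  revert a
  decide

lemma add_self_W (x : Wk k) : x + x = 0 := by
  funext i
  exact two_zero _

lemma add_self_Ix (x : Ix k) : x + x = 0 := Prod.ext (add_self_W _) (add_self_W _)

/-- exponent of the symbol `(D_u | D_v)` -/
def Phi (u v : Ix k) : ZMod 2 := dt v.2 (u.1 + v.1)

/-- the quadratic form -/
def qf (w : Ix k) : ZMod 2 := dt w.1 w.2

lemma Phi_self (u : Ix k) : Phi u u = 0 := by
  unfold Phi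
  rw [add_self_W, dt_zero_right]

lemma Phi_add (u v : Ix k) : Phi u v + Phi v u = qf (u + v) := by
  unfold Phi qf
  rw [Prod.fst_add, Prod.snd_add, dt_comm (u.1 + v.1), dt_add_left, add_comm v.1 u.1, add_comm]

lemma eq_iff_add (a b : ZMod 2) : a = b ↔ a + b = 0 := by
  revert a b
  decide

lemma Phi_eq_iff (u v : Ix k) : Phi u v = Phi v u ↔ qf (u + v) = 0 := by
  rw [← Phi_add, eq_iff_add]

/-! ### The bound for unlinked sets -/

lemma sg2_dt (x y : Wk k) : sg2 (dt x y) = chv x y := by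
  unfold dt chv
  rw [sg2_sum]

lemma sum_sg_dt (z : Wk k) : ∑ b : Wk k, sg2 (dt b z) = if z = 0 then 2 ^ k else 0 := by
  have h := orth' (κ := Fin k) z 0
  rw [Fintype.card_fin] at h
  rw [← h]
  refine Finset.sum_congr rfl fun b _ => ?_
  rw [← sg2_dt, ← sg2_dt, dt_zero_right, sg2_zero, mul_one]

/-- the bilinear pairing on the indices -/
def bf (c w : Ix k) : ZMod 2 := dt c.1 w.2 + dt c.2 w.1

lemma bf_add (c u v : Ix k) : bf c (u + v) = bf c u + bf c v := by
  unfold bf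
  rw [Prod.snd_add, Prod.fst_add, dt_add_right, dt_add_right]
  ring

lemma sum_bf (w : Ix k) : ∑ c : Ix k, sg2 (bf c w) = if w = 0 then (2 ^ k * 2 ^ k : ℝ) else 0 := by
  rw [Fintype.sum_prod_type]
  have h1 : ∀ a b : Wk k, sg2 (bf (a, b) w) = sg2 (dt a w.2) * sg2 (dt b w.1) := by
    intro a b
    unfold bf
    rw [sg2_add]
  simp_rw [h1, ← Finset.mul_sum, ← Finset.sum_mul]
  rw [sum_sg_dt, sum_sg_dt]
  by_cases h2 : w.2 = 0
  · by_cases h3 : w.1 = 0
    · rw [if_pos h2, if_pos h3, if_pos (Prod.ext h3 h2)]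
    · rw [if_neg h3, mul_zero, if_neg (fun h => h3 (by rw [h]; rfl))]
  · rw [if_neg h2, zero_mul, if_neg (fun h => h2 (by rw [h]; rfl))]

lemma sum_qf (w : Ix k) : ∑ c : Ix k, sg2 (qf c) * sg2 (bf c w) = 2 ^ k * sg2 (qf w) := by
  rw [Fintype.sum_prod_type]
  have h1 : ∀ a b : Wk k, sg2 (qf (a, b)) * sg2 (bf (a, b) w)
      = sg2 (dt a w.2) * sg2 (dt b (a + w.1)) := by
    intro a b
    unfold qf bf
    rw [← sg2_add, ← sg2_add]
    congr 1
    rw [dt_add_right b, dt_comm b a]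
    ring
  simp_rw [h1, ← Finset.mul_sum, sum_sg_dt]
  rw [Finset.sum_eq_single w.1]
  · rw [add_self_W, if_pos rfl]
    unfold qf
    ring
  · intro a _ ha
    rw [if_neg, mul_zero]
    intro h
    apply ha
    calc a = a + (w.1 + w.1) := by rw [add_self_W, add_zero]
      _ = (a + w.1) + w.1 := by rw [add_assoc]
      _ = w.1 := by rw [h, zero_add]
  · intro h
    exact absurd (mem_univ _) h

/-- unlinked sets have at most `2^k` elements -/
theorem unl_card_le (U : Finset (Ix k)) (hU : ∀ u ∈ U, ∀ v ∈ U, Phi u v = Phi v u) :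
    U.card ≤ 2 ^ k := by
  have h1 : ∑ u ∈ U, ∑ v ∈ U, sg2 (qf (u + v)) = (U.card : ℝ) * U.card := by
    have : ∀ u ∈ U, ∀ v ∈ U, sg2 (qf (u + v)) = 1 := by
      intro u hu v hv
      rw [(Phi_eq_iff u v).1 (hU u hu v hv), sg2_zero]
    rw [Finset.sum_congr rfl fun u hu => Finset.sum_congr rfl (this u hu)]
    simp
  have hsw : ∀ f : Ix k → Ix k → Ix k → ℝ, ∑ u ∈ U, ∑ v ∈ U, ∑ c, f u v c
      = ∑ c, ∑ u ∈ U, ∑ v ∈ U, f u v c := by
    intro f
    rw [Finset.sum_congr rfl (fun u _ => Finset.sum_comm), Finset.sum_comm]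
  have h2 : (2 : ℝ) ^ k * ∑ u ∈ U, ∑ v ∈ U, sg2 (qf (u + v))
      = ∑ c : Ix k, sg2 (qf c) * (∑ u ∈ U, sg2 (bf c u)) ^ 2 := by
    have e1 : (2 : ℝ) ^ k * ∑ u ∈ U, ∑ v ∈ U, sg2 (qf (u + v))
        = ∑ u ∈ U, ∑ v ∈ U, ∑ c : Ix k, sg2 (qf c) * (sg2 (bf c u) * sg2 (bf c v)) := by
      rw [Finset.mul_sum]
      refine Finset.sum_congr rfl fun u _ => ?_
      rw [Finset.mul_sum]
      refine Finset.sum_congr rfl fun v _ => ?_
      rw [← sum_qf]
      refine Finset.sum_congr rfl fun c _ => ?_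
      rw [bf_add, sg2_add]
    rw [e1, hsw]
    refine Finset.sum_congr rfl fun c _ => ?_
    rw [sq, Finset.sum_mul_sum, Finset.mul_sum]
    refine Finset.sum_congr rfl fun u _ => ?_
    rw [Finset.mul_sum]
  have h3 : ∑ c : Ix k, (∑ u ∈ U, sg2 (bf c u)) ^ 2 = (2 ^ k * 2 ^ k) * U.card := by
    have e1 : ∑ c : Ix k, (∑ u ∈ U, sg2 (bf c u)) ^ 2
        = ∑ u ∈ U, ∑ v ∈ U, ∑ c : Ix k, sg2 (bf c (u + v)) := by
      rw [hsw]
      refine Finset.sum_congr rfl fun c _ => ?_
      rw [sq, Finset.sum_mul_sum]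
      refine Finset.sum_congr rfl fun u _ => Finset.sum_congr rfl fun v _ => ?_
      rw [bf_add, sg2_add]
    rw [e1]
    simp_rw [sum_bf]
    have e2 : ∀ u ∈ U, ∑ v ∈ U, (if u + v = 0 then (2 ^ k * 2 ^ k : ℝ) else 0)
        = 2 ^ k * 2 ^ k := by
      intro u hu
      have e3 : ∀ v : Ix k, (u + v = 0 ↔ u = v) := by
        intro v
        constructor
        · intro h
          calc u = u + (v + v) := by rw [add_self_Ix, add_zero]
            _ = (u + v) + v := by rw [add_assoc]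
            _ = v := by rw [h, zero_add]
        · rintro rfl
          exact add_self_Ix u
      simp_rw [e3]
      rw [Finset.sum_ite_eq, if_pos hu]
    rw [Finset.sum_congr rfl e2, Finset.sum_const, nsmul_eq_mul, mul_comm]
  have h4 : ∑ c : Ix k, sg2 (qf c) * (∑ u ∈ U, sg2 (bf c u)) ^ 2
      ≤ ∑ c : Ix k, (∑ u ∈ U, sg2 (bf c u)) ^ 2 := by
    refine Finset.sum_le_sum fun c _ => ?_
    have h5 : sg2 (qf c) ≤ 1 := (le_abs_self _).trans (sg2_abs _).le
    have h6 : 0 ≤ (∑ u ∈ U, sg2 (bf c u)) ^ 2 := sq_nonneg _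
    nlinarith
  rw [← h2, h1, h3] at h4
  have h5 : (0 : ℝ) < 2 ^ k := by positivity
  rcases Nat.eq_zero_or_pos U.card with h0 | h0
  · rw [h0]
    exact Nat.zero_le _
  · have h7 : (0 : ℝ) < U.card := by exact_mod_cast h0
    have h8 : (U.card : ℝ) ≤ 2 ^ k := by
      have h9 : (2 ^ k * U.card) * (U.card : ℝ) ≤ (2 ^ k * U.card) * 2 ^ k := by linarith
      exact le_of_mul_le_mul_left h9 (by positivity)
    exact_mod_cast h8

/-- the unlinked sets with `2^k` elements are maximal -/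
theorem maxUn (k : ℕ) : MaxUn (Phi (k := k)) (2 ^ k) := by
  classical
  intro U hU w hw
  rw [mem_UsG] at hU
  by_contra hcon
  push Not at hcon
  have h1 := unl_card_le (insert w U) (by
    intro u hu v hv
    rw [Finset.mem_insert] at hu hv
    rcases hu with rfl | hu
    · rcases hv with rfl | hv
      · rfl
      · exact (hcon v hv).symm
    · rcases hv with rfl | hv
      · exact hcon u hu
      · exact hU.2 u hu v hv)
  rw [Finset.card_insert_of_notMem hw, hU.1] at h1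
  omega

end Vale.Agent.P017.H626
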