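import Vale.Agent.P017.H626.C1

/-!
The constants of the maximal unlinked sets.
-/

namespace Vale.Agent.P017.H626

open Finset Function

section general

variable {ι : Type*} [Fintype ι] [DecidableEq ι]

lemma Qs_add (U : Finset ι) (P : ι → ι → ZMod 2) (hs : ∀ u ∈ U, ∀ v ∈ U, P u v = P v u)
    (h0 : ∀ u, P u u = 0) (e f : U → ZMod 2) :
    Qs U P (e + f) = Qs U P e + Qs U P f + ∑ u : U, ∑ v : U, P u v * (e u * f v) := by
  have e1 : ∀ u v : U, P u v * (e u * f v) =
      (if ord (u : ι) < ord (v : ι) then P u v * (e u * f v) else 0) +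
      (if ord (v : ι) < ord (u : ι) then P u v * (e u * f v) else 0) := by
    intro u v
    rcases lt_trichotomy (ord (u : ι)) (ord (v : ι)) with h | h | h
    · rw [if_pos h, if_neg (not_lt.2 h.le), add_zero]
    · rw [if_neg (by rw [h]; exact lt_irrefl _), if_neg (by rw [h]; exact lt_irrefl _),
        ord_inj h, h0]
      ring
    · rw [if_neg (not_lt.2 h.le), if_pos h, zero_add]
  have e2 : ∑ u : U, ∑ v : U, (if ord (v : ι) < ord (u : ι) then P u v * (e u * f v) else 0)
      = ∑ u : U, ∑ v : U, (if ord (u : ι) < ord (v : ι) then P u v * (e v * f u) else 0) := by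
    rw [Finset.sum_comm]
    refine Finset.sum_congr rfl fun u _ => Finset.sum_congr rfl fun v _ => ?_
    rw [hs u u.2 v v.2]
  have e3 : ∑ u : U, ∑ v : U, P u v * (e u * f v)
      = ∑ u : U, ∑ v : U, (if ord (u : ι) < ord (v : ι) then
          P u v * (e u * f v) + P u v * (e v * f u) else 0) := by
    rw [Finset.sum_congr rfl fun u _ => Finset.sum_congr rfl fun v _ => e1 u v]
    simp only [Finset.sum_add_distrib]
    rw [e2]
    simp only [← Finset.sum_add_distrib]
    refine Finset.sum_congr rfl fun u _ => Finset.sum_congr rfl fun v _ => ?_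
    split_ifs <;> ring
  rw [e3]
  unfold Qs
  simp only [← Finset.sum_add_distrib]
  refine Finset.sum_congr rfl fun u _ => Finset.sum_congr rfl fun v _ => ?_
  rw [Pi.add_apply, Pi.add_apply]
  split_ifs <;> ring

lemma Qs_single (U : Finset ι) (P : ι → ι → ZMod 2) (a : U) :
    Qs U P (Pi.single a 1) = 0 := by
  unfold Qs
  refine Finset.sum_eq_zero fun u _ => Finset.sum_eq_zero fun v _ => ?_
  split_ifs with h
  · by_cases hu : u = a
    · have hv : v ≠ a := by
        rintro rfl
        rw [hu] at h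
        exact lt_irrefl _ h
      rw [Pi.single_eq_of_ne hv]
      ring
    · rw [Pi.single_eq_of_ne hu]
      ring
  · rfl

lemma Qs_add_single (U : Finset ι) (P : ι → ι → ZMod 2) (hs : ∀ u ∈ U, ∀ v ∈ U, P u v = P v u)
    (h0 : ∀ u, P u u = 0) (e : U → ZMod 2) (a : U) :
    Qs U P (e + Pi.single a 1) = Qs U P e + ∑ u : U, P u a * e u := by
  rw [Qs_add U P hs h0, Qs_single, add_zero]
  congr 1
  refine Finset.sum_congr rfl fun u _ => ?_
  rw [Finset.sum_eq_single a]
  · rw [Pi.single_eq_same, mul_one]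
  · intro v _ hv
    rw [Pi.single_eq_of_ne hv]
    ring
  · intro h
    exact absurd (mem_univ _) h

lemma lin_single (U : Finset ι) (P : ι → ι → ZMod 2) (e : U → ZMod 2) (a b : U) :
    ∑ u : U, P u b * (e + Pi.single a 1 : U → ZMod 2) u = ∑ u : U, P u b * e u + P a b := by
  have : ∑ u : U, P u b * (e + Pi.single a 1 : U → ZMod 2) u
      = ∑ u : U, P u b * e u + ∑ u : U, P u b * (Pi.single a 1 : U → ZMod 2) u := by
    rw [← Finset.sum_add_distrib]
    refine Finset.sum_congr rfl fun u _ => ?_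
    rw [Pi.add_apply]
    ring
  rw [this]
  congr 1
  rw [Finset.sum_eq_single a]
  · rw [Pi.single_eq_same, mul_one]
  · intro v _ hv
    rw [Pi.single_eq_of_ne hv]
    ring
  · intro h
    exact absurd (mem_univ _) h

/-- vanishing of the constant -/
lemma gam_vanish (P : ι → ι → ZMod 2) (m : ℕ) (U : Finset ι) (s : ZMod 2) (η : U → ZMod 2)
    (h1 : ∑ u, η u = 0) (h2 : ∀ e : U → ZMod 2, Qs U P (e + η) = Qs U P e + 1) :
    gam P m U s = 0 := by
  unfold gam
  have h3 : ∑ e : U → ZMod 2, (if ∑ u, e u = s then sg2 (Qs U P e) else 0)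
      = - ∑ e : U → ZMod 2, (if ∑ u, e u = s then sg2 (Qs U P e) else 0) := by
    conv_lhs => rw [← Equiv.sum_comp (Equiv.addRight η)]
    rw [← Finset.sum_neg_distrib]
    refine Finset.sum_congr rfl fun e _ => ?_
    rw [Equiv.coe_addRight, h2, sg2_add, sg2_one]
    have : ∑ u, (e + η) u = ∑ u, e u := by
      simp only [Pi.add_apply, Finset.sum_add_distrib, h1, add_zero]
    rw [this]
    split_ifs <;> ring
  have h4 : ∑ e : U → ZMod 2, (if ∑ u, e u = s then sg2 (Qs U P e) else 0) = 0 := by linarith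
  rw [h4, mul_zero]

lemma sum_half {κ : Type*} [Fintype κ] [DecidableEq κ] [Nonempty κ] (s : ZMod 2) :
    ∑ e : κ → ZMod 2, (if ∑ u, e u = s then (1 : ℝ) else 0) = 2 ^ Fintype.card κ / 2 := by
  have h1 : ∀ e : κ → ZMod 2, (if ∑ u, e u = s then (1 : ℝ) else 0)
      = (1 / 2) * (1 + sg2 s * chv e (fun _ => 1)) := by
    intro e
    have h2 : chv e (fun _ => 1) = sg2 (∑ u, e u) := by
      unfold chv
      rw [sg2_sum]
      simp
    rw [h2]
    rcases z2 (∑ u, e u) with h | h <;> rcases z2 s with h' | h' <;> rw [h, h'] <;>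
      simp [sg2_zero, sg2_one]
    all_goals norm_num
  simp_rw [h1]
  rw [← Finset.mul_sum, Finset.sum_add_distrib, ← Finset.mul_sum]
  have h3 : ∑ e : κ → ZMod 2, chv e (fun _ => 1) = 0 := by
    have h := orth' (κ := κ) (fun _ => 1) 0
    rw [if_neg] at h
    · rw [← h]
      refine Finset.sum_congr rfl fun e _ => ?_
      have : chv e 0 = 1 := by
        unfold chv
        simp [sg2_zero]
      rw [this, mul_one]
    · intro hc
      obtain ⟨i⟩ := ‹Nonempty κ›
      have := congrFun hc i
      exact one_ne_zero this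
  rw [h3]
  simp
  ring

/-- the value of the constant when the quadratic form is of rank one -/
lemma gam_eq_one (P : ι → ι → ZMod 2) (m : ℕ) (hm : 1 ≤ m) (U : Finset ι) (hU : U.card = m)
    (l : ι → ZMod 2) (h : ∀ u ∈ U, ∀ v ∈ U, P u v = l u + l v) : gam P m U 1 = 1 := by
  have hcard : Fintype.card U = m := by rw [Fintype.card_coe, hU]
  have hne : Nonempty U := by
    rw [← Fintype.card_pos_iff, hcard]
    omega
  unfold gam
  have h1 : ∀ e : U → ZMod 2, ∑ u, e u = 1 → Qs U P e = 0 := by
    intro e he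
    have e1 : Qs U P e = ∑ u : U, ∑ v : U, (if ord (u : ι) < ord (v : ι) then
        l u * (e u * e v) else 0) + ∑ u : U, ∑ v : U, (if ord (u : ι) < ord (v : ι) then
        l v * (e u * e v) else 0) := by
      unfold Qs
      simp only [← Finset.sum_add_distrib]
      refine Finset.sum_congr rfl fun u _ => Finset.sum_congr rfl fun v _ => ?_
      rw [h u u.2 v v.2]
      split_ifs <;> ring
    have e2 : ∑ u : U, ∑ v : U, (if ord (u : ι) < ord (v : ι) then l v * (e u * e v) else 0)
        = ∑ u : U, ∑ v : U, (if ord (v : ι) < ord (u : ι) then l u * (e u * e v) else 0) := by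
      rw [Finset.sum_comm]
      refine Finset.sum_congr rfl fun u _ => Finset.sum_congr rfl fun v _ => ?_
      rw [mul_comm (e v)]
    have e3 : ∑ u : U, ∑ v : U, l u * (e u * e v) = Qs U P e + ∑ u : U, l u * (e u * e u) := by
      rw [e1, e2]
      simp only [← Finset.sum_add_distrib]
      refine Finset.sum_congr rfl fun u _ => ?_
      have e4 : ∀ v : U, l u * (e u * e v) =
          ((if ord (u : ι) < ord (v : ι) then l u * (e u * e v) else 0) +
          (if ord (v : ι) < ord (u : ι) then l u * (e u * e v) else 0)) +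
            (if u = v then l u * (e u * e v) else 0) := by
        intro v
        rcases lt_trichotomy (ord (u : ι)) (ord (v : ι)) with h | h | h
        · have huv : u ≠ v := by
            rintro rfl
            exact lt_irrefl _ h
          rw [if_pos h, if_neg (not_lt.2 h.le), if_neg huv]
          ring
        · have huv : u = v := Subtype.ext (ord_inj h)
          rw [if_neg (by rw [h]; exact lt_irrefl _), if_neg (by rw [h]; exact lt_irrefl _),
            if_pos huv]
          ring
        · have huv : u ≠ v := by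
            rintro rfl
            exact lt_irrefl _ h
          rw [if_neg (not_lt.2 h.le), if_pos h, if_neg huv]
          ring
      rw [Finset.sum_congr rfl fun v _ => e4 v, Finset.sum_add_distrib]
      congr 1
      rw [Finset.sum_ite_eq, if_pos (mem_univ _)]
    have e5 : ∑ u : U, ∑ v : U, l u * (e u * e v) = ∑ u : U, l u * e u := by
      refine Finset.sum_congr rfl fun u _ => ?_
      rw [← Finset.mul_sum, ← Finset.mul_sum, he, mul_one]
    have e6 : ∀ a : ZMod 2, a * a = a := by decide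
    have e7 : ∑ u : U, l u * (e u * e u) = ∑ u : U, l u * e u := by
      refine Finset.sum_congr rfl fun u _ => ?_
      rw [e6]
    rw [e5, e7] at e3
    have e8 : Qs U P e + ∑ u : U, l u * e u = 0 + ∑ u : U, l u * e u := by
      rw [← e3, zero_add]
    exact add_right_cancel e8
  have h2 : ∑ e : U → ZMod 2, (if ∑ u, e u = 1 then sg2 (Qs U P e) else 0) = 2 ^ m / 2 := by
    rw [← hcard, ← sum_half (κ := U) 1]
    refine Finset.sum_congr rfl fun e _ => ?_
    split_ifs with he
    · rw [h1 e he, sg2_zero]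
    · rfl
  rw [h2]
  field_simp

end general

variable {k : ℕ}

/-- maximal unlinked sets are closed under sums of three elements -/
lemma closed3 {U : Finset (Ix k)} (hU : U ∈ UsG (Phi (k := k)) (2 ^ k)) {u v w : Ix k}
    (hu : u ∈ U) (hv : v ∈ U) (hw : w ∈ U) : u + v + w ∈ U := by
  have hun := (mem_UsG.1 hU).2
  have hq : ∀ a ∈ U, ∀ b ∈ U, qf (a + b) = 0 := fun a ha b hb => (Phi_eq_iff a b).1 (hun a ha b hb)
  by_contra hcon
  obtain ⟨z, hz, hne⟩ := maxUn k U hU _ hcon
  apply hne
  rw [Phi_eq_iff]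
  have huv := hq u hu v hv
  have huw := hq u hu w hw
  have hvw := hq v hv w hw
  have hzu := hq z hz u hu
  have hzv := hq z hz v hv
  have hzw := hq z hz w hw
  have h2 : (2 : ZMod 2) = 0 := by decide
  unfold qf at *
  simp only [Prod.fst_add, Prod.snd_add, dt_add_left, dt_add_right] at *
  linear_combination huv + huw + hvw + hzu + hzv + hzw - (dt u.1 u.2 + dt v.1 v.2 + dt w.1 w.2
    + dt z.1 z.2) * h2

/-- the condition for a nonzero constant -/
def ZU (U : Finset (Ix k)) : Prop :=
  ∀ a ∈ U, ∀ b ∈ U, ∀ c ∈ U, dt (a.1 + b.1) (b.2 + c.2) = 0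

lemma gam_of_not {U : Finset (Ix k)} (hU : U ∈ UsG (Phi (k := k)) (2 ^ k)) (h : ¬ ZU U)
    (s : ZMod 2) : gam (Phi (k := k)) (2 ^ k) U s = 0 := by
  have hun := (mem_UsG.1 hU).2
  have hq : ∀ a ∈ U, ∀ b ∈ U, qf (a + b) = 0 := fun a ha b hb => (Phi_eq_iff a b).1 (hun a ha b hb)
  unfold ZU at h
  push Not at h
  obtain ⟨a, ha, b, hb, c, hc, habc⟩ := h
  have habc1 : dt (a.1 + b.1) (b.2 + c.2) = 1 := (z2 _).resolve_left habc
  have hd := closed3 hU ha hb hc
  set d : Ix k := a + b + c with hddef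
  have h2 : (2 : ZMod 2) = 0 := by decide
  have hab := hq a ha b hb
  have hac := hq a ha c hc
  have hbc := hq b hb c hc
  refine gam_vanish _ _ U s (Pi.single ⟨a, ha⟩ 1 + Pi.single ⟨b, hb⟩ 1 + Pi.single ⟨c, hc⟩ 1
    + Pi.single ⟨d, hd⟩ 1) ?_ ?_
  · simp only [Pi.add_apply, Finset.sum_add_distrib]
    have h1 : ∀ x : U, ∑ u : U, (Pi.single x 1 : U → ZMod 2) u = 1 := by
      intro x
      rw [Finset.sum_eq_single x]
      · rw [Pi.single_eq_same]
      · intro v _ hv
        rw [Pi.single_eq_of_ne hv]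
      · intro h
        exact absurd (mem_univ _) h
    rw [h1, h1, h1, h1]
    decide
  · intro e
    have hlin : ∑ u : U, Phi (u : Ix k) a * e u + ∑ u : U, Phi (u : Ix k) b * e u
        + ∑ u : U, Phi (u : Ix k) c * e u + ∑ u : U, Phi (u : Ix k) d * e u = 0 := by
      simp only [← Finset.sum_add_distrib]
      refine Finset.sum_eq_zero fun u _ => ?_
      have h3 : Phi (u : Ix k) a + Phi (u : Ix k) b + Phi (u : Ix k) c + Phi (u : Ix k) d = 0 := by
        unfold qf at hab hac hbc
        unfold Phi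
        rw [hddef]
        simp only [Prod.fst_add, Prod.snd_add, dt_add_left, dt_add_right] at hab hac hbc ⊢
        simp only [dt_comm a.2, dt_comm b.2, dt_comm c.2]
        linear_combination hab + hac + hbc + (dt (u : Ix k).1 a.2 + dt (u : Ix k).1 b.2
          + dt (u : Ix k).1 c.2) * h2
      linear_combination (e u) * h3
    rw [← add_assoc, ← add_assoc, ← add_assoc, Qs_add_single U _ hun Phi_self,
      Qs_add_single U _ hun Phi_self, Qs_add_single U _ hun Phi_self,
      Qs_add_single U _ hun Phi_self]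
    rw [lin_single U Phi _ ⟨a, ha⟩ ⟨b, hb⟩, lin_single U Phi _ ⟨b, hb⟩ ⟨c, hc⟩,
      lin_single U Phi _ ⟨a, ha⟩ ⟨c, hc⟩, lin_single U Phi _ ⟨c, hc⟩ ⟨d, hd⟩,
      lin_single U Phi _ ⟨b, hb⟩ ⟨d, hd⟩, lin_single U Phi _ ⟨a, ha⟩ ⟨d, hd⟩]
    have h6 : Phi a b + (Phi a c + Phi b c) + (Phi a d + Phi b d + Phi c d) = 1 := by
      rw [← habc1]
      unfold qf at hab hac hbc
      unfold Phi
      rw [hddef]
      simp only [Prod.fst_add, Prod.snd_add, dt_add_left, dt_add_right] at hab hac hbc ⊢
      simp only [dt_comm a.2, dt_comm b.2, dt_comm c.2]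
      linear_combination (dt c.1 c.2 + 2 * (dt a.1 a.2 + dt a.1 b.2 + dt a.1 c.2 + dt b.1 a.2
        + dt b.1 b.2 + dt b.1 c.2 + dt c.1 a.2 + dt c.1 b.2 + dt c.1 c.2)) * h2
    linear_combination hlin + h6

lemma gam_of_ZU {U : Finset (Ix k)} (hU : U ∈ UsG (Phi (k := k)) (2 ^ k)) (h : ZU U) :
    gam (Phi (k := k)) (2 ^ k) U 1 = 1 := by
  have hcard := (mem_UsG.1 hU).1
  have hne : U.Nonempty := by
    rw [← Finset.card_pos, hcard]
    positivity
  obtain ⟨c, hc⟩ := hne
  refine gam_eq_one _ _ Nat.one_le_two_pow U hcard (fun u => dt c.2 u.1) ?_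
  intro u hu v hv
  have h1 := h u hu v hv c hc
  unfold Phi
  rw [← dt_add_right]
  have h2 : dt (u.1 + v.1) v.2 = dt (u.1 + v.1) c.2 := by
    rw [eq_iff_add, ← dt_add_right]
    exact h1
  rw [dt_comm v.2, h2, dt_comm]

end Vale.Agent.P017.H626
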