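import Vale.Agent.P017.H626.C2

/-!
The sum of the constants of the maximal unlinked sets is `2^k` times the number of subspaces
of `F_2^k`.
-/

namespace Vale.Agent.P017.H626

open Finset Function

variable {k : ℕ}

open Classical in
/-- the orthogonal of a subspace, as a finite set -/
noncomputable def perpF (X : Submodule (ZMod 2) (Wk k)) : Finset (Wk k) :=
  univ.filter fun y => ∀ x ∈ X, dt x y = 0

open Classical in
/-- a subspace, as a finite set -/
noncomputable def subF (X : Submodule (ZMod 2) (Wk k)) : Finset (Wk k) := univ.filter fun x => x ∈ X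

lemma mem_perpF {X : Submodule (ZMod 2) (Wk k)} {y : Wk k} :
    y ∈ perpF X ↔ ∀ x ∈ X, dt x y = 0 := by
  classical
  unfold perpF
  rw [Finset.mem_filter]
  exact ⟨fun h => h.2, fun h => ⟨mem_univ _, h⟩⟩

lemma mem_subF {X : Submodule (ZMod 2) (Wk k)} {y : Wk k} : y ∈ subF X ↔ y ∈ X := by
  classical
  unfold subF
  rw [Finset.mem_filter]
  exact ⟨fun h => h.2, fun h => ⟨mem_univ _, h⟩⟩

lemma add_add_W (x y : Wk k) : x + y + y = x := by
  rw [add_assoc, add_self_W, add_zero]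

lemma card_sub_perp (X : Submodule (ZMod 2) (Wk k)) :
    (subF X).card * (perpF X).card = 2 ^ k := by
  classical
  have h1 : ∑ x ∈ subF X, ∑ y : Wk k, sg2 (dt y x) = 2 ^ k := by
    simp_rw [sum_sg_dt]
    rw [Finset.sum_ite_eq' (subF X) 0 (fun _ => (2 : ℝ) ^ k), if_pos (mem_subF.2 X.zero_mem)]
  have h2 : ∀ y : Wk k, ∑ x ∈ subF X, sg2 (dt y x) = if y ∈ perpF X then ((subF X).card : ℝ)
      else 0 := by
    intro y
    split_ifs with hy
    · rw [mem_perpF] at hy
      rw [Finset.sum_congr rfl (g := fun _ => (1 : ℝ))]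
      · simp
      · intro x hx
        rw [dt_comm, hy x (mem_subF.1 hx), sg2_zero]
    · rw [mem_perpF] at hy
      push Not at hy
      obtain ⟨z, hz, hzy⟩ := hy
      have hz1 : dt y z = 1 := by
        rw [dt_comm]
        exact (z2 _).resolve_left hzy
      have h3 : ∑ x ∈ subF X, sg2 (dt y x) = - ∑ x ∈ subF X, sg2 (dt y x) := by
        rw [← Finset.sum_neg_distrib]
        refine Finset.sum_bij' (fun x _ => x + z) (fun x _ => x + z) ?_ ?_ ?_ ?_ ?_
        · intro x hx
          exact mem_subF.2 (X.add_mem (mem_subF.1 hx) hz)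
        · intro x hx
          exact mem_subF.2 (X.add_mem (mem_subF.1 hx) hz)
        · intro x _
          exact add_add_W x z
        · intro x _
          exact add_add_W x z
        · intro x _
          rw [dt_add_right, hz1, sg2_add, sg2_one]
          ring
      linarith
  rw [Finset.sum_comm] at h1
  simp_rw [h2] at h1
  rw [Finset.sum_ite_mem, Finset.univ_inter, Finset.sum_const, nsmul_eq_mul] at h1
  have h3 : (((subF X).card * (perpF X).card : ℕ) : ℝ) = ((2 ^ k : ℕ) : ℝ) := by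
    push_cast
    rw [← h1]
    ring
  exact_mod_cast h3

open Classical in
/-- the coset of `X × X^⊥` through `u` -/
noncomputable def Uof (X : Submodule (ZMod 2) (Wk k)) (u : Ix k) : Finset (Ix k) :=
  univ.filter fun v => v.1 + u.1 ∈ X ∧ v.2 + u.2 ∈ perpF X

lemma mem_Uof {X : Submodule (ZMod 2) (Wk k)} {u v : Ix k} :
    v ∈ Uof X u ↔ v.1 + u.1 ∈ X ∧ v.2 + u.2 ∈ perpF X := by
  classical
  unfold Uof
  rw [Finset.mem_filter]
  exact ⟨fun h => h.2, fun h => ⟨mem_univ _, h⟩⟩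

lemma self_mem_Uof (X : Submodule (ZMod 2) (Wk k)) (u : Ix k) : u ∈ Uof X u := by
  rw [mem_Uof, add_self_W, add_self_W, mem_perpF]
  exact ⟨X.zero_mem, fun x _ => dt_zero_right x⟩

lemma card_Uof (X : Submodule (ZMod 2) (Wk k)) (u : Ix k) : (Uof X u).card = 2 ^ k := by
  rw [← card_sub_perp X, ← Finset.card_product]
  refine Finset.card_bij' (fun v _ => (v.1 + u.1, v.2 + u.2)) (fun v _ => (v.1 + u.1, v.2 + u.2))
    ?_ ?_ ?_ ?_
  · intro v hv
    rw [mem_Uof] at hv
    rw [Finset.mem_product]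
    exact ⟨mem_subF.2 hv.1, hv.2⟩
  · intro v hv
    rw [Finset.mem_product] at hv
    rw [mem_Uof]
    dsimp only
    rw [add_add_W, add_add_W]
    exact ⟨mem_subF.1 hv.1, hv.2⟩
  · intro v _
    exact Prod.ext (add_add_W _ _) (add_add_W _ _)
  · intro v _
    exact Prod.ext (add_add_W _ _) (add_add_W _ _)

lemma perp_add {X : Submodule (ZMod 2) (Wk k)} {y z : Wk k} (hy : y ∈ perpF X)
    (hz : z ∈ perpF X) : y + z ∈ perpF X := by
  rw [mem_perpF] at *
  intro x hx
  rw [dt_add_right, hy x hx, hz x hx, add_zero]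

lemma add_shift (a b c : Wk k) : a + b = (a + c) + (b + c) := by
  have : (a + c) + (b + c) = (a + b) + (c + c) := by abel
  rw [this, add_self_W, add_zero]

lemma Uof_ZU (X : Submodule (ZMod 2) (Wk k)) (u : Ix k) : ZU (Uof X u) := by
  intro a ha b hb c hc
  rw [mem_Uof] at ha hb hc
  have h1 : a.1 + b.1 ∈ X := by
    rw [add_shift a.1 b.1 u.1]
    exact X.add_mem ha.1 hb.1
  have h2 : b.2 + c.2 ∈ perpF X := by
    rw [add_shift b.2 c.2 u.2]
    exact perp_add hb.2 hc.2
  exact mem_perpF.1 h2 _ h1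

lemma Uof_mem (X : Submodule (ZMod 2) (Wk k)) (u : Ix k) :
    Uof X u ∈ UsG (Phi (k := k)) (2 ^ k) := by
  rw [mem_UsG]
  refine ⟨card_Uof X u, ?_⟩
  intro a ha b hb
  rw [Phi_eq_iff]
  exact Uof_ZU X u a ha b hb a ha ▸ (by
    unfold qf
    rw [Prod.fst_add, Prod.snd_add, add_comm a.2])

/-- the subspace attached to `U` -/
def subOf (U : Finset (Ix k)) (hU : U ∈ UsG (Phi (k := k)) (2 ^ k)) (u : Ix k) (hu : u ∈ U) :
    Submodule (ZMod 2) (Wk k) where
  carrier := {x | ∃ v ∈ U, x = v.1 + u.1}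
  add_mem' := by
    rintro x y ⟨v, hv, rfl⟩ ⟨w, hw, rfl⟩
    refine ⟨v + w + u, closed3 hU hv hw hu, ?_⟩
    rw [Prod.fst_add, Prod.fst_add]
    abel
  zero_mem' := ⟨u, hu, (add_self_W _).symm⟩
  smul_mem' := by
    rintro c x ⟨v, hv, rfl⟩
    rcases z2 c with rfl | rfl
    · rw [zero_smul]
      exact ⟨u, hu, (add_self_W _).symm⟩
    · rw [one_smul]
      exact ⟨v, hv, rfl⟩

lemma Uof_subOf {U : Finset (Ix k)} (hU : U ∈ UsG (Phi (k := k)) (2 ^ k)) (hZ : ZU U) {u : Ix k}
    (hu : u ∈ U) : Uof (subOf U hU u hu) u = U := by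
  symm
  apply Finset.eq_of_subset_of_card_le
  · intro v hv
    rw [mem_Uof]
    refine ⟨⟨v, hv, rfl⟩, ?_⟩
    rw [mem_perpF]
    rintro x ⟨w, hw, rfl⟩
    rw [add_comm v.2]
    exact hZ w hw u hu v hv
  · rw [card_Uof, (mem_UsG.1 hU).1]

lemma Uof_inj {X Y : Submodule (ZMod 2) (Wk k)} {u : Ix k} (h : Uof X u = Uof Y u) : X = Y := by
  have key : ∀ X : Submodule (ZMod 2) (Wk k), ∀ x, x ∈ X ↔ ((x + u.1, u.2) : Ix k) ∈ Uof X u := by
    intro X x
    rw [mem_Uof]
    dsimp only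
    rw [add_add_W, add_self_W, mem_perpF]
    exact ⟨fun h => ⟨h, fun y _ => dt_zero_right y⟩, fun h => h.1⟩
  ext x
  rw [key X x, key Y x, h]

open Classical in
/-- the sets with a nonzero constant -/
noncomputable def UZ (k : ℕ) : Finset (Finset (Ix k)) :=
  (UsG (Phi (k := k)) (2 ^ k)).filter ZU

/-- the number of subspaces of `F_2^k` -/
noncomputable def Nsub (k : ℕ) : ℕ := Nat.card (Submodule (ZMod 2) (Wk k))

open Classical in
lemma card_UZ_mem (u : Ix k) : ((UZ k).filter fun U => u ∈ U).card = Nsub k := by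
  have hfin : Finite (Submodule (ZMod 2) (Wk k)) :=
    Finite.of_injective (fun X : Submodule (ZMod 2) (Wk k) => (X : Set (Wk k)))
      SetLike.coe_injective
  have := Fintype.ofFinite (Submodule (ZMod 2) (Wk k))
  unfold Nsub
  rw [Nat.card_eq_fintype_card, ← Finset.card_univ]
  symm
  refine Finset.card_bij (fun X _ => Uof X u) ?_ ?_ ?_
  · intro X _
    rw [Finset.mem_filter, UZ, Finset.mem_filter]
    exact ⟨⟨Uof_mem X u, Uof_ZU X u⟩, self_mem_Uof X u⟩
  · intro X _ Y _ h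
    exact Uof_inj h
  · intro U hU
    rw [Finset.mem_filter, UZ, Finset.mem_filter] at hU
    exact ⟨subOf U hU.1.1 u hU.2, mem_univ _, Uof_subOf hU.1.1 hU.1.2 hU.2⟩

lemma card_UZ (k : ℕ) : (UZ k).card = 2 ^ k * Nsub k := by
  classical
  have h1 : ∑ U ∈ UZ k, U.card = ∑ u : Ix k, ((UZ k).filter fun U => u ∈ U).card := by
    simp_rw [Finset.card_filter]
    rw [Finset.sum_comm]
    refine Finset.sum_congr rfl fun U _ => ?_
    simp
  have h2 : ∀ U ∈ UZ k, U.card = 2 ^ k := by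
    intro U hU
    rw [UZ, Finset.mem_filter] at hU
    exact (mem_UsG.1 hU.1).1
  rw [Finset.sum_congr rfl h2] at h1
  simp_rw [card_UZ_mem] at h1
  rw [Finset.sum_const, Finset.sum_const, Finset.card_univ, smul_eq_mul, smul_eq_mul,
    Fintype.card_prod, Fintype.card_fun, ZMod.card, Fintype.card_fin] at h1
  have h3 : 0 < 2 ^ k := by positivity
  apply Nat.eq_of_mul_eq_mul_right h3
  rw [h1]
  ring

/-- **the sum of the constants** -/
theorem sum_gam (k : ℕ) :
    ∑ U ∈ UsG (Phi (k := k)) (2 ^ k), gam (Phi (k := k)) (2 ^ k) U 1 = 2 ^ k * Nsub k := by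
  classical
  have h1 : ∀ U ∈ UsG (Phi (k := k)) (2 ^ k), gam (Phi (k := k)) (2 ^ k) U 1
      = if ZU U then 1 else 0 := by
    intro U hU
    split_ifs with h
    · exact gam_of_ZU hU h
    · exact gam_of_not hU h 1
  rw [Finset.sum_congr rfl h1, ← Finset.sum_filter, Finset.sum_const, nsmul_eq_mul, mul_one]
  have h2 : ((UZ k).card : ℝ) = ((2 ^ k * Nsub k : ℕ) : ℝ) := by rw [card_UZ]
  push_cast at h2
  rw [← h2]
  unfold UZ
  congr

end Vale.Agent.P017.H626
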