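import Vale.Agent.P017.H626.C3

/-!
The number of subspaces of `F_2^k` for `k ≤ 5`.
-/

namespace Vale.Agent.P017.H626

open Finset Function Module

variable {k : ℕ}

/-- subspaces of dimension `j` -/
abbrev Gr (k j : ℕ) := {X : Submodule (ZMod 2) (Wk k) // finrank (ZMod 2) X = j}

instance fact2 : Fact (Nat.Prime 2) := ⟨Nat.prime_two⟩

lemma fin_sub (k : ℕ) : Finite (Submodule (ZMod 2) (Wk k)) :=
  Finite.of_injective (fun X : Submodule (ZMod 2) (Wk k) => (X : Set (Wk k))) SetLike.coe_injective

theorem card_Gr (k j : ℕ) (hj : j ≤ k) :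
    Nat.card (Gr k j) * ∏ i : Fin j, (2 ^ j - 2 ^ i.val) = ∏ i : Fin j, (2 ^ k - 2 ^ i.val) := by
  classical
  have hfin := fin_sub k
  have := Fintype.ofFinite (Gr k j)
  have h1 := card_linearIndependent (K := ZMod 2) (V := Wk k) (k := j) (by
    rw [Module.finrank_fin_fun]; exact hj)
  rw [Module.finrank_fin_fun, ZMod.card] at h1
  have h2 : Nat.card (Σ X : Gr k j, {s : Fin j → X.1 // LinearIndependent (ZMod 2) s})
      = Nat.card {s : Fin j → Wk k // LinearIndependent (ZMod 2) s} := by
    apply Nat.card_eq_of_bijective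
      (fun p : (Σ X : Gr k j, {s : Fin j → X.1 // LinearIndependent (ZMod 2) s}) =>
        (⟨fun i => ((p.2.1 i : p.1.1) : Wk k), by
          have := p.2.2.map' p.1.1.subtype (Submodule.ker_subtype _)
          exact this⟩ : {s : Fin j → Wk k // LinearIndependent (ZMod 2) s}))
    constructor
    · rintro ⟨⟨X, hX⟩, ⟨s, hs⟩⟩ ⟨⟨Y, hY⟩, ⟨t, ht⟩⟩ h
      replace h : (fun i => ((s i : X) : Wk k)) = (fun i => ((t i : Y) : Wk k)) :=
        congrArg Subtype.val h
      have hspan : ∀ (X : Submodule (ZMod 2) (Wk k)), finrank (ZMod 2) X = j →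
          ∀ s : Fin j → X, LinearIndependent (ZMod 2) s →
          Submodule.span (ZMod 2) (Set.range fun i => ((s i : X) : Wk k)) = X := by
        intro X hX s hs
        apply Submodule.eq_of_le_of_finrank_eq
        · rw [Submodule.span_le]
          rintro _ ⟨i, rfl⟩
          exact (s i).2
        · rw [hX]
          have := hs.map' X.subtype (Submodule.ker_subtype _)
          have h3 := finrank_span_eq_card this
          rw [Fintype.card_fin] at h3
          exact h3
      have hXY : X = Y := by
        rw [← hspan X hX s hs, ← hspan Y hY t ht, h]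
      subst hXY
      have hst : s = t := by
        funext i
        exact Subtype.ext (congrFun h i)
      subst hst
      rfl
    · rintro ⟨s, hs⟩
      refine ⟨⟨⟨Submodule.span (ZMod 2) (Set.range s), ?_⟩,
        ⟨fun i => ⟨s i, Submodule.subset_span ⟨i, rfl⟩⟩, ?_⟩⟩, ?_⟩
      · have h3 := finrank_span_eq_card hs
        rw [Fintype.card_fin] at h3
        exact h3
      · exact linearIndependent_span hs
      · rfl
  rw [h1, Nat.card_sigma] at h2
  rw [← h2]
  have h3 : ∀ X : Gr k j, Nat.card {s : Fin j → X.1 // LinearIndependent (ZMod 2) s}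
      = ∏ i : Fin j, (2 ^ j - 2 ^ i.val) := by
    intro X
    have h4 := card_linearIndependent (K := ZMod 2) (V := X.1) (k := j) (by rw [X.2])
    rw [X.2, ZMod.card] at h4
    exact h4
  rw [Finset.sum_congr rfl fun X _ => h3 X, Finset.sum_const, Finset.card_univ,
    Nat.card_eq_fintype_card, smul_eq_mul]

theorem Nsub_eq (k : ℕ) : Nsub k = ∑ j ∈ range (k + 1), Nat.card (Gr k j) := by
  classical
  have hfin := fin_sub k
  have := Fintype.ofFinite (Submodule (ZMod 2) (Wk k))
  unfold Nsub
  have h1 : ∀ X ∈ (univ : Finset (Submodule (ZMod 2) (Wk k))), finrank (ZMod 2) X ∈ range (k + 1) := by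
    intro X _
    rw [mem_range, Nat.lt_succ_iff]
    have := Submodule.finrank_le X
    rwa [Module.finrank_fin_fun] at this
  rw [Nat.card_eq_fintype_card, ← Finset.card_univ, Finset.card_eq_sum_card_fiberwise h1]
  refine Finset.sum_congr rfl fun j _ => ?_
  rw [Nat.card_eq_fintype_card, Fintype.card_subtype]

lemma Gr_val {k j N : ℕ} (hj : j ≤ k) (h : N * ∏ i : Fin j, (2 ^ j - 2 ^ i.val)
    = ∏ i : Fin j, (2 ^ k - 2 ^ i.val)) : Nat.card (Gr k j) = N := by
  have h1 := card_Gr k j hj
  rw [← h] at h1
  refine Nat.eq_of_mul_eq_mul_right ?_ h1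
  apply Finset.prod_pos
  intro i _
  have : 2 ^ i.val < 2 ^ j := Nat.pow_lt_pow_right (by norm_num) i.2
  omega

theorem Nsub_one : Nsub 1 = 2 := by
  rw [Nsub_eq, Finset.sum_range_succ, Finset.sum_range_succ, Finset.sum_range_zero,
    Gr_val (N := 1) (by norm_num) (by decide), Gr_val (N := 1) (by norm_num) (by decide)]

theorem Nsub_two : Nsub 2 = 5 := by
  rw [Nsub_eq, Finset.sum_range_succ, Finset.sum_range_succ, Finset.sum_range_succ,
    Finset.sum_range_zero,
    Gr_val (N := 1) (by norm_num) (by decide), Gr_val (N := 3) (by norm_num) (by decide),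
    Gr_val (N := 1) (by norm_num) (by decide)]

theorem Nsub_three : Nsub 3 = 16 := by
  rw [Nsub_eq, Finset.sum_range_succ, Finset.sum_range_succ, Finset.sum_range_succ,
    Finset.sum_range_succ, Finset.sum_range_zero,
    Gr_val (N := 1) (by norm_num) (by decide), Gr_val (N := 7) (by norm_num) (by decide),
    Gr_val (N := 7) (by norm_num) (by decide), Gr_val (N := 1) (by norm_num) (by decide)]

theorem Nsub_four : Nsub 4 = 67 := by
  rw [Nsub_eq, Finset.sum_range_succ, Finset.sum_range_succ, Finset.sum_range_succ,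
    Finset.sum_range_succ, Finset.sum_range_succ, Finset.sum_range_zero,
    Gr_val (N := 1) (by norm_num) (by decide), Gr_val (N := 15) (by norm_num) (by decide),
    Gr_val (N := 35) (by norm_num) (by decide), Gr_val (N := 15) (by norm_num) (by decide),
    Gr_val (N := 1) (by norm_num) (by decide)]

theorem Nsub_five : Nsub 5 = 374 := by
  rw [Nsub_eq, Finset.sum_range_succ, Finset.sum_range_succ, Finset.sum_range_succ,
    Finset.sum_range_succ, Finset.sum_range_succ, Finset.sum_range_succ, Finset.sum_range_zero,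
    Gr_val (N := 1) (by norm_num) (by decide), Gr_val (N := 31) (by norm_num) (by decide),
    Gr_val (N := 155) (by norm_num) (by decide), Gr_val (N := 155) (by norm_num) (by decide),
    Gr_val (N := 31) (by norm_num) (by decide),
    Gr_val (N := 1) (by norm_num) (by decide)]

end Vale.Agent.P017.H626
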