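import Vale.Agent.P017.H626.C4

/-!
Powers of the number of kernel vectors as sums over colourings.
-/

namespace Vale.Agent.P017.H626

open Finset Function Vale.Agent.P014.H580 Vale.Agent.P014.FM

/-- the kernel -/
abbrev Kr {S : Type*} [Fintype S] (a : S → S → ZMod 2) :=
  {x : S → ZMod 2 // ∀ q, ∑ p, a p q * (x p + x q) = 0}

section colour

variable {S : Type*} [Fintype S] [DecidableEq S] (a : S → S → ZMod 2) (k : ℕ)

theorem ker_pow : ((Nat.card (Kr a) : ℝ)) ^ k = (1 / (2 ^ k : ℝ)) ^ (Fintype.card S) *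
    ∑ c : S → Ix k, ∏ p, ∏ q, sg2 (a p q * Phi (c p) (c q)) := by
  classical
  have h1 : ∑ c : S → Ix k, ∏ p, ∏ q, sg2 (a p q * Phi (c p) (c q))
      = ∑ X : S → Wk k, ∑ Y : S → Wk k, ∏ p, ∏ q, sg2 (a p q * dt (Y q) (X p + X q)) := by
    rw [← Fintype.sum_prod_type'
      (f := fun (X Y : S → Wk k) => ∏ p, ∏ q, sg2 (a p q * dt (Y q) (X p + X q)))]
    exact Fintype.sum_equiv (Equiv.arrowProdEquivProdArrow S (fun _ => Wk k) (fun _ => Wk k)) _ _
      (fun c => rfl)
  have h2 : ∀ X : S → Wk k, ∑ Y : S → Wk k, ∏ p, ∏ q, sg2 (a p q * dt (Y q) (X p + X q))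
      = if (∀ q, (fun i => ∑ p, a p q * (X p i + X q i)) = (0 : Wk k))
        then (2 ^ k : ℝ) ^ (Fintype.card S) else 0 := by
    intro X
    have e1 : ∀ Y : S → Wk k, ∏ p, ∏ q, sg2 (a p q * dt (Y q) (X p + X q))
        = ∏ q, sg2 (dt (Y q) (fun i => ∑ p, a p q * (X p i + X q i))) := by
      intro Y
      rw [Finset.prod_comm]
      refine Finset.prod_congr rfl fun q _ => ?_
      rw [← sg2_sum]
      congr 1
      unfold dt
      simp_rw [Finset.mul_sum]
      rw [Finset.sum_comm]
      refine Finset.sum_congr rfl fun i _ => Finset.sum_congr rfl fun p _ => ?_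
      rw [Pi.add_apply]
      ring
    simp_rw [e1]
    have e2 := Finset.prod_univ_sum (t := fun _ : S => (univ : Finset (Wk k)))
      (f := fun q y => sg2 (dt y (fun i => ∑ p, a p q * (X p i + X q i))))
    rw [Fintype.piFinset_univ] at e2
    rw [← e2]
    simp_rw [sum_sg_dt]
    split_ifs with hX
    · rw [Finset.prod_congr rfl fun q _ => if_pos (hX q), Finset.prod_const, Finset.card_univ]
    · push Not at hX
      obtain ⟨q, hq⟩ := hX
      exact Finset.prod_eq_zero (mem_univ q) (if_neg hq)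
  rw [h1, Finset.sum_congr rfl fun X _ => h2 X]
  rw [← Finset.sum_filter, Finset.sum_const, nsmul_eq_mul]
  have h3 : (univ.filter fun X : S → Wk k =>
      ∀ q, (fun i => ∑ p, a p q * (X p i + X q i)) = (0 : Wk k)).card = Nat.card (Kr a) ^ k := by
    have e1 : Nat.card (Kr a) ^ k = Nat.card (Fin k → Kr a) := by
      rw [Nat.card_fun, Nat.card_eq_fintype_card (α := Fin k), Fintype.card_fin]
    rw [e1, Nat.card_eq_fintype_card, ← Finset.card_univ]
    refine Finset.card_bij' (fun X hX => fun i => ⟨fun p => X p i, ?_⟩)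
      (fun f _ => fun p i => (f i).1 p) ?_ ?_ ?_ ?_
    · intro q
      rw [Finset.mem_filter] at hX
      exact congrFun (hX.2 q) i
    · intro X hX
      exact mem_univ _
    · intro f _
      rw [Finset.mem_filter]
      refine ⟨mem_univ _, fun q => ?_⟩
      funext i
      exact (f i).2 q
    · intro X hX
      rfl
    · intro f _
      rfl
  rw [h3]
  push_cast
  have h4 : (2 ^ k : ℝ) ≠ 0 := by positivity
  rw [mul_comm, mul_assoc, ← mul_pow, mul_one_div_cancel h4, one_pow, mul_one]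

end colour

section tuples

variable {ι : Type*} [Fintype ι] [DecidableEq ι]

/-- the factorisation attached to a colouring -/
def Dc' {n : ℕ} (c : n.primeFactors → ι) (u : ι) : ℕ :=
  ∏ p ∈ Finset.univ.filter (fun p => c p = u), (p : ℕ)

theorem prod_Dc' {n : ℕ} (hn : Squarefree n) (c : n.primeFactors → ι) : ∏ u, Dc' c u = n := by
  unfold Dc'
  rw [Finset.prod_fiberwise Finset.univ c (fun p => (p : ℕ)),
    Finset.prod_coe_sort n.primeFactors (fun p => p)]
  exact Nat.prod_primeFactors_of_squarefree hn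

theorem Dc'_dvd {n : ℕ} (hn : Squarefree n) (c : n.primeFactors → ι) (u : ι) : Dc' c u ∣ n := by
  conv_rhs => rw [← prod_Dc' hn c]
  exact Finset.dvd_prod_of_mem _ (Finset.mem_univ u)

omit [Fintype ι] in
theorem dvd_Dc'_iff {n : ℕ} (c : n.primeFactors → ι) (u : ι) (p : n.primeFactors) :
    (p : ℕ) ∣ Dc' c u ↔ c p = u := by
  have hpr : ∀ p : n.primeFactors, (p : ℕ).Prime := fun p => Nat.prime_of_mem_primeFactors p.2
  unfold Dc'
  rw [(hpr p).prime.dvd_finsetProd_iff]
  constructor
  · rintro ⟨q, hq, hpq⟩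
    rw [Finset.mem_filter] at hq
    have : p = q := Subtype.ext ((Nat.prime_dvd_prime_iff_eq (hpr p) (hpr q)).mp hpq)
    rw [this]; exact hq.2
  · intro h
    exact ⟨p, Finset.mem_filter.mpr ⟨Finset.mem_univ _, h⟩, dvd_rfl⟩

theorem sum_tup' {n : ℕ} (hn : Squarefree n) (F : (ι → ℕ) → ℝ) :
    ∑ c : n.primeFactors → ι, F (Dc' c) = ∑ D ∈ tup ι n, F D := by
  classical
  have hn0 : n ≠ 0 := hn.ne_zero
  refine Finset.sum_bij (fun c _ => Dc' c) ?_ ?_ ?_ ?_
  · intro c _
    rw [mem_tup hn0]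
    exact prod_Dc' hn c
  · intro c _ c' _ h
    funext p
    have h1 := (dvd_Dc'_iff c (c p) p).mpr rfl
    have h' : Dc' c = Dc' c' := h
    rw [h'] at h1
    exact ((dvd_Dc'_iff c' (c p) p).mp h1).symm
  · intro D hD
    have hD2 := (mem_tup hn0).1 hD
    have hDn : ∀ u, D u ∣ n := fun u => tup_dvd hD u
    have h1 : ∀ p : n.primeFactors, ∃ u, (p : ℕ) ∣ D u := by
      intro p
      have h2 : (p : ℕ) ∣ ∏ u, D u := hD2.symm ▸ Nat.dvd_of_mem_primeFactors p.2
      rw [(Nat.prime_of_mem_primeFactors p.2).prime.dvd_finsetProd_iff] at h2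
      obtain ⟨u, _, hu⟩ := h2
      exact ⟨u, hu⟩
    choose c hc using h1
    refine ⟨c, Finset.mem_univ _, ?_⟩
    funext u
    rw [Nat.Squarefree.ext_iff (hn.squarefree_of_dvd (Dc'_dvd hn c u))
      (hn.squarefree_of_dvd (hDn u))]
    intro p hp
    constructor
    · intro h
      have hpn : p ∈ n.primeFactors :=
        Nat.mem_primeFactors.mpr ⟨hp, h.trans (Dc'_dvd hn c u), hn0⟩
      have h4 := (dvd_Dc'_iff c u ⟨p, hpn⟩).mp h
      have h5 := hc ⟨p, hpn⟩
      rwa [h4] at h5
    · intro h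
      have hpn : p ∈ n.primeFactors :=
        Nat.mem_primeFactors.mpr ⟨hp, h.trans (hDn u), hn0⟩
      refine (dvd_Dc'_iff c u ⟨p, hpn⟩).mpr ?_
      by_contra hne
      have h5 := hc ⟨p, hpn⟩
      have h6 : p * p ∣ n := by
        rw [← hD2, ← Finset.mul_prod_erase Finset.univ D (Finset.mem_univ u)]
        exact Nat.mul_dvd_mul h (h5.trans (Finset.dvd_prod_of_mem _
          (Finset.mem_erase.mpr ⟨hne, Finset.mem_univ _⟩)))
      exact hp.not_isUnit (hn p h6)
  · intro c _; rfl

end tuples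

/-- the Legendre symbol, additively -/
def leg (p q : ℕ) : ZMod 2 := if jacobiSym (p : ℤ) q = -1 then 1 else 0

lemma sg2_leg {p q : ℕ} (h : Nat.Coprime p q) : sg2 (leg p q) = J p q := by
  unfold leg J
  rcases jacobiSym.eq_one_or_neg_one (a := (p : ℤ)) (b := q)
    (by rwa [Int.gcd_natCast_natCast]) with h | h
  · rw [h, if_neg (by norm_num), sg2_zero]
    norm_num
  · rw [h, if_pos rfl, sg2_one]
    norm_num

/-- the Rédei kernel of `n` -/
abbrev Kn (n : ℕ) := Kr (S := n.primeFactors) (fun p q => leg p q)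

/-- its cardinality -/
noncomputable def Nr (n : ℕ) : ℕ := Nat.card (Kn n)

lemma sg2_mul_ite (a b : ZMod 2) : sg2 (a * b) = if b = 1 then sg2 a else 1 := by
  rcases z2 b with rfl | rfl
  · rw [mul_zero, sg2_zero, if_neg (by decide)]
  · rw [mul_one, if_pos rfl]

/-- the data for the `k`-th moment -/
def pureD (k : ℕ) : Dat (Ix k) where
  m := 2 ^ k
  a := 1
  b := 0
  c := 1
  A := fun _ => 0
  B := fun _ => 0
  C := fun _ => 1
  P := Phi
  hm := Nat.one_le_two_pow
  ha := one_ne_zero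
  hc := odd_one
  hC := fun _ => odd_one
  hCc := fun _ _ _ h => h
  hP := Phi_self

lemma ch_triv (x : ℕ) : ch 0 0 1 x = 1 := by
  unfold ch
  rw [Vale.Agent.P014.FM.J_one_right]
  simp

lemma J_prod_left {κ : Type*} (s : Finset κ) (f : κ → ℕ) (e : ℕ) :
    J (∏ i ∈ s, f i) e = ∏ i ∈ s, J (f i) e := by
  classical
  induction s using Finset.induction_on with
  | empty => simp [J_one_left']
  | insert i s hi ih => rw [Finset.prod_insert hi, Finset.prod_insert hi, J_mul_left, ih]

lemma J_prod_right {κ : Type*} (s : Finset κ) (f : κ → ℕ) (hf : ∀ i ∈ s, f i ≠ 0) (e : ℕ) :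
    J e (∏ i ∈ s, f i) = ∏ i ∈ s, J e (f i) := by
  classical
  induction s using Finset.induction_on with
  | empty => simp [Vale.Agent.P014.FM.J_one_right]
  | insert i s hi ih =>
    rw [Finset.prod_insert hi, Finset.prod_insert hi, J_mul_right _ _ _
      (hf i (Finset.mem_insert_self _ _))
      (Finset.prod_ne_zero_iff.mpr fun j hj => hf j (Finset.mem_insert_of_mem hj)),
      ih fun j hj => hf j (Finset.mem_insert_of_mem hj)]

theorem wt_Dc' {n : ℕ} (k : ℕ) (c : n.primeFactors → Ix k) :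
    wtG (pureD k) (Dc' c) = ∏ p : n.primeFactors, ∏ q : n.primeFactors,
      sg2 (leg p q * Phi (c p) (c q)) := by
  have hpr : ∀ p : n.primeFactors, (p : ℕ).Prime := fun p => Nat.prime_of_mem_primeFactors p.2
  unfold wtG
  have h0 : ∏ u, ch ((pureD k).A u) ((pureD k).B u) ((pureD k).C u) (Dc' c u) = 1 :=
    Finset.prod_eq_one fun u _ => ch_triv _
  rw [h0, one_mul]
  have h1 : ∀ u v : Ix k, (if (pureD k).P u v = 1 then J (Dc' c u) (Dc' c v) else 1) =
      ∏ p ∈ Finset.univ.filter (fun p => c p = u), ∏ q ∈ Finset.univ.filter (fun q => c q = v),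
        sg2 (leg p q * Phi (c p) (c q)) := by
    intro u v
    show (if Phi u v = 1 then J (Dc' c u) (Dc' c v) else 1) = _
    split_ifs with h
    · unfold Dc'
      rw [J_prod_left]
      refine Finset.prod_congr rfl fun p hp => ?_
      rw [Finset.mem_filter] at hp
      rw [J_prod_right _ _ fun q _ => (hpr q).ne_zero]
      refine Finset.prod_congr rfl fun q hq => ?_
      rw [Finset.mem_filter] at hq
      rw [sg2_mul_ite, hp.2, hq.2, if_pos h, sg2_leg]
      rw [Nat.coprime_primes (hpr p) (hpr q)]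
      intro hpq
      have hpq' : p = q := Subtype.ext hpq
      rw [← hp.2, ← hq.2, hpq', Phi_self] at h
      exact absurd h (by decide)
    · refine (Finset.prod_eq_one fun p hp => Finset.prod_eq_one fun q hq => ?_).symm
      rw [Finset.mem_filter] at hp hq
      show sg2 (leg p q * Phi (c p) (c q)) = 1
      rw [sg2_mul_ite, hp.2, hq.2, if_neg h]
  rw [Finset.prod_congr rfl fun u _ => Finset.prod_congr rfl fun v _ => h1 u v]
  have h2 : ∀ u : Ix k, ∏ v : Ix k, ∏ p ∈ Finset.univ.filter (fun p => c p = u),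
      ∏ q ∈ Finset.univ.filter (fun q => c q = v), sg2 (leg p q * Phi (c p) (c q)) =
      ∏ p ∈ Finset.univ.filter (fun p => c p = u),
        ∏ q : n.primeFactors, sg2 (leg p q * Phi (c p) (c q)) := by
    intro u
    rw [Finset.prod_comm]
    refine Finset.prod_congr rfl fun p _ => ?_
    exact Finset.prod_fiberwise _ _ _
  rw [Finset.prod_congr rfl fun u _ => h2 u]
  exact Finset.prod_fiberwise _ _ _

/-- **the `k`-th power of the number of kernel vectors** -/
theorem kerG_eq {n : ℕ} (hn : Squarefree n) (k : ℕ) : kerG (pureD k) n = (Nr n : ℝ) ^ k := by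
  have h1 := ker_pow (S := n.primeFactors) (fun p q => leg p q) k
  unfold Nr
  rw [h1]
  unfold kerG qw
  have h2 : ((pureD k).m : ℝ) = 2 ^ k := by
    show ((2 ^ k : ℕ) : ℝ) = 2 ^ k
    push_cast
    rfl
  rw [h2, Fintype.card_coe]
  congr 1
  rw [← sum_tup' hn]
  exact Finset.sum_congr rfl fun c _ => wt_Dc' k c

end Vale.Agent.P017.H626
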