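import Vale.Agent.P017.H626.D1
import Vale.Agent.P014.H687.FM3sw

/-!
The moments of the number of kernel vectors over a family of residue classes.
-/

namespace Vale.Agent.P017.H626

open Finset Function Vale.Agent.P014.H580 Vale.Agent.P014.FM Vale.Agent.P014.H687.FM Filter

/-- `3` modulo `4`, `3` does not stay prime and `5` does not split in `ℚ(√-n)` -/
def F1 (n : ℕ) : Prop := n % 4 = 3 ∧ jacobiSym (n : ℤ) 3 ≠ 1 ∧ jacobiSym (n : ℤ) 5 ≠ 1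

instance : DecidablePred F1 := fun n => by unfold F1; infer_instance

lemma J_ind (n c : ℕ) (hc : c ≠ 0) :
    (if jacobiSym (n : ℤ) c ≠ 1 then (1 : ℝ) else 0) = 1 - 1 / 2 * J n (c * c) - 1 / 2 * J n c := by
  rw [J_mul_right _ _ _ hc hc]
  unfold J
  rcases jacobiSym.trichotomy (n : ℤ) c with h | h | h <;> rw [h] <;> norm_num

lemma chi4_ind (n : ℕ) :
    (if n % 4 = 3 then (1 : ℝ) else 0) = 1 / 2 * chi4 n ^ 2 - 1 / 2 * chi4 n := by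
  unfold chi4
  have : n % 4 < 4 := Nat.mod_lt _ (by norm_num)
  interval_cases n % 4 <;> norm_num

lemma F1_ind (n : ℕ) : (if F1 n then (1 : ℝ) else 0) =
    (1 / 2 * chi4 n ^ 2 - 1 / 2 * chi4 n) * ((1 - 1 / 2 * J n (3 * 3) - 1 / 2 * J n 3) *
      (1 - 1 / 2 * J n (5 * 5) - 1 / 2 * J n 5)) := by
  rw [← chi4_ind, ← J_ind n 3 (by norm_num), ← J_ind n 5 (by norm_num)]
  unfold F1
  by_cases h1 : n % 4 = 3 <;> by_cases h2 : jacobiSym (n : ℤ) 3 ≠ 1 <;>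
    by_cases h3 : jacobiSym (n : ℤ) 5 ≠ 1 <;> simp_all

lemma F1_sum (n : ℕ) : (if F1 n then (1 : ℝ) else 0) =
    ∑ t : Fin 2 × Fin 3 × Fin 3,
      ((![1 / 2, -1 / 2] : Fin 2 → ℝ) t.1 * ((![1, -1 / 2, -1 / 2] : Fin 3 → ℝ) t.2.1 *
        (![1, -1 / 2, -1 / 2] : Fin 3 → ℝ) t.2.2)) *
      ch ((![2, 1] : Fin 2 → ℕ) t.1) 0
        ((![1, 3 * 3, 3] : Fin 3 → ℕ) t.2.1 * (![1, 5 * 5, 5] : Fin 3 → ℕ) t.2.2) n := by
  rw [F1_ind]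
  have h1 : ∀ t : Fin 2 × Fin 3 × Fin 3,
      ((![1 / 2, -1 / 2] : Fin 2 → ℝ) t.1 * ((![1, -1 / 2, -1 / 2] : Fin 3 → ℝ) t.2.1 *
        (![1, -1 / 2, -1 / 2] : Fin 3 → ℝ) t.2.2)) *
      ch ((![2, 1] : Fin 2 → ℕ) t.1) 0
        ((![1, 3 * 3, 3] : Fin 3 → ℕ) t.2.1 * (![1, 5 * 5, 5] : Fin 3 → ℕ) t.2.2) n
      = ((![1 / 2, -1 / 2] : Fin 2 → ℝ) t.1 * chi4 n ^ (![2, 1] : Fin 2 → ℕ) t.1) *
        (((![1, -1 / 2, -1 / 2] : Fin 3 → ℝ) t.2.1 * J n ((![1, 3 * 3, 3] : Fin 3 → ℕ) t.2.1)) *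
          ((![1, -1 / 2, -1 / 2] : Fin 3 → ℝ) t.2.2 * J n ((![1, 5 * 5, 5] : Fin 3 → ℕ) t.2.2))) := by
    rintro ⟨t1, t2, t3⟩
    unfold ch
    rw [J_mul_right]
    · ring
    · fin_cases t2 <;> simp
    · fin_cases t3 <;> simp
  rw [Finset.sum_congr rfl fun t _ => h1 t, Fintype.sum_prod_type]
  simp_rw [Fintype.sum_prod_type, ← Finset.mul_sum, ← Finset.sum_mul]
  simp only [Fin.sum_univ_two, Fin.sum_univ_three, Matrix.cons_val_zero, Matrix.cons_val_one,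
    Matrix.cons_val_two, Matrix.head_cons, Matrix.tail_cons, Vale.Agent.P014.FM.J_one_right]
  ring

lemma F1_odd {n : ℕ} (h : F1 n) : Odd n ∧ e4' n = 1 := by
  refine ⟨?_, ?_⟩
  · rw [Nat.odd_iff]
    have := h.1
    omega
  · unfold e4'
    rw [if_pos h.1]

theorem card_Ix (k : ℕ) : Fintype.card (Ix k) = (2 ^ k) ^ 2 := by
  unfold Ix Wk
  rw [Fintype.card_prod, Fintype.card_fun, ZMod.card, Fintype.card_fin, pow_two]

/-- **the moments** -/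
theorem mom_F1 (k : ℕ) (hk : 1 ≤ k) : ∀ ε : ℝ, 0 < ε → ∃ X₀ : ℕ, ∀ X : ℕ, X₀ ≤ X →
    |∑ n ∈ (sqf X).filter F1, (Nr n : ℝ) ^ k
        - (2 ^ k * Nsub k) * ((sqf X).filter F1).card| ≤ ε * X := by
  intro ε hε
  have h2k : 2 ≤ (pureD k).m := by
    show 2 ≤ 2 ^ k
    calc 2 = 2 ^ 1 := (pow_one 2).symm
      _ ≤ 2 ^ k := Nat.pow_le_pow_right (by norm_num) hk
  obtain ⟨X₀, h⟩ := fam_pure Vale.Agent.P014.H687.FM.sw (pureD k) (fun _ => rfl) (fun _ => rfl)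
    (fun _ => rfl) (card_Ix k) h2k (maxUn k) 1 (T := Fin 2 × Fin 3 × Fin 3)
    (fun t => (![1 / 2, -1 / 2] : Fin 2 → ℝ) t.1 * ((![1, -1 / 2, -1 / 2] : Fin 3 → ℝ) t.2.1 *
        (![1, -1 / 2, -1 / 2] : Fin 3 → ℝ) t.2.2))
    (fun t => (![2, 1] : Fin 2 → ℕ) t.1) (fun _ => 0)
    (fun t => (![1, 3 * 3, 3] : Fin 3 → ℕ) t.2.1 * (![1, 5 * 5, 5] : Fin 3 → ℕ) t.2.2)
    (by rintro ⟨t1, t2⟩; fin_cases t1 <;> simp)
    (by
      rintro ⟨t1, t2, t3⟩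
      refine Odd.mul ?_ ?_
      · fin_cases t2 <;> simp <;> decide
      · fin_cases t3 <;> simp <;> decide) F1 F1_sum (fun n hn => F1_odd hn) ε hε
  refine ⟨X₀, fun X hX => ?_⟩
  have h1 := h X hX
  have e1 : ∑ n ∈ (sqf X).filter F1, kerG (pureD k) n
      = ∑ n ∈ (sqf X).filter F1, (Nr n : ℝ) ^ k := by
    refine Finset.sum_congr rfl fun n hn => ?_
    rw [Finset.mem_filter, mem_sqf] at hn
    exact kerG_eq hn.1.2 k
  have e2 : (∑ U ∈ UsG (pureD k).P (pureD k).m, gam (pureD k).P (pureD k).m U 1)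
      = 2 ^ k * Nsub k := sum_gam k
  rw [e1, e2] at h1
  exact h1

end Vale.Agent.P017.H626
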