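import Vale.Agent.P017.H626.D2

/-!
From the moments to the proportion of trivial kernels.
-/

namespace Vale.Agent.P017.H626

open Finset Function Vale.Agent.P014.H580 Vale.Agent.P014.FM Vale.Agent.P014.H687.FM Filter

/-- the kernel as a submodule -/
def KrS {S : Type*} [Fintype S] (a : S → S → ZMod 2) : Submodule (ZMod 2) (S → ZMod 2) where
  carrier := {x | ∀ q, ∑ p, a p q * (x p + x q) = 0}
  add_mem' := by
    intro x y hx hy q
    have h1 := hx q
    have h2 := hy q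
    have h3 : ∑ p, a p q * ((x + y) p + (x + y) q)
        = ∑ p, a p q * (x p + x q) + ∑ p, a p q * (y p + y q) := by
      rw [← Finset.sum_add_distrib]
      refine Finset.sum_congr rfl fun p _ => ?_
      simp only [Pi.add_apply]
      ring
    rw [h3, h1, h2, add_zero]
  zero_mem' := by
    intro q
    simp
  smul_mem' := by
    intro c x hx q
    have h1 := hx q
    have h3 : ∑ p, a p q * ((c • x) p + (c • x) q) = c * ∑ p, a p q * (x p + x q) := by
      rw [Finset.mul_sum]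
      refine Finset.sum_congr rfl fun p _ => ?_
      simp only [Pi.smul_apply, smul_eq_mul]
      ring
    rw [h3, h1, mul_zero]

lemma zmod2_add_self (x : ZMod 2) : x + x = 0 := CharTwo.add_self_eq_zero x

theorem card_Kr {S : Type*} [Fintype S] [Nonempty S] (a : S → S → ZMod 2) :
    ∃ j, Nat.card (Kr a) = 2 ^ (j + 1) := by
  have h1 : Nat.card (Kr a) = Nat.card (KrS a) := rfl
  have h2 := Module.natCard_eq_pow_finrank (K := ZMod 2) (V := KrS a)
  rw [Nat.card_zmod] at h2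
  rw [h1, h2]
  have h3 : 0 < Module.finrank (ZMod 2) (KrS a) := by
    have : Nontrivial (KrS a) := by
      refine ⟨⟨0, ⟨⟨fun _ => 1, ?_⟩, ?_⟩⟩⟩
      · intro q
        refine Finset.sum_eq_zero fun p _ => ?_
        rw [zmod2_add_self, mul_zero]
      · intro h
        have h' := congrArg Subtype.val h
        have := congrFun h' (Classical.arbitrary S)
        simp at this
    exact Module.finrank_pos
  exact ⟨Module.finrank (ZMod 2) (KrS a) - 1, by rw [Nat.sub_add_cancel h3]⟩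

theorem Nr_pow {n : ℕ} (hn : 1 < n) : ∃ j, Nr n = 2 ^ (j + 1) := by
  have : Nonempty n.primeFactors := by
    obtain ⟨p, hp⟩ := Nat.nonempty_primeFactors.2 hn
    exact ⟨⟨p, hp⟩⟩
  exact card_Kr _

/-- a polynomial detecting `1` among the powers of two -/
lemma poly_le (j : ℕ) : (2 - (2 : ℝ) ^ j) * (4 - 2 ^ j) * (8 - 2 ^ j) * (16 - 2 ^ j) * (32 - 2 ^ j)
    ≤ if j = 0 then 9765 else 0 := by
  rcases Nat.lt_or_ge j 6 with h | h
  · interval_cases j <;> norm_num
  · rw [if_neg (by omega)]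
    have h1 : (64 : ℝ) ≤ 2 ^ j := by
      calc (64 : ℝ) = 2 ^ 6 := by norm_num
        _ ≤ 2 ^ j := pow_le_pow_right₀ (by norm_num) h
    set w : ℝ := 2 ^ j
    have e : (2 - w) * (4 - w) * (8 - w) * (16 - w) * (32 - w)
        = -((w - 2) * (w - 4) * (w - 8) * (w - 16) * (w - 32)) := by ring
    rw [e]
    have : 0 ≤ (w - 2) * (w - 4) * (w - 8) * (w - 16) * (w - 32) := by
      have a1 : 0 ≤ w - 2 := by linarith
      have a2 : 0 ≤ w - 4 := by linarith
      have a3 : 0 ≤ w - 8 := by linarith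
      have a4 : 0 ≤ w - 16 := by linarith
      have a5 : 0 ≤ w - 32 := by linarith
      positivity
    linarith

/-- **proportion of the smallest value** -/
theorem low_of_mom (F : ℕ → Prop) [DecidablePred F] (R : ℕ → ℕ)
    (hR : ∀ n, Squarefree n → F n → ∃ j, R n = 2 ^ (j + 1))
    (hmom : ∀ k : ℕ, 1 ≤ k → ∀ ε : ℝ, 0 < ε → ∃ X₀ : ℕ, ∀ X : ℕ, X₀ ≤ X →
      |∑ n ∈ (sqf X).filter F, (R n : ℝ) ^ k
        - (2 ^ k * Nsub k) * ((sqf X).filter F).card| ≤ ε * X) :
    ∀ ε : ℝ, 0 < ε → ∃ X₀ : ℕ, ∀ X : ℕ, X₀ ≤ X →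
      188 / 651 * ((sqf X).filter F).card - ε * X
        ≤ ((((sqf X).filter F).filter (fun n => R n = 2)).card : ℝ) := by
  intro ε hε
  obtain ⟨X₁, h1⟩ := hmom 1 (by norm_num) (ε / 2) (by positivity)
  obtain ⟨X₂, h2⟩ := hmom 2 (by norm_num) (ε / 2) (by positivity)
  obtain ⟨X₃, h3⟩ := hmom 3 (by norm_num) (ε / 2) (by positivity)
  obtain ⟨X₄, h4⟩ := hmom 4 (by norm_num) (ε / 2) (by positivity)
  obtain ⟨X₅, h5⟩ := hmom 5 (by norm_num) (ε / 2) (by positivity)
  refine ⟨X₁ + X₂ + X₃ + X₄ + X₅, fun X hX => ?_⟩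
  have m1 := abs_le.1 (h1 X (by omega))
  have m2 := abs_le.1 (h2 X (by omega))
  have m3 := abs_le.1 (h3 X (by omega))
  have m4 := abs_le.1 (h4 X (by omega))
  have m5 := abs_le.1 (h5 X (by omega))
  rw [Nsub_one] at m1
  rw [Nsub_two] at m2
  rw [Nsub_three] at m3
  rw [Nsub_four] at m4
  rw [Nsub_five] at m5
  set S := (sqf X).filter F with hS
  have key : ∑ n ∈ S, (32768 - 15872 * (R n : ℝ) ^ 1 + 2480 * (R n : ℝ) ^ 2 - 155 * (R n : ℝ) ^ 3
      + 31 / 8 * (R n : ℝ) ^ 4 - 1 / 32 * (R n : ℝ) ^ 5)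
      ≤ 9765 * ((S.filter (fun n => R n = 2)).card : ℝ) := by
    have e1 : (9765 : ℝ) * ((S.filter (fun n => R n = 2)).card : ℝ)
        = ∑ n ∈ S, if R n = 2 then (9765 : ℝ) else 0 := by
      rw [← Finset.sum_filter, Finset.sum_const, nsmul_eq_mul, mul_comm]
    rw [e1]
    refine Finset.sum_le_sum fun n hn => ?_
    rw [hS, Finset.mem_filter, mem_sqf] at hn
    obtain ⟨j, hj⟩ := hR n hn.1.2 hn.2
    have h6 := poly_le j
    have h7 : (R n : ℝ) = 2 * 2 ^ j := by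
      rw [hj]
      push_cast
      ring
    have h8 : (R n = 2) ↔ j = 0 := by
      rw [hj]
      constructor
      · intro h
        by_contra hne
        have : 2 ^ 2 ≤ 2 ^ (j + 1) := Nat.pow_le_pow_right (by norm_num) (by omega)
        omega
      · rintro rfl
        rfl
    rw [h7]
    simp only [h8]
    refine le_trans (le_of_eq ?_) h6
    ring
  have e2 : ∑ n ∈ S, (32768 - 15872 * (R n : ℝ) ^ 1 + 2480 * (R n : ℝ) ^ 2 - 155 * (R n : ℝ) ^ 3
      + 31 / 8 * (R n : ℝ) ^ 4 - 1 / 32 * (R n : ℝ) ^ 5)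
      = 32768 * S.card - 15872 * ∑ n ∈ S, (R n : ℝ) ^ 1 + 2480 * ∑ n ∈ S, (R n : ℝ) ^ 2
        - 155 * ∑ n ∈ S, (R n : ℝ) ^ 3 + 31 / 8 * ∑ n ∈ S, (R n : ℝ) ^ 4
        - 1 / 32 * ∑ n ∈ S, (R n : ℝ) ^ 5 := by
    simp only [Finset.sum_sub_distrib, Finset.sum_add_distrib, ← Finset.mul_sum]
    rw [Finset.sum_const, nsmul_eq_mul]
    ring
  rw [e2] at key
  have hXe : 0 ≤ ε * X := by positivity
  push_cast at m1 m2 m3 m4 m5
  norm_num at m1 m2 m3 m4 m5 key ⊢
  linarith [m1.1, m1.2, m2.1, m2.2, m3.1, m3.2, m4.1, m4.2, m5.1, m5.2]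

theorem low_F1 : ∀ ε : ℝ, 0 < ε → ∃ X₀ : ℕ, ∀ X : ℕ, X₀ ≤ X →
      188 / 651 * ((sqf X).filter F1).card - ε * X
        ≤ ((((sqf X).filter F1).filter (fun n => Nr n = 2)).card : ℝ) :=
  low_of_mom F1 Nr (fun n _ hn => Nr_pow (by
    have := hn.1
    omega)) mom_F1

end Vale.Agent.P017.H626
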