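import Vale.Agent.P017.H626.D3
import Vale.Agent.P017.H185.Fam

/-!
A trivial kernel gives the criterion of Rédei.
-/

namespace Vale.Agent.P017.H626

open Finset Function Vale.Agent.P014.H580 Vale.Agent.P014.FM Vale.Agent.P014.H687.FM Filter
open Vale.Agent.P017.H185 (Redei)

lemma J_of_sq {m q : ℕ} (hq : q.Prime) (hqm : ¬ q ∣ m) (h : IsSquare (m : ZMod q)) :
    J m q = 1 := by
  unfold J
  rw [Vale.Agent.P017.H185.J_prime_one hq (by exact_mod_cast hqm) (by exact_mod_cast h)]
  norm_num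

lemma prod_filter_dvd {d a : ℕ} (hd : Squarefree d) (ha : a ∣ d) :
    ∏ p ∈ Finset.univ.filter (fun p : d.primeFactors => (p : ℕ) ∣ a), (p : ℕ) = a := by
  have hd0 := hd.ne_zero
  have h1 : ∏ p ∈ Finset.univ.filter (fun p : d.primeFactors => (p : ℕ) ∣ a), (p : ℕ)
      = ∏ p ∈ d.primeFactors.filter (fun p => p ∣ a), p := by
    rw [Finset.prod_filter, Finset.prod_filter,
      Finset.prod_coe_sort d.primeFactors (fun p => if p ∣ a then p else 1)]
  have h2 : d.primeFactors.filter (fun p => p ∣ a) = a.primeFactors := by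
    ext p
    rw [Finset.mem_filter, Nat.mem_primeFactors, Nat.mem_primeFactors]
    constructor
    · rintro ⟨⟨h1, h2, h3⟩, h4⟩
      exact ⟨h1, h4, ne_zero_of_dvd_ne_zero hd0 ha⟩
    · rintro ⟨h1, h2, h3⟩
      exact ⟨⟨h1, h2.trans ha, hd0⟩, h2⟩
  rw [h1, h2, Nat.prod_primeFactors_of_squarefree (hd.squarefree_of_dvd ha)]

lemma prod_filter_not_dvd {d a : ℕ} (hd : Squarefree d) (ha : a ∣ d) :
    ∏ p ∈ Finset.univ.filter (fun p : d.primeFactors => ¬ (p : ℕ) ∣ a), (p : ℕ) = d / a := by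
  have hd0 := hd.ne_zero
  have ha0 : a ≠ 0 := ne_zero_of_dvd_ne_zero hd0 ha
  have h1 := Finset.prod_filter_mul_prod_filter_not (Finset.univ : Finset d.primeFactors)
    (fun p => (p : ℕ) ∣ a) (fun p => (p : ℕ))
  rw [prod_filter_dvd hd ha, Finset.prod_coe_sort d.primeFactors (fun p => p),
    Nat.prod_primeFactors_of_squarefree hd] at h1
  exact (Nat.div_eq_of_eq_mul_right (Nat.pos_of_ne_zero ha0) h1.symm).symm

lemma sg2_inj0 {x : ZMod 2} (h : sg2 x = 1) : x = 0 := by
  rcases z2 x with rfl | rfl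
  · rfl
  · rw [sg2_one] at h
    norm_num at h

/-- **a kernel with two elements gives the criterion** -/
theorem redei_of_Nr {d : ℕ} (hd : Squarefree d) (hN : Nr d = 2) : Redei d := by
  intro a ha hloc
  have hd0 := hd.ne_zero
  have hpr : ∀ p : d.primeFactors, (p : ℕ).Prime := fun p => Nat.prime_of_mem_primeFactors p.2
  have hpd : ∀ p : d.primeFactors, (p : ℕ) ∣ d := fun p => Nat.dvd_of_mem_primeFactors p.2
  have hcop : ∀ q : d.primeFactors, (q : ℕ) ∣ a → ¬ (q : ℕ) ∣ d / a := by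
    intro q h1 h2
    have h3 : (q : ℕ) * q ∣ d := by
      conv_rhs => rw [← Nat.mul_div_cancel' ha]
      exact Nat.mul_dvd_mul h1 h2
    exact (hpr q).one_lt.ne' (Nat.isUnit_iff.mp (hd q h3))
  have hx : ∀ q : d.primeFactors, ∑ p : d.primeFactors, leg p q *
      ((if (p : ℕ) ∣ a then (1 : ZMod 2) else 0) + (if (q : ℕ) ∣ a then 1 else 0)) = 0 := by
    intro q
    apply sg2_inj0
    rw [sg2_sum]
    have h1 : ∀ p : d.primeFactors, sg2 (leg p q *
        ((if (p : ℕ) ∣ a then (1 : ZMod 2) else 0) + (if (q : ℕ) ∣ a then 1 else 0)))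
        = if ((p : ℕ) ∣ a ↔ (q : ℕ) ∣ a) then 1 else J p q := by
      intro p
      by_cases h2 : (p : ℕ) ∣ a <;> by_cases h3 : (q : ℕ) ∣ a
      · rw [if_pos h2, if_pos h3, if_pos (by tauto), zmod2_add_self, mul_zero, sg2_zero]
      · rw [if_pos h2, if_neg h3, if_neg (by tauto), add_zero, mul_one, sg2_leg]
        rw [Nat.coprime_primes (hpr p) (hpr q)]
        intro h4
        rw [h4] at h2
        exact h3 h2
      · rw [if_neg h2, if_pos h3, if_neg (by tauto), zero_add, mul_one, sg2_leg]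
        rw [Nat.coprime_primes (hpr p) (hpr q)]
        intro h4
        rw [h4] at h2
        exact h2 h3
      · rw [if_neg h2, if_neg h3, if_pos (by tauto), add_zero, mul_zero, sg2_zero]
    rw [Finset.prod_congr rfl fun p _ => h1 p]
    by_cases h3 : (q : ℕ) ∣ a
    · have h4 : ∀ p : d.primeFactors, (if ((p : ℕ) ∣ a ↔ (q : ℕ) ∣ a) then (1 : ℝ) else J p q)
          = if ¬ (p : ℕ) ∣ a then J p q else 1 := by
        intro p
        by_cases h2 : (p : ℕ) ∣ a
        · rw [if_pos (by tauto), if_neg (by tauto)]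
        · rw [if_neg (by tauto), if_pos h2]
      rw [Finset.prod_congr rfl fun p _ => h4 p, ← Finset.prod_filter, ← J_prod_left,
        prod_filter_not_dvd hd ha]
      exact J_of_sq (hpr q) (hcop q h3) ((hloc q (hpr q) (hpd q)).2 h3)
    · have h4 : ∀ p : d.primeFactors, (if ((p : ℕ) ∣ a ↔ (q : ℕ) ∣ a) then (1 : ℝ) else J p q)
          = if (p : ℕ) ∣ a then J p q else 1 := by
        intro p
        by_cases h2 : (p : ℕ) ∣ a
        · rw [if_neg (by tauto), if_pos h2]
        · rw [if_pos (by tauto), if_neg (by tauto)]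
      rw [Finset.prod_congr rfl fun p _ => h4 p, ← Finset.prod_filter, ← J_prod_left,
        prod_filter_dvd hd ha]
      exact J_of_sq (hpr q) h3 ((hloc q (hpr q) (hpd q)).1 h3)
  by_cases hne : d = 1
  · left
    rw [hne] at ha
    exact Nat.dvd_one.1 ha
  have hn1 : 1 < d := by omega
  obtain ⟨p₀, hp₀⟩ := Nat.nonempty_primeFactors.2 hn1
  have zer : (∀ q : d.primeFactors, ∑ p : d.primeFactors, leg p q *
      ((fun _ => (0 : ZMod 2)) p + (fun _ => (0 : ZMod 2)) q) = 0) := by
    intro q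
    simp
  have one : (∀ q : d.primeFactors, ∑ p : d.primeFactors, leg p q *
      ((fun _ => (1 : ZMod 2)) p + (fun _ => (1 : ZMod 2)) q) = 0) := by
    intro q
    refine Finset.sum_eq_zero fun p _ => ?_
    rw [zmod2_add_self, mul_zero]
  obtain ⟨y, hy, hyu⟩ := (Nat.card_eq_two_iff' (⟨_, zer⟩ : Kn d)).1 hN
  have h1 : (⟨_, one⟩ : Kn d) = y := by
    apply hyu
    intro h
    have := congrFun (congrArg Subtype.val h) ⟨p₀, hp₀⟩
    simp at this
  by_cases h2 : (⟨fun p => if (p : ℕ) ∣ a then (1 : ZMod 2) else 0, hx⟩ : Kn d) = ⟨_, zer⟩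
  · left
    by_contra hane
    obtain ⟨p, hp, hpa⟩ := Nat.exists_prime_and_dvd hane
    have hmem : p ∈ d.primeFactors := Nat.mem_primeFactors.2 ⟨hp, hpa.trans ha, hd0⟩
    have := congrFun (congrArg Subtype.val h2) ⟨p, hmem⟩
    simp [hpa] at this
  · right
    have h3 := hyu _ h2
    rw [← h1] at h3
    have h4 : ∀ p : d.primeFactors, (p : ℕ) ∣ a := by
      intro p
      have := congrFun (congrArg Subtype.val h3) p
      by_contra hpa
      simp [hpa] at this
    have h5 : d ∣ a := by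
      conv_lhs => rw [← Nat.prod_primeFactors_of_squarefree hd]
      exact Finset.prod_primes_dvd _ (fun p hp => (Nat.prime_of_mem_primeFactors hp).prime)
        (fun p hp => h4 ⟨p, hp⟩)
    exact Nat.dvd_antisymm ha h5

end Vale.Agent.P017.H626
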