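import Mathlib

/-!
Absolute values of discriminants of imaginary quadratic fields.
-/

namespace Vale.Agent.P017.H626

open NumberField

/-- `-D` is the discriminant of an imaginary quadratic field. -/
def IsDisc (D : ℕ) : Prop := ∃ (K : Type) (_ : Field K) (_ : NumberField K),
  Algebra.IsQuadraticExtension ℚ K ∧ IsTotallyComplex K ∧ discr K = -(D : ℤ)

end Vale.Agent.P017.H626
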