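import Mathlib

/-!
The number of squarefree integers in a residue class prime to the modulus.
-/

namespace Vale.Agent.P017.H626

open Finset Filter Topology ArithmeticFunction
open scoped ArithmeticFunction.Moebius ArithmeticFunction.zeta

theorem sum_mu (b : ℕ) (hb : b ≠ 0) : ∑ d ∈ b.divisors, μ d = if b = 1 then 1 else 0 := by
  have h := congrArg (fun f : ArithmeticFunction ℤ => f b) moebius_mul_coe_zeta
  simp only [ArithmeticFunction.coe_mul_zeta_apply, ArithmeticFunction.one_apply] at h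
  exact h

theorem dvd_of_sq_dvd {a b d : ℕ} (ha : Squarefree a) (h : d ^ 2 ∣ b ^ 2 * a) (hb : b ≠ 0) :
    d ∣ b := by
  have hg : 0 < Nat.gcd d b := Nat.gcd_pos_of_pos_right _ (Nat.pos_of_ne_zero hb)
  obtain ⟨g, d', b', hg', hcop, hd, hb'⟩ := Nat.exists_coprime' hg
  have h1 : d' ^ 2 * g ^ 2 ∣ b' ^ 2 * a * g ^ 2 := by
    rw [hd, hb'] at h
    convert h using 1 <;> ring
  have h2 : d' ^ 2 ∣ b' ^ 2 * a := Nat.dvd_of_mul_dvd_mul_right (by positivity) h1
  have h3 : d' ^ 2 ∣ a := (hcop.pow 2 2).dvd_of_dvd_mul_left h2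
  have h4 : d' = 1 := Nat.isUnit_iff.1 (ha d' (by rw [← pow_two]; exact h3))
  rw [hd, hb', h4, one_mul]
  exact dvd_mul_left _ _

theorem sqf_ind {n : ℕ} (hn : n ≠ 0) (D : Finset ℕ) (hD : ∀ d, d ^ 2 ∣ n → d ∈ D) :
    ∑ d ∈ D.filter (fun d => d ^ 2 ∣ n), μ d = if Squarefree n then 1 else 0 := by
  obtain ⟨a, b, ha, hb, hab, hsq⟩ := Nat.sq_mul_squarefree_of_pos (Nat.pos_of_ne_zero hn)
  have h1 : D.filter (fun d => d ^ 2 ∣ n) = b.divisors := by
    ext d
    rw [Finset.mem_filter, Nat.mem_divisors]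
    constructor
    · rintro ⟨_, h⟩
      rw [← hab] at h
      exact ⟨dvd_of_sq_dvd hsq h hb.ne', hb.ne'⟩
    · rintro ⟨h, _⟩
      have h2 : d ^ 2 ∣ n := by
        rw [← hab]
        exact (pow_dvd_pow_of_dvd h 2).trans (dvd_mul_right _ _)
      exact ⟨hD d h2, h2⟩
  rw [h1, sum_mu b hb.ne']
  have h2 : Squarefree n ↔ b = 1 := by
    constructor
    · intro h
      exact Nat.isUnit_iff.1 (h b (by rw [← hab, ← pow_two]; exact dvd_mul_right _ _))
    · rintro rfl
      rw [← hab, one_pow, one_mul]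
      exact hsq
  simp only [h2]

/-- multiples of `d²` in a residue class -/
def cnt (q a X d : ℕ) : ℕ := ((Ioc 0 X).filter (fun n => n ≡ a [MOD q] ∧ d ^ 2 ∣ n)).card

theorem cnt_le (q a X d : ℕ) : (cnt q a X d : ℝ) ≤ X * (1 / (d : ℝ) ^ 2) := by
  rcases Nat.eq_zero_or_pos d with rfl | hd
  · have : cnt q a X 0 = 0 := by
      unfold cnt
      rw [Finset.card_eq_zero, Finset.filter_eq_empty_iff]
      intro n hn h
      rw [Finset.mem_Ioc] at hn
      have := Nat.eq_zero_of_zero_dvd (by simpa using h.2)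
      omega
    rw [this]
    simp
  · have h1 : cnt q a X d ≤ X / d ^ 2 := by
      rw [← Nat.Ioc_filter_dvd_card_eq_div]
      unfold cnt
      apply Finset.card_le_card
      intro n hn
      rw [Finset.mem_filter] at hn ⊢
      exact ⟨hn.1, hn.2.2⟩
    have h2 : ((X / d ^ 2 : ℕ) : ℝ) ≤ (X : ℝ) / ((d ^ 2 : ℕ) : ℝ) := Nat.cast_div_le
    have h3 : (cnt q a X d : ℝ) ≤ ((X / d ^ 2 : ℕ) : ℝ) := by exact_mod_cast h1
    calc (cnt q a X d : ℝ) ≤ (X : ℝ) / ((d ^ 2 : ℕ) : ℝ) := h3.trans h2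
      _ = X * (1 / (d : ℝ) ^ 2) := by push_cast; ring

theorem card_class {r : ℕ} (hr : 0 < r) (v X : ℕ) :
    |((((Ioc 0 X).filter (fun n => n ≡ v [MOD r])).card : ℕ) : ℝ) - X / r| ≤ 1 := by
  have h := Nat.Ioc_filter_modEq_card 0 X hr v
  have hr0 : (0 : ℚ) < r := by exact_mod_cast hr
  have key : |((((Ioc 0 X).filter (fun n => n ≡ v [MOD r])).card : ℕ) : ℚ) - X / r| ≤ 1 := by
    have h1 : ((((Ioc 0 X).filter (fun n => n ≡ v [MOD r])).card : ℕ) : ℚ)
        = ((max (⌊((X : ℚ) - v) / (r : ℚ)⌋ - ⌊(((0 : ℕ) : ℚ) - v) / (r : ℚ)⌋) 0 : ℤ) : ℚ) := by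
      rw [← h]
      push_cast
      rfl
    rw [h1]
    have a1 := Int.floor_le (((X : ℚ) - v) / (r : ℚ))
    have a2 := Int.lt_floor_add_one (((X : ℚ) - v) / (r : ℚ))
    have a3 := Int.floor_le ((((0 : ℕ) : ℚ) - v) / (r : ℚ))
    have a4 := Int.lt_floor_add_one ((((0 : ℕ) : ℚ) - v) / (r : ℚ))
    have e1 : ((X : ℚ) - v) / (r : ℚ) - (((0 : ℕ) : ℚ) - v) / (r : ℚ) = X / r := by
      push_cast
      field_simp
      ring
    have h2 : (0 : ℚ) ≤ X / r := by positivity
    have h3 : ⌊(((0 : ℕ) : ℚ) - v) / (r : ℚ)⌋ ≤ ⌊((X : ℚ) - v) / (r : ℚ)⌋ := by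
      apply Int.floor_le_floor
      linarith
    rw [max_eq_left (by linarith)]
    push_cast
    push_cast at a1 a2 a3 a4 e1
    rw [abs_le]
    constructor <;> linarith
  have key2 := (Rat.cast_le (K := ℝ)).2 key
  push_cast at key2
  exact key2

theorem cnt_lim (q a d : ℕ) (hq : 0 < q) (ha : Nat.Coprime a q) :
    Tendsto (fun X : ℕ => (cnt q a X d : ℝ) / X) atTop
      (𝓝 (if Nat.Coprime d q then 1 / (q * (d : ℝ) ^ 2) else 0)) := by
  rcases Nat.eq_zero_or_pos d with rfl | hd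
  · have : ∀ X : ℕ, (cnt q a X 0 : ℝ) / X = 0 := by
      intro X
      have h := cnt_le q a X 0
      have h0 : (0 : ℝ) ≤ cnt q a X 0 := Nat.cast_nonneg _
      have : (cnt q a X 0 : ℝ) = 0 := by
        apply le_antisymm _ h0
        simpa using h
      rw [this, zero_div]
    simp only [this]
    have h2 : (if Nat.Coprime 0 q then 1 / (q * ((0 : ℕ) : ℝ) ^ 2) else 0) = 0 := by
      split_ifs <;> simp
    rw [h2]
    exact tendsto_const_nhds
  split_ifs with hc
  · have hc2 : Nat.Coprime q (d ^ 2) := (hc.pow_left 2).symm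
    obtain ⟨v, hv1, hv2⟩ := Nat.chineseRemainder hc2 a 0
    have hr : 0 < q * d ^ 2 := by positivity
    have e1 : ∀ X, cnt q a X d = ((Ioc 0 X).filter (fun n => n ≡ v [MOD (q * d ^ 2)])).card := by
      intro X
      unfold cnt
      congr 1
      apply Finset.filter_congr
      intro n _
      rw [← Nat.modEq_and_modEq_iff_modEq_mul hc2]
      constructor
      · rintro ⟨h1, h2⟩
        exact ⟨h1.trans hv1.symm, ((Nat.modEq_zero_iff_dvd).2 h2).trans hv2.symm⟩
      · rintro ⟨h1, h2⟩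
        exact ⟨h1.trans hv1, (Nat.modEq_zero_iff_dvd).1 (h2.trans hv2)⟩
    have h2 : Tendsto (fun X : ℕ => (1 : ℝ) / X) atTop (𝓝 0) :=
      tendsto_one_div_atTop_nhds_zero_nat
    rw [Metric.tendsto_atTop] at h2 ⊢
    intro ε hε
    obtain ⟨N, hN⟩ := h2 ε hε
    refine ⟨max N 1, fun X hX => ?_⟩
    have h3 := hN X ((le_max_left _ _).trans hX)
    have hX1 : 1 ≤ X := (le_max_right _ _).trans hX
    have hX0 : (0 : ℝ) < X := by exact_mod_cast hX1
    rw [Real.dist_eq, sub_zero, abs_of_pos (by positivity)] at h3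
    have h4 := card_class hr v X
    rw [← e1] at h4
    push_cast at h4
    rw [Real.dist_eq]
    have e2 : (cnt q a X d : ℝ) / X - 1 / (q * (d : ℝ) ^ 2)
        = ((cnt q a X d : ℝ) - X / (q * (d : ℝ) ^ 2)) / X := by
      field_simp
    rw [e2, abs_div, abs_of_pos hX0]
    exact lt_of_le_of_lt (div_le_div_of_nonneg_right h4 hX0.le) h3
  · have : ∀ X : ℕ, (cnt q a X d : ℝ) / X = 0 := by
      intro X
      have : cnt q a X d = 0 := by
        unfold cnt
        rw [Finset.card_eq_zero, Finset.filter_eq_empty_iff]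
        rintro n hn ⟨h1, h2⟩
        apply hc
        have h3 : Nat.Coprime n q := by
          have := Nat.ModEq.gcd_eq h1
          unfold Nat.Coprime
          rw [this]
          exact ha
        exact Nat.Coprime.coprime_dvd_left ((dvd_pow_self d two_ne_zero).trans h2) h3
      rw [this]
      simp
    simp only [this]
    exact tendsto_const_nhds

/-- the number of squarefree integers in a class -/
def sqc (q a X : ℕ) : ℕ := ((Ioc 0 X).filter (fun n => n ≡ a [MOD q] ∧ Squarefree n)).card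

theorem sqc_eq (q a X : ℕ) : (sqc q a X : ℤ) = ∑ d ∈ Finset.range (X + 1), μ d * cnt q a X d := by
  unfold sqc cnt
  rw [Finset.card_filter]
  push_cast [Finset.card_filter]
  simp_rw [Finset.mul_sum]
  rw [Finset.sum_comm]
  refine Finset.sum_congr rfl fun n hn => ?_
  rw [Finset.mem_Ioc] at hn
  have h1 := sqf_ind (n := n) (by omega) (Finset.range (X + 1)) (by
    intro d hd
    rw [Finset.mem_range]
    have h2 : d ^ 2 ≤ n := Nat.le_of_dvd (by omega) hd
    nlinarith)
  by_cases h : n ≡ a [MOD q]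
  · simp only [h, true_and]
    rw [← h1, Finset.sum_filter]
    refine Finset.sum_congr rfl fun d _ => ?_
    split_ifs <;> simp
  · simp [h]

/-- the density of the squarefree numbers in one class prime to `q` -/
noncomputable def beta (q : ℕ) : ℝ :=
  ∑' d : ℕ, (μ d : ℝ) * (if Nat.Coprime d q then 1 / (q * (d : ℝ) ^ 2) else 0)

lemma mu_abs (d : ℕ) : |(μ d : ℝ)| ≤ 1 := by
  exact_mod_cast ArithmeticFunction.abs_moebius_le_one (n := d)

theorem sqc_lim (q a : ℕ) (hq : 0 < q) (ha : Nat.Coprime a q) :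
    Tendsto (fun X : ℕ => (sqc q a X : ℝ) / X) atTop (𝓝 (beta q)) := by
  have h0 : Summable (fun d : ℕ => 1 / (d : ℝ) ^ 2) :=
    Real.summable_one_div_nat_pow.2 (by norm_num)
  have key := tendsto_tsum_of_dominated_convergence (𝓕 := (atTop : Filter ℕ))
    (f := fun X d => (μ d : ℝ) * ((cnt q a X d : ℝ) / X))
    (g := fun d => (μ d : ℝ) * (if Nat.Coprime d q then 1 / (q * (d : ℝ) ^ 2) else 0))
    (bound := fun d : ℕ => 1 / (d : ℝ) ^ 2) h0
    (fun d => (cnt_lim q a d hq ha).const_mul _)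
    (by
      filter_upwards [eventually_gt_atTop 0] with X hX d
      have hX0 : (0 : ℝ) < X := by exact_mod_cast hX
      rw [Real.norm_eq_abs, abs_mul]
      have h1 : |((cnt q a X d : ℝ) / X)| ≤ 1 / (d : ℝ) ^ 2 := by
        rw [abs_of_nonneg (by positivity), div_le_iff₀ hX0, mul_comm]
        exact cnt_le q a X d
      calc |(μ d : ℝ)| * |((cnt q a X d : ℝ) / X)| ≤ 1 * (1 / (d : ℝ) ^ 2) := by
            apply mul_le_mul (mu_abs d) h1 (abs_nonneg _) (by norm_num)
        _ = 1 / (d : ℝ) ^ 2 := one_mul _)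
  refine key.congr' ?_
  filter_upwards with X
  have h1 : ∀ d ∉ Finset.range (X + 1), (μ d : ℝ) * ((cnt q a X d : ℝ) / X) = 0 := by
    intro d hd
    rw [Finset.mem_range] at hd
    have : cnt q a X d = 0 := by
      unfold cnt
      rw [Finset.card_eq_zero, Finset.filter_eq_empty_iff]
      rintro n hn ⟨-, h2⟩
      rw [Finset.mem_Ioc] at hn
      have h3 := Nat.le_of_dvd hn.1 h2
      have h4 : d * 1 ≤ d ^ 2 := by
        rw [pow_two]
        exact Nat.mul_le_mul_left _ (by omega)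
      omega
    rw [this]
    simp
  rw [tsum_eq_sum h1]
  have h2 : (sqc q a X : ℝ) = ∑ d ∈ Finset.range (X + 1), (μ d : ℝ) * cnt q a X d := by
    have := congrArg (Int.cast : ℤ → ℝ) (sqc_eq q a X)
    push_cast at this
    exact this
  rw [h2, Finset.sum_div]
  exact Finset.sum_congr rfl fun d _ => by ring

theorem beta_pos {q : ℕ} (hq : 0 < q) : 0 < beta q := by
  have h0 : HasSum (fun d : ℕ => 1 / (d : ℝ) ^ 2) (Real.pi ^ 2 / 6) := hasSum_zeta_two
  have hq0 : (0 : ℝ) < q := by exact_mod_cast hq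
  set f : ℕ → ℝ := fun d => (μ d : ℝ) * (if Nat.Coprime d q then 1 / (q * (d : ℝ) ^ 2) else 0)
    with hf
  have hb : ∀ d : ℕ, |f d| ≤ 1 / (d : ℝ) ^ 2 * (1 / q) := by
    intro d
    rw [hf]
    simp only
    rw [abs_mul]
    have h1 : |(if Nat.Coprime d q then 1 / ((q : ℝ) * (d : ℝ) ^ 2) else 0)|
        ≤ 1 / (d : ℝ) ^ 2 * (1 / q) := by
      split_ifs
      · rw [abs_of_nonneg (by positivity)]
        apply le_of_eq
        rw [one_div_mul_one_div, mul_comm]
      · rw [abs_zero]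
        positivity
    calc |(μ d : ℝ)| * |(if Nat.Coprime d q then 1 / ((q : ℝ) * (d : ℝ) ^ 2) else 0)|
        ≤ 1 * (1 / (d : ℝ) ^ 2 * (1 / q)) := mul_le_mul (mu_abs d) h1 (abs_nonneg _) (by norm_num)
      _ = _ := one_mul _
  have hs : Summable f :=
    Summable.of_norm_bounded (h0.summable.mul_right (1 / (q : ℝ))) hb
  have h1 : f 1 = 1 / q := by
    rw [hf]
    simp
  -- compare with `2 * δ₁ - 1/d²`
  have h2 : HasSum (fun d : ℕ => (if d = 1 then (2 / q : ℝ) else 0) - 1 / (d : ℝ) ^ 2 * (1 / q))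
      (2 / q - Real.pi ^ 2 / 6 * (1 / q)) :=
    (hasSum_ite_eq 1 (2 / q : ℝ)).sub (h0.mul_right (1 / (q : ℝ)))
  have h3 : 2 / q - Real.pi ^ 2 / 6 * (1 / q) ≤ beta q := by
    unfold beta
    rw [← h2.tsum_eq]
    apply Summable.tsum_le_tsum _ h2.summable hs
    intro d
    by_cases hd : d = 1
    · subst hd
      rw [if_pos rfl]
      change _ ≤ f 1
      rw [h1]
      push_cast
      apply le_of_eq
      ring
    · rw [if_neg hd, zero_sub]
      exact (abs_le.1 (hb d)).1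
  have h4 : 0 < 2 / q - Real.pi ^ 2 / 6 * (1 / (q : ℝ)) := by
    have h5 : 2 / q - Real.pi ^ 2 / 6 * (1 / (q : ℝ)) = (2 - Real.pi ^ 2 / 6) * (1 / q) := by ring
    rw [h5]
    have h6 : Real.pi < 3.15 := Real.pi_lt_d2
    have h7 : 0 < Real.pi := Real.pi_pos
    have h8 : Real.pi ^ 2 < 12 := by nlinarith
    apply mul_pos _ (by positivity)
    linarith
  linarith

end Vale.Agent.P017.H626
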