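import Vale.Agent.P017.H626.E1
import Vale.Agent.P014.H687.FM2

/-!
The number of odd squarefree integers in a union of classes modulo `60`.
-/

namespace Vale.Agent.P017.H626

open Finset Filter Topology
open Vale.Agent.P014.H687.FM

/-- natural density of a counting function -/
def As (f : ℕ → ℕ) (c : ℝ) : Prop := Tendsto (fun X : ℕ => (f X : ℝ) / X) atTop (𝓝 c)

lemma As.add {f g : ℕ → ℕ} {a b : ℝ} (hf : As f a) (hg : As g b) :
    As (fun X => f X + g X) (a + b) := by
  unfold As at *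
  refine (hf.add hg).congr fun X => ?_
  push_cast
  ring

lemma As.sum {κ : Type*} (s : Finset κ) {f : κ → ℕ → ℕ} {a : κ → ℝ} (hf : ∀ i ∈ s, As (f i) (a i)) :
    As (fun X => ∑ i ∈ s, f i X) (∑ i ∈ s, a i) := by
  classical
  unfold As at *
  have := tendsto_finsetSum s hf
  refine this.congr fun X => ?_
  push_cast
  rw [Finset.sum_div]

lemma div_lim (g : ℕ) (hg : 0 < g) :
    Tendsto (fun X : ℕ => ((X / g : ℕ) : ℝ) / X) atTop (𝓝 (1 / g)) := by
  have h2 : Tendsto (fun X : ℕ => (1 : ℝ) / X) atTop (𝓝 0) := tendsto_one_div_atTop_nhds_zero_nat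
  have hg0 : (0 : ℝ) < g := by exact_mod_cast hg
  have h3 : Tendsto (fun X : ℕ => (1 : ℝ) / g - 1 / X) atTop (𝓝 (1 / g)) := by
    simpa using h2.const_sub (1 / (g : ℝ))
  refine tendsto_of_tendsto_of_tendsto_of_le_of_le' h3 (tendsto_const_nhds (x := 1 / (g : ℝ)))
    ?_ ?_
  · filter_upwards [eventually_gt_atTop 0] with X hX
    have hX0 : (0 : ℝ) < X := by exact_mod_cast hX
    have h4 : (X : ℝ) ≤ g * ((X / g : ℕ) : ℝ) + g := by
      have h6 : X % g < g := Nat.mod_lt _ hg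
      have h7 := Nat.div_add_mod X g
      have h5 : X ≤ g * (X / g) + g := by omega
      exact_mod_cast h5
    rw [le_div_iff₀ hX0, sub_mul, one_div_mul_cancel hX0.ne']
    have h8 : 1 / (g : ℝ) * X ≤ 1 / (g : ℝ) * (g * ((X / g : ℕ) : ℝ) + g) :=
      mul_le_mul_of_nonneg_left h4 (by positivity)
    have h9 : 1 / (g : ℝ) * (g * ((X / g : ℕ) : ℝ) + g) = ((X / g : ℕ) : ℝ) + 1 := by
      field_simp
    linarith
  · filter_upwards [eventually_gt_atTop 0] with X hX
    have hX0 : (0 : ℝ) < X := by exact_mod_cast hX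
    rw [div_le_iff₀ hX0]
    have := Nat.cast_div_le (α := ℝ) (m := X) (n := g)
    calc ((X / g : ℕ) : ℝ) ≤ X / g := this
      _ = 1 / g * X := by ring

lemma As.div {f : ℕ → ℕ} {c : ℝ} (hf : As f c) (g : ℕ) (hg : 0 < g) (hf0 : f 0 = 0) :
    As (fun X => f (X / g)) (c / g) := by
  unfold As at *
  have h1 : Tendsto (fun X : ℕ => X / g) atTop atTop := Nat.tendsto_div_const_atTop hg.ne'
  have h2 := (hf.comp h1).mul (div_lim g hg)
  have e : c * (1 / (g : ℝ)) = c / g := by ring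
  rw [e] at h2
  refine h2.congr fun X => ?_
  simp only [Function.comp]
  by_cases h : X / g = 0
  · rw [h, hf0]
    simp
  · have : ((X / g : ℕ) : ℝ) ≠ 0 := by exact_mod_cast h
    field_simp

/-- squarefree numbers prime to `60` with a condition -/
def cop (P : ℕ → Prop) [DecidablePred P] (X : ℕ) : ℕ :=
  ((sqf X).filter (fun n => Nat.Coprime n 60 ∧ P n)).card

/-- the number of classes -/
def ncl (P : ℕ → Prop) [DecidablePred P] : ℕ :=
  ((range 60).filter (fun a => Nat.Coprime a 60 ∧ P a)).card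

theorem cop_eq (P : ℕ → Prop) [DecidablePred P] (hP : ∀ n, P n ↔ P (n % 60)) (X : ℕ) :
    cop P X = ∑ a ∈ (range 60).filter (fun a => Nat.Coprime a 60 ∧ P a), sqc 60 a X := by
  unfold cop
  rw [Finset.card_eq_sum_card_fiberwise (f := fun n => n % 60)
    (t := (range 60).filter (fun a => Nat.Coprime a 60 ∧ P a))]
  · refine Finset.sum_congr rfl fun a ha => ?_
    rw [Finset.mem_filter, Finset.mem_range] at ha
    unfold sqc
    congr 1
    ext n
    simp only [Finset.mem_filter, mem_sqf, Finset.mem_Ioc]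
    constructor
    · rintro ⟨⟨⟨⟨h1, h2⟩, h3⟩, h4, h5⟩, h6⟩
      refine ⟨⟨by omega, h2⟩, ?_, h3⟩
      unfold Nat.ModEq
      rw [h6, Nat.mod_eq_of_lt ha.1]
    · rintro ⟨⟨h1, h2⟩, h3, h4⟩
      unfold Nat.ModEq at h3
      rw [Nat.mod_eq_of_lt ha.1] at h3
      refine ⟨⟨⟨⟨by omega, h2⟩, h4⟩, ?_, ?_⟩, h3⟩
      · have h7 : n ≡ a [MOD 60] := by
          unfold Nat.ModEq
          rw [h3, Nat.mod_eq_of_lt ha.1]
        unfold Nat.Coprime
        rw [h7.gcd_eq]
        exact ha.2.1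
      · rw [hP, h3]
        exact ha.2.2
  · intro n hn
    simp only [Finset.coe_filter, Set.mem_ofPred_eq, mem_sqf] at hn
    simp only [Finset.coe_filter, Set.mem_ofPred_eq, Finset.mem_range]
    refine ⟨Nat.mod_lt _ (by norm_num), ?_, (hP n).1 hn.2.2⟩
    have h7 : n % 60 ≡ n [MOD 60] := Nat.mod_modEq n 60
    unfold Nat.Coprime
    rw [h7.gcd_eq]
    exact hn.2.1

theorem cop_lim (P : ℕ → Prop) [DecidablePred P] (hP : ∀ n, P n ↔ P (n % 60)) :
    As (cop P) (ncl P * beta 60) := by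
  have h1 : cop P = fun X => ∑ a ∈ (range 60).filter (fun a => Nat.Coprime a 60 ∧ P a),
      sqc 60 a X := by
    funext X
    exact cop_eq P hP X
  rw [h1]
  have h2 : (ncl P * beta 60 : ℝ)
      = ∑ _a ∈ (range 60).filter (fun a => Nat.Coprime a 60 ∧ P a), beta 60 := by
    rw [Finset.sum_const, nsmul_eq_mul]
    rfl
  rw [h2]
  apply As.sum
  intro a ha
  rw [Finset.mem_filter] at ha
  exact sqc_lim 60 a (by norm_num) ha.2.1

/-- odd squarefree numbers with a condition -/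
def odc (P : ℕ → Prop) [DecidablePred P] (X : ℕ) : ℕ :=
  ((sqf X).filter (fun n => Odd n ∧ P n)).card

theorem fib (P : ℕ → Prop) [DecidablePred P] (X g : ℕ) (hg : g ∣ 15) :
    (((sqf X).filter (fun n => Odd n ∧ P n)).filter (fun n => Nat.gcd n 15 = g)).card
      = cop (fun m => P (g * m)) (X / g) := by
  have hg0 : 0 < g := Nat.pos_of_dvd_of_pos hg (by norm_num)
  have hg15 : g ∈ Nat.divisors 15 := Nat.mem_divisors.2 ⟨hg, by norm_num⟩
  have hd15 : Nat.divisors 15 = {1, 3, 5, 15} := by decide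
  have hgc : g = 1 ∨ g = 3 ∨ g = 5 ∨ g = 15 := by
    rw [hd15] at hg15
    simpa using hg15
  unfold cop
  refine Finset.card_bij' (fun n _ => n / g) (fun m _ => g * m) ?_ ?_ ?_ ?_
  · intro n hn
    simp only [Finset.mem_filter, mem_sqf] at hn ⊢
    obtain ⟨⟨⟨⟨h1, h2⟩, h3⟩, h4, h5⟩, h6⟩ := hn
    have hgn : g ∣ n := by rw [← h6]; exact Nat.gcd_dvd_left _ _
    obtain ⟨m, rfl⟩ := hgn
    rw [Nat.mul_div_cancel_left m hg0]
    have hm0 : m ≠ 0 := by rintro rfl; simp at h1
    have hmo : Odd m := (Nat.odd_mul.1 h4).2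
    have h7 : ∀ p : ℕ, p.Prime → p ∣ 15 → ¬ p ∣ m := by
      intro p hp hp15 hpm
      have h8 : p ∣ Nat.gcd (g * m) 15 := Nat.dvd_gcd (hpm.mul_left g) hp15
      rw [h6] at h8
      have h9 : p * p ∣ g * m := Nat.mul_dvd_mul h8 hpm
      exact hp.one_lt.ne' (Nat.isUnit_iff.1 (h3 p h9))
    refine ⟨⟨⟨by omega, ?_⟩, h3.of_mul_right⟩, ?_, h5⟩
    · exact (Nat.le_div_iff_mul_le hg0).2 (by rw [mul_comm]; exact h2)
    · have c3 : Nat.Coprime m 3 :=
        ((Nat.Prime.coprime_iff_not_dvd Nat.prime_three).2 (h7 3 Nat.prime_three (by norm_num))).symm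
      have c5 : Nat.Coprime m 5 :=
        ((Nat.Prime.coprime_iff_not_dvd Nat.prime_five).2 (h7 5 Nat.prime_five (by norm_num))).symm
      have c2 : Nat.Coprime m 2 := (Nat.coprime_two_right).2 hmo
      have e : (60 : ℕ) = 2 * 2 * 3 * 5 := by norm_num
      rw [e]
      exact Nat.Coprime.mul_right (Nat.Coprime.mul_right (Nat.Coprime.mul_right c2 c2) c3) c5
  · intro m hm
    simp only [Finset.mem_filter, mem_sqf] at hm ⊢
    obtain ⟨⟨⟨h1, h2⟩, h3⟩, h4, h5⟩ := hm
    have c15 : Nat.Coprime m 15 := h4.coprime_dvd_right (by norm_num)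
    have c2 : Nat.Coprime m 2 := h4.coprime_dvd_right (by norm_num)
    have cg : Nat.Coprime g m := (c15.coprime_dvd_right hg).symm
    refine ⟨⟨⟨⟨Nat.mul_pos hg0 (by omega), ?_⟩, ?_⟩, ?_, h5⟩, ?_⟩
    · have := (Nat.le_div_iff_mul_le hg0).1 h2
      rw [mul_comm]
      exact this
    · rw [Nat.squarefree_mul cg]
      refine ⟨?_, h3⟩
      have h15 : Squarefree 15 := by
        have e : (15 : ℕ) = 3 * 5 := by norm_num
        rw [e, Nat.squarefree_mul (by norm_num)]
        exact ⟨Nat.prime_three.squarefree, Nat.prime_five.squarefree⟩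
      exact h15.squarefree_of_dvd hg
    · rw [Nat.odd_mul]
      refine ⟨?_, Nat.coprime_two_right.1 c2⟩
      rcases hgc with rfl | rfl | rfl | rfl <;> decide
    · rw [mul_comm, Nat.Coprime.gcd_mul_left_cancel g c15]
      exact Nat.gcd_eq_left hg
  · intro n hn
    simp only [Finset.mem_filter, mem_sqf] at hn
    have hgn : g ∣ n := by rw [← hn.2]; exact Nat.gcd_dvd_left _ _
    exact Nat.mul_div_cancel' hgn
  · intro m _
    exact Nat.mul_div_cancel_left m hg0

theorem odc_eq (P : ℕ → Prop) [DecidablePred P] (X : ℕ) :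
    odc P X = ∑ g ∈ ({1, 3, 5, 15} : Finset ℕ), cop (fun m => P (g * m)) (X / g) := by
  unfold odc
  have hd15 : Nat.divisors 15 = {1, 3, 5, 15} := by decide
  rw [Finset.card_eq_sum_card_fiberwise (f := fun n => Nat.gcd n 15)
    (t := ({1, 3, 5, 15} : Finset ℕ))]
  · refine Finset.sum_congr rfl fun g hg => ?_
    rw [← hd15, Nat.mem_divisors] at hg
    exact fib P X g hg.1
  · intro n _
    have : Nat.gcd n 15 ∈ Nat.divisors 15 :=
      Nat.mem_divisors.2 ⟨Nat.gcd_dvd_right _ _, by norm_num⟩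
    rw [hd15] at this
    exact this

lemma cop_zero (P : ℕ → Prop) [DecidablePred P] : cop P 0 = 0 := by
  unfold cop sqf
  simp

/-- **odd squarefree numbers in a union of classes** -/
theorem odc_lim (P : ℕ → Prop) [DecidablePred P] (hP : ∀ n, P n ↔ P (n % 60)) :
    As (odc P) ((ncl (fun m => P (1 * m)) + ncl (fun m => P (3 * m)) / 3
      + ncl (fun m => P (5 * m)) / 5 + ncl (fun m => P (15 * m)) / 15) * beta 60) := by
  have hP' : ∀ g n : ℕ, P (g * n) ↔ P (g * (n % 60)) := by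
    intro g n
    rw [hP (g * n), hP (g * (n % 60)), Nat.mul_mod, Nat.mul_mod g (n % 60), Nat.mod_mod]
  have h1 : odc P = fun X => ∑ g ∈ ({1, 3, 5, 15} : Finset ℕ), cop (fun m => P (g * m)) (X / g) := by
    funext X
    exact odc_eq P X
  rw [h1]
  have h2 : ((ncl (fun m => P (1 * m)) + ncl (fun m => P (3 * m)) / 3
      + ncl (fun m => P (5 * m)) / 5 + ncl (fun m => P (15 * m)) / 15) * beta 60 : ℝ)
      = ∑ g ∈ ({1, 3, 5, 15} : Finset ℕ), ncl (fun m => P (g * m)) * beta 60 / g := by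
    rw [Finset.sum_insert (by decide), Finset.sum_insert (by decide),
      Finset.sum_insert (by decide), Finset.sum_singleton]
    push_cast
    ring
  rw [h2]
  apply As.sum
  intro g hg
  have hg0 : 0 < g := by
    rcases Nat.eq_zero_or_pos g with rfl | h
    · simp at hg
    · exact h
  exact (cop_lim (fun m => P (g * m)) (hP' g)).div g hg0 (cop_zero _)

/-- even squarefree numbers with a condition -/
def evc (P : ℕ → Prop) [DecidablePred P] (X : ℕ) : ℕ :=
  ((sqf X).filter (fun n => ¬ Odd n ∧ P n)).card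

theorem evc_eq (P : ℕ → Prop) [DecidablePred P] (X : ℕ) :
    evc P X = odc (fun m => P (2 * m)) (X / 2) := by
  unfold evc odc
  refine Finset.card_bij' (fun n _ => n / 2) (fun m _ => 2 * m) ?_ ?_ ?_ ?_
  · intro n hn
    simp only [Finset.mem_filter, mem_sqf] at hn ⊢
    obtain ⟨⟨⟨h1, h2⟩, h3⟩, h4, h5⟩ := hn
    rw [Nat.not_odd_iff_even] at h4
    obtain ⟨m, rfl⟩ := h4.two_dvd
    rw [Nat.mul_div_cancel_left m (by norm_num)]
    refine ⟨⟨⟨by omega, by omega⟩, h3.of_mul_right⟩, ?_, h5⟩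
    rw [← Nat.not_even_iff_odd]
    intro he
    obtain ⟨k, rfl⟩ := he.two_dvd
    have := h3 2 ⟨k, by ring⟩
    exact absurd (Nat.isUnit_iff.1 this) (by norm_num)
  · intro m hm
    simp only [Finset.mem_filter, mem_sqf] at hm ⊢
    obtain ⟨⟨⟨h1, h2⟩, h3⟩, h4, h5⟩ := hm
    refine ⟨⟨⟨by omega, by omega⟩, ?_⟩, ?_, h5⟩
    · rw [Nat.squarefree_mul (Nat.coprime_two_left.2 h4)]
      exact ⟨Nat.prime_two.squarefree, h3⟩
    · rw [Nat.not_odd_iff_even]
      exact even_two_mul m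
  · intro n hn
    simp only [Finset.mem_filter, mem_sqf] at hn
    have := (Nat.not_odd_iff_even.1 hn.2.1).two_dvd
    exact Nat.mul_div_cancel' this
  · intro m _
    exact Nat.mul_div_cancel_left m (by norm_num)

lemma odc_zero (P : ℕ → Prop) [DecidablePred P] : odc P 0 = 0 := by
  unfold odc sqf
  simp

theorem evc_lim (P : ℕ → Prop) [DecidablePred P] (hP : ∀ n, P n ↔ P (n % 60)) :
    As (evc P) ((ncl (fun m => P (2 * (1 * m))) + ncl (fun m => P (2 * (3 * m))) / 3
      + ncl (fun m => P (2 * (5 * m))) / 5 + ncl (fun m => P (2 * (15 * m))) / 15) * beta 60 / 2) := by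
  have hP' : ∀ n : ℕ, P (2 * n) ↔ P (2 * (n % 60)) := by
    intro n
    rw [hP (2 * n), hP (2 * (n % 60)), Nat.mul_mod, Nat.mul_mod 2 (n % 60), Nat.mod_mod]
  have h1 : evc P = fun X => odc (fun m => P (2 * m)) (X / 2) := by
    funext X
    exact evc_eq P X
  rw [h1]
  exact (odc_lim (fun m => P (2 * m)) hP').div 2 (by norm_num) (odc_zero _)

end Vale.Agent.P017.H626
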