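import Vale.Agent.P017.H185.Fam

/-!
Discriminants of imaginary quadratic fields and existence of these fields.
-/

namespace Vale.Agent.P017.H626

open NumberField NumberField.InfinitePlace Module
open Vale.Agent.P017.H185

section disc

variable {K : Type*} [Field K] [NumberField K] {n : ℕ} (q : QF K n)

include q in
theorem QFtc : IsTotallyComplex K := by
  refine ⟨fun w => ?_⟩
  rw [← not_isReal_iff_isComplex, isReal_iff]
  intro h
  have h1 : (starRingEnd ℂ) (w.embedding q.θ) = w.embedding q.θ :=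
    RingHom.congr_fun h q.θ
  have h2 : (w.embedding q.θ) ^ 2 = -(n : ℂ) := by
    rw [← map_pow, q.hθ, map_neg, map_natCast]
  rw [Complex.conj_eq_iff_real] at h1
  obtain ⟨r, hr⟩ := h1
  rw [hr] at h2
  have h3 : r ^ 2 = -(n : ℝ) := by exact_mod_cast h2
  have h4 : (0 : ℝ) < n := by exact_mod_cast q.d_pos
  nlinarith [sq_nonneg r]

/-- the discriminant from a basis `1, w` with `w² = s w - m` -/
theorem discr_of_basis {w : 𝓞 K} {s m : ℤ} (hw2 : w * w = (s : 𝓞 K) * w - (m : 𝓞 K))
    (hli : LinearIndependent ℤ ![(1 : 𝓞 K), w])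
    (hsp : ⊤ ≤ Submodule.span ℤ (Set.range ![(1 : 𝓞 K), w])) : discr K = s ^ 2 - 4 * m := by
  let B : Module.Basis (Fin 2) ℤ (𝓞 K) := Module.Basis.mk hli hsp
  have hB0 : B 0 = 1 := by simp [B]
  have hB1 : B 1 = w := by simp [B]
  have hr : ∀ (u v : ℤ) (i : Fin 2), B.repr ((u : 𝓞 K) + v * w) i = if i = 0 then u else v := by
    intro u v i
    have : (u : 𝓞 K) + v * w = u • B 0 + v • B 1 := by
      rw [hB0, hB1, zsmul_eq_mul, zsmul_eq_mul, mul_one]
    rw [this, map_add, map_zsmul, map_zsmul, B.repr_self, B.repr_self]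
    fin_cases i <;> simp
  have htr : ∀ u v : ℤ, Algebra.trace ℤ (𝓞 K) ((u : 𝓞 K) + v * w) = 2 * u + v * s := by
    intro u v
    rw [Algebra.trace_eq_matrix_trace B, Matrix.trace_fin_two, Algebra.leftMulMatrix_eq_repr_mul,
      Algebra.leftMulMatrix_eq_repr_mul, hB0, hB1, mul_one, hr]
    have : ((u : 𝓞 K) + v * w) * w = ((-(v * m) : ℤ) : 𝓞 K) + ((u + v * s : ℤ) : 𝓞 K) * w := by
      push_cast
      linear_combination (v : 𝓞 K) * hw2
    rw [this, hr]
    simp
    ring
  have h00 : Algebra.trace ℤ (𝓞 K) (1 * 1) = 2 := by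
    have := htr 1 0
    simpa using this
  have h01 : Algebra.trace ℤ (𝓞 K) (1 * w) = s := by
    have := htr 0 1
    simpa using this
  have h11 : Algebra.trace ℤ (𝓞 K) (w * w) = s * s - 2 * m := by
    have := htr (-m) s
    rw [hw2]
    have e : (s : 𝓞 K) * w - (m : 𝓞 K) = ((-(m : ℤ) : ℤ) : 𝓞 K) + ((s : ℤ) : 𝓞 K) * w := by
      push_cast; ring
    rw [e, this]
    ring
  rw [← discr_eq_discr K B, Algebra.discr_def, Matrix.det_fin_two]
  simp only [Algebra.traceMatrix_apply, Algebra.traceForm_apply, hB0, hB1]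
  rw [mul_comm w 1, h00, h01, h11]
  ring

theorem li_of (w : 𝓞 K) (r : ℚ) (s : ℚ) (hs : s ≠ 0)
    (hw : algebraMap (𝓞 K) K w = (r : K) + (s : K) * q.θ) :
    LinearIndependent ℤ ![(1 : 𝓞 K), w] := by
  rw [LinearIndependent.pair_iff]
  intro u v huv
  have h1 := congrArg (algebraMap (𝓞 K) K) huv
  rw [map_add, map_zero, zsmul_eq_mul, zsmul_eq_mul, map_mul, map_mul, map_intCast, map_intCast,
    map_one, hw] at h1
  have h2 : (((u : ℚ) + v * r : ℚ) : K) + ((v * s : ℚ) : K) * q.θ = 0 := by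
    push_cast
    linear_combination h1
  obtain ⟨h3, h4⟩ := q.uniq h2
  have h5 : (v : ℚ) = 0 := by
    rcases mul_eq_zero.1 h4 with h | h
    · exact h
    · exact absurd h hs
  have h6 : (u : ℚ) = 0 := by rw [h5] at h3; simpa using h3
  exact ⟨by exact_mod_cast h6, by exact_mod_cast h5⟩

include q in
theorem discr_three (hn : n % 4 = 3) : discr K = -(n : ℤ) := by
  obtain ⟨w, hw⟩ : ∃ w : 𝓞 K, 2 * algebraMap (𝓞 K) K w = 1 + q.θ := by
    have h : (4 : ℤ) ∣ (1 : ℤ) ^ 2 + n * (1 : ℤ) ^ 2 := by omega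
    obtain ⟨z, hz, h2⟩ := q.of_coords h
    obtain ⟨y, hy⟩ := QF.exists_of_isInt hz
    exact ⟨y, by rw [hy, h2]; simp⟩
  obtain ⟨m, hm⟩ : ∃ m : ℤ, (n : ℤ) + 1 = 4 * m := ⟨(n + 1) / 4, by omega⟩
  have hw2 : w * w = ((1 : ℤ) : 𝓞 K) * w - (m : 𝓞 K) := by
    apply QF.ext'
    rw [map_mul, map_sub, map_mul, map_intCast, map_intCast]
    have h1 : (n : K) + 1 = 4 * m := by exact_mod_cast hm
    have h2 := q.hθ
    have h3 : algebraMap (𝓞 K) K w = (1 + q.θ) / 2 := by linear_combination (1 / 2 : K) * hw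
    rw [h3]
    push_cast
    linear_combination (1 / 4 : K) * h2 - (1 / 4 : K) * h1
  have hli := li_of q w (1 / 2) (1 / 2) (by norm_num) (by
    push_cast
    linear_combination (1 / 2 : K) * hw)
  have hsp : ⊤ ≤ Submodule.span ℤ (Set.range ![(1 : 𝓞 K), w]) := by
    intro z _
    obtain ⟨a, b, hab, h4⟩ := q.int_coords (QF.isInt z)
    have hpar : ∃ c : ℤ, a - b = 2 * c := by
      obtain ⟨k, hk⟩ := h4
      have hnn : ∃ j : ℤ, (n : ℤ) = 4 * j + 3 := ⟨n / 4, by omega⟩
      obtain ⟨j, hj⟩ := hnn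
      rw [hj] at hk
      have h5 : (a - b) * (a + b) = 4 * (k - j * b ^ 2 - b ^ 2) := by linear_combination hk
      rcases Int.even_or_odd (a - b) with h | h
      · obtain ⟨c, hc⟩ := h
        exact ⟨c, by rw [hc]; ring⟩
      · exfalso
        have h6 : Odd (a + b) := by
          have : a + b = (a - b) + 2 * b := by ring
          rw [this]
          exact h.add_even (even_two_mul b)
        have h7 := h.mul h6
        rw [h5] at h7
        rcases h7 with ⟨c, hc⟩
        omega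
    obtain ⟨c, hc⟩ := hpar
    rw [Matrix.range_cons, Matrix.range_cons, Matrix.range_empty, Set.union_empty,
      Set.singleton_union, Submodule.mem_span_pair]
    refine ⟨c, b, ?_⟩
    apply QF.ext'
    rw [map_add, zsmul_eq_mul, zsmul_eq_mul, map_mul, map_mul, map_intCast, map_intCast, map_one]
    have h6 : ((a - b : ℤ) : K) = ((2 * c : ℤ) : K) := by rw [hc]
    push_cast at h6
    linear_combination (1 / 2 : K) * (b * hw - hab - h6)
  rw [discr_of_basis hw2 hli hsp]
  linarith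

include q in
theorem discr_other (hn : n % 4 ≠ 3) : discr K = -(4 * n : ℤ) := by
  have hn0 : n % 4 ≠ 0 := by
    intro h
    have h1 : 2 * 2 ∣ n := by omega
    have := q.hd 2 h1
    exact absurd (Nat.isUnit_iff.1 this) (by norm_num)
  have hw : algebraMap (𝓞 K) K q.t = q.θ := rfl
  have hw2 : q.t * q.t = ((0 : ℤ) : 𝓞 K) * q.t - ((n : ℤ) : 𝓞 K) := by
    have := q.t_sq
    push_cast
    linear_combination this
  have hli := li_of q q.t 0 1 (by norm_num) (by
    push_cast
    rw [hw]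
    ring)
  have hsp : ⊤ ≤ Submodule.span ℤ (Set.range ![(1 : 𝓞 K), q.t]) := by
    intro z _
    obtain ⟨a, b, hab, h4⟩ := q.int_coords (QF.isInt z)
    have hpar : (∃ c : ℤ, a = 2 * c) ∧ ∃ e : ℤ, b = 2 * e := by
      obtain ⟨k, hk⟩ := h4
      have hcases : (∃ j : ℤ, (n : ℤ) = 4 * j + 1) ∨ (∃ j : ℤ, (n : ℤ) = 4 * j + 2) := by
        have : n % 4 < 4 := Nat.mod_lt _ (by norm_num)
        have h5 : n % 4 = 1 ∨ n % 4 = 2 := by omega
        rcases h5 with h5 | h5
        · left; exact ⟨n / 4, by omega⟩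
        · right; exact ⟨n / 4, by omega⟩
      rcases Int.even_or_odd' a with ⟨c, hc | hc⟩ <;> rcases Int.even_or_odd' b with ⟨e, he | he⟩
      · exact ⟨⟨c, hc⟩, ⟨e, he⟩⟩
      · exfalso
        rcases hcases with ⟨j, hj⟩ | ⟨j, hj⟩
        · rw [hj, hc, he] at hk
          have : 4 * (c ^ 2 + j * (2 * e + 1) ^ 2 + e ^ 2 + e - k) = -1 := by linear_combination hk
          omega
        · rw [hj, hc, he] at hk
          have : 4 * (c ^ 2 + j * (2 * e + 1) ^ 2 + 2 * e ^ 2 + 2 * e - k) = -2 := by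
            linear_combination hk
          omega
      · exfalso
        rcases hcases with ⟨j, hj⟩ | ⟨j, hj⟩
        · rw [hj, hc, he] at hk
          have : 4 * (c ^ 2 + c + (4 * j + 1) * e ^ 2 - k) = -1 := by linear_combination hk
          omega
        · rw [hj, hc, he] at hk
          have : 4 * (c ^ 2 + c + (4 * j + 2) * e ^ 2 - k) = -1 := by linear_combination hk
          omega
      · exfalso
        rcases hcases with ⟨j, hj⟩ | ⟨j, hj⟩
        · rw [hj, hc, he] at hk
          have : 4 * (c ^ 2 + c + j * (2 * e + 1) ^ 2 + e ^ 2 + e - k) = -2 := by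
            linear_combination hk
          omega
        · rw [hj, hc, he] at hk
          have : 4 * (c ^ 2 + c + j * (2 * e + 1) ^ 2 + 2 * e ^ 2 + 2 * e - k) = -3 := by
            linear_combination hk
          omega
    obtain ⟨⟨c, hc⟩, e, he⟩ := hpar
    rw [Matrix.range_cons, Matrix.range_cons, Matrix.range_empty, Set.union_empty,
      Set.singleton_union, Submodule.mem_span_pair]
    refine ⟨c, e, ?_⟩
    apply QF.ext'
    rw [map_add, zsmul_eq_mul, zsmul_eq_mul, map_mul, map_mul, map_intCast, map_intCast, map_one,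
      hw]
    have h6 : ((a : ℤ) : K) = ((2 * c : ℤ) : K) := by rw [hc]
    have h7 : ((b : ℤ) : K) = ((2 * e : ℤ) : K) := by rw [he]
    push_cast at h6 h7
    linear_combination (1 / 2 : K) * (-hab - h6 - q.θ * h7)
  rw [discr_of_basis hw2 hli hsp]
  ring

end disc

/-- existence of the field `ℚ(√-d)` -/
theorem exists_field {d : ℕ} (hd : Squarefree d) :
    ∃ (K : Type) (_ : Field K) (_ : NumberField K),
      Algebra.IsQuadraticExtension ℚ K ∧ ∃ θ : K, θ ^ 2 = -(d : K) := by
  have hd0 : (0 : ℚ) < d := by exact_mod_cast Nat.pos_of_ne_zero hd.ne_zero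
  have : Fact (∀ r : ℚ, r ^ 2 ≠ -(d : ℚ) + 0 * r) :=
    ⟨fun r h => by nlinarith [sq_nonneg r]⟩
  have hsub : (DivisionRing.toRatAlgebra : Algebra ℚ (QuadraticAlgebra ℚ (-(d : ℚ)) 0))
      = inferInstanceAs (Algebra ℚ (QuadraticAlgebra ℚ (-(d : ℚ)) 0)) := Subsingleton.elim _ _
  have hfr : @Module.finrank ℚ (QuadraticAlgebra ℚ (-(d : ℚ)) 0) _ _
      (DivisionRing.toRatAlgebra.toModule) = 2 := by
    rw [hsub]
    exact QuadraticAlgebra.finrank_eq_two _ _
  have hfd : @Module.Finite ℚ (QuadraticAlgebra ℚ (-(d : ℚ)) 0) _ _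
      (DivisionRing.toRatAlgebra.toModule) := by
    apply Module.finite_of_finrank_pos
    rw [hfr]
    norm_num
  have hnf : NumberField (QuadraticAlgebra ℚ (-(d : ℚ)) 0) :=
    { to_charZero := inferInstance
      to_finiteDimensional := hfd }
  refine ⟨QuadraticAlgebra ℚ (-(d : ℚ)) 0, inferInstance, hnf, ?_, ?_⟩
  · refine { finrank_eq_two' := hfr, .. }
  · refine ⟨⟨0, 1⟩, ?_⟩
    ext <;> simp [pow_two]

end Vale.Agent.P017.H626
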