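import Vale.Agent.P017.H626.D4
import Vale.Agent.P017.H626.E2
import Vale.Agent.P017.H626.E3
import Vale.Agent.P017.H626.Defs

/-!
Imaginary quadratic fields of odd discriminant.
-/

namespace Vale.Agent.P017.H626

open NumberField Finset Filter Topology
open Vale.Agent.P017.H185 Vale.Agent.P014.H687.FM

universe u

/-- The curve `X₀(15)` has finitely many points over every imaginary quadratic field of
discriminant `-D`. -/
def FinPts (D : ℕ) : Prop := ∀ (K : Type u) [Field K] [NumberField K]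
  [Algebra.IsQuadraticExtension ℚ K] [IsTotallyComplex K],
  discr K = -(D : ℤ) → Finite (X015.baseChange K).toAffine.Point

theorem isDisc_iff (D : ℕ) : IsDisc D ↔
    (Squarefree D ∧ D % 4 = 3) ∨ ∃ d, Squarefree d ∧ d % 4 ≠ 3 ∧ D = 4 * d := by
  constructor
  · rintro ⟨K, _, _, h1, h2, h3⟩
    obtain ⟨d, ⟨q⟩⟩ := exists_QF K
    by_cases hd : d % 4 = 3
    · left
      rw [discr_three q hd] at h3
      have : d = D := by omega
      rw [← this]
      exact ⟨q.hd, hd⟩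
    · right
      rw [discr_other q hd] at h3
      exact ⟨d, q.hd, hd, by omega⟩
  · rintro (⟨h1, h2⟩ | ⟨d, h1, h2, rfl⟩)
    · obtain ⟨K, hf, hnf, h3, θ, hθ⟩ := exists_field h1
      obtain ⟨q⟩ := exists_QF_of_sqrt h1 hθ
      exact ⟨K, hf, hnf, h3, QFtc q, discr_three q h2⟩
    · obtain ⟨K, hf, hnf, h3, θ, hθ⟩ := exists_field h1
      obtain ⟨q⟩ := exists_QF_of_sqrt h1 hθ
      refine ⟨K, hf, hnf, h3, QFtc q, ?_⟩
      have h4 : discr K = -(4 * (d : ℤ)) := discr_other q h2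
      rw [h4]
      push_cast
      ring

lemma jac3 (n : ℕ) : jacobiSym (n : ℤ) 3 ≠ 1 ↔ n % 3 ≠ 1 := by
  rw [jacobiSym.mod_left]
  have h : ((n : ℤ) % ((3 : ℕ) : ℤ)) = ((n % 3 : ℕ) : ℤ) := by push_cast; rfl
  rw [h]
  have : n % 3 < 3 := Nat.mod_lt _ (by norm_num)
  interval_cases n % 3 <;> norm_num

lemma jac5 (n : ℕ) : jacobiSym (n : ℤ) 5 ≠ 1 ↔ n % 5 ≠ 1 ∧ n % 5 ≠ 4 := by
  rw [jacobiSym.mod_left]
  have h : ((n : ℤ) % ((5 : ℕ) : ℤ)) = ((n % 5 : ℕ) : ℤ) := by push_cast; rfl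
  rw [h]
  have : n % 5 < 5 := Nat.mod_lt _ (by norm_num)
  interval_cases n % 5 <;> norm_num

lemma F1_iff (n : ℕ) : F1 n ↔ n % 4 = 3 ∧ n % 3 ≠ 1 ∧ n % 5 ≠ 1 ∧ n % 5 ≠ 4 := by
  unfold F1
  rw [jac3, jac5]

theorem fin_F1 {n : ℕ} (hn : Squarefree n) (h : F1 n) (hN : Nr n = 2) : FinPts.{u} n := by
  intro K _ _ _ _ hK
  rw [F1_iff] at h
  obtain ⟨d, ⟨q⟩⟩ := exists_QF K
  have hdn : d = n := by
    by_cases hd : d % 4 = 3
    · rw [discr_three q hd] at hK
      omega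
    · rw [discr_other q hd] at hK
      omega
  subst hdn
  apply q.finite_of_cond (q.no_order_four h.1 (redei_of_Nr hn hN))
  · intro _ h1
    have h1 : ((d : ℕ) : ZMod 3) = ((1 : ℕ) : ZMod 3) := by rw [h1]; simp
    have h2 := (ZMod.natCast_eq_natCast_iff _ _ _).mp h1
    have h3 : d % 3 = 1 % 3 := h2
    omega
  · intro h5 h1
    have h2 : d % 5 = 2 ∨ d % 5 = 3 := by omega
    rcases h2 with h2 | h2
    · have h3 : ((d : ℕ) : ZMod 5) = ((2 : ℕ) : ZMod 5) := by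
        rw [ZMod.natCast_eq_natCast_iff]
        exact h2
      rw [h3] at h1
      revert h1
      decide
    · have h3 : ((d : ℕ) : ZMod 5) = ((3 : ℕ) : ZMod 5) := by
        rw [ZMod.natCast_eq_natCast_iff]
        exact h2
      rw [h3] at h1
      revert h1
      decide

/-- the number of discriminants -/
theorem card_disc (X : ℕ) : {D : ℕ | D ≤ X ∧ IsDisc D}.ncard
    = odc (fun n => n % 4 = 3) X + (odc (fun n => n % 4 = 1) (X / 4)
      + evc (fun _ => True) (X / 4)) := by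
  have h1 : {D : ℕ | D ≤ X ∧ IsDisc D} =
      ↑(((sqf X).filter (fun n => Odd n ∧ n % 4 = 3)) ∪
        ((((sqf (X / 4)).filter (fun n => Odd n ∧ n % 4 = 1)).image (fun d => 4 * d)) ∪
          (((sqf (X / 4)).filter (fun n => ¬ Odd n ∧ True)).image (fun d => 4 * d)))) := by
    ext D
    rw [Set.mem_ofPred_eq, isDisc_iff]
    simp only [Finset.coe_union, Set.mem_union, Finset.mem_coe, Finset.mem_filter, mem_sqf,
      Finset.mem_image]
    constructor
    · rintro ⟨h1, ⟨h2, h3⟩ | ⟨d, h2, h3, rfl⟩⟩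
      · left
        exact ⟨⟨⟨by omega, h1⟩, h2⟩, Nat.odd_iff.2 (by omega), h3⟩
      · right
        have hd0 : d % 4 ≠ 0 := by
          intro h
          have := h2 2 (by omega)
          exact absurd (Nat.isUnit_iff.1 this) (by norm_num)
        by_cases ho : Odd d
        · left
          refine ⟨d, ⟨⟨⟨by omega, by omega⟩, h2⟩, ho, ?_⟩, rfl⟩
          rw [Nat.odd_iff] at ho
          omega
        · right
          exact ⟨d, ⟨⟨⟨by omega, by omega⟩, h2⟩, ho, trivial⟩, rfl⟩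
    · rintro (⟨⟨⟨h1, h2⟩, h3⟩, h4, h5⟩ | (⟨d, ⟨⟨⟨h1, h2⟩, h3⟩, h4, h5⟩, rfl⟩ |
        ⟨d, ⟨⟨⟨h1, h2⟩, h3⟩, h4, -⟩, rfl⟩))
      · exact ⟨h2, Or.inl ⟨h3, h5⟩⟩
      · exact ⟨by omega, Or.inr ⟨d, h3, by omega, rfl⟩⟩
      · refine ⟨by omega, Or.inr ⟨d, h3, ?_, rfl⟩⟩
        rw [Nat.not_odd_iff] at h4
        omega
  rw [h1, Set.ncard_coe_finset, Finset.card_union_of_disjoint, Finset.card_union_of_disjoint]
  · rw [Finset.card_image_of_injective _ (fun a b h => by simpa using h),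
      Finset.card_image_of_injective _ (fun a b h => by simpa using h)]
    rfl
  · rw [Finset.disjoint_left]
    intro D hD hD'
    simp only [Finset.mem_filter, Finset.mem_image] at hD hD'
    obtain ⟨d, h2, rfl⟩ := hD
    obtain ⟨e, h3, h4⟩ := hD'
    have : d = e := by omega
    subst this
    exact h3.2.1 h2.2.1
  · rw [Finset.disjoint_left]
    intro D hD hD'
    simp only [Finset.mem_union, Finset.mem_filter, Finset.mem_image] at hD hD'
    rcases hD' with ⟨d, -, rfl⟩ | ⟨d, -, rfl⟩ <;> omega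

theorem lim_disc : As (fun X => {D : ℕ | D ≤ X ∧ IsDisc D}.ncard) (96 / 5 * beta 60) := by
  have h1 : (fun X => {D : ℕ | D ≤ X ∧ IsDisc D}.ncard) = fun X =>
      odc (fun n => n % 4 = 3) X + (odc (fun n => n % 4 = 1) (X / 4)
      + evc (fun _ => True) (X / 4)) := by
    funext X
    exact card_disc X
  rw [h1]
  have a1 := odc_lim (fun n => n % 4 = 3) (by intro n; omega)
  have a2 := odc_lim (fun n => n % 4 = 1) (by intro n; omega)
  have a3 := evc_lim (fun _ => True) (by intro n; trivial)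
  have e1 : ncl (fun m => 1 * m % 4 = 3) = 8 := by decide
  have e2 : ncl (fun m => 3 * m % 4 = 3) = 8 := by decide
  have e3 : ncl (fun m => 5 * m % 4 = 3) = 8 := by decide
  have e4 : ncl (fun m => 15 * m % 4 = 3) = 8 := by decide
  have f1 : ncl (fun m => 1 * m % 4 = 1) = 8 := by decide
  have f2 : ncl (fun m => 3 * m % 4 = 1) = 8 := by decide
  have f3 : ncl (fun m => 5 * m % 4 = 1) = 8 := by decide
  have f4 : ncl (fun m => 15 * m % 4 = 1) = 8 := by decide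
  have g1 : ncl (fun _ => True) = 16 := by decide
  rw [e1, e2, e3, e4] at a1
  rw [f1, f2, f3, f4] at a2
  rw [g1] at a3
  have h2 := a1.add ((a2.div 4 (by norm_num) (odc_zero _)).add (a3.div 4 (by norm_num) (by
    unfold evc sqf
    simp)))
  convert h2 using 1
  push_cast
  ring

theorem lim_F1 : As (fun X => ((sqf X).filter F1).card) (14 / 3 * beta 60) := by
  have h1 : (fun X => ((sqf X).filter F1).card)
      = odc (fun n => n % 4 = 3 ∧ n % 3 ≠ 1 ∧ n % 5 ≠ 1 ∧ n % 5 ≠ 4) := by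
    funext X
    unfold odc
    congr 1
    apply Finset.filter_congr
    intro n _
    rw [F1_iff]
    constructor
    · intro h
      exact ⟨Nat.odd_iff.2 (by omega), h⟩
    · intro h
      exact h.2
  rw [h1]
  have a1 := odc_lim (fun n => n % 4 = 3 ∧ n % 3 ≠ 1 ∧ n % 5 ≠ 1 ∧ n % 5 ≠ 4) (by intro n; omega)
  have e1 : ncl (fun m => 1 * m % 4 = 3 ∧ 1 * m % 3 ≠ 1 ∧ 1 * m % 5 ≠ 1 ∧ 1 * m % 5 ≠ 4) = 2 := by
    decide
  have e2 : ncl (fun m => 3 * m % 4 = 3 ∧ 3 * m % 3 ≠ 1 ∧ 3 * m % 5 ≠ 1 ∧ 3 * m % 5 ≠ 4) = 4 := by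
    decide
  have e3 : ncl (fun m => 5 * m % 4 = 3 ∧ 5 * m % 3 ≠ 1 ∧ 5 * m % 5 ≠ 1 ∧ 5 * m % 5 ≠ 4) = 4 := by
    decide
  have e4 : ncl (fun m => 15 * m % 4 = 3 ∧ 15 * m % 3 ≠ 1 ∧ 15 * m % 5 ≠ 1 ∧ 15 * m % 5 ≠ 4)
      = 8 := by
    decide
  rw [e1, e2, e3, e4] at a1
  convert a1 using 1
  push_cast
  ring

/-- comparison of densities -/
theorem ratio {T S G : ℕ → ℕ} {t s c r b : ℝ} (hb : 0 < b) (hT : As T (t * b)) (hS : As S (s * b))
    (hG : ∀ ε : ℝ, 0 < ε → ∃ X₀ : ℕ, ∀ X : ℕ, X₀ ≤ X → r * S X - ε * X ≤ G X)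
    (h : c * t < r * s) : ∃ X₀ : ℕ, ∀ X : ℕ, X₀ ≤ X → c * T X ≤ G X := by
  set ε : ℝ := (r * s - c * t) * b / 2 with hε
  have hε0 : 0 < ε := by
    rw [hε]
    have : 0 < (r * s - c * t) * b := mul_pos (by linarith) hb
    linarith
  have h1 : Tendsto (fun X : ℕ => r * ((S X : ℝ) / X) - c * ((T X : ℝ) / X)) atTop
      (𝓝 (r * (s * b) - c * (t * b))) := (hS.const_mul r).sub (hT.const_mul c)
  have h2 : ε < r * (s * b) - c * (t * b) := by
    have : r * (s * b) - c * (t * b) = 2 * ε := by rw [hε]; ring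
    rw [this]
    linarith
  have h3 := h1.eventually (lt_mem_nhds h2)
  rw [eventually_atTop] at h3
  obtain ⟨X₁, h3⟩ := h3
  obtain ⟨X₂, h4⟩ := hG ε hε0
  refine ⟨max X₁ X₂ + 1, fun X hX => ?_⟩
  have h5 := h3 X (by omega)
  have h6 := h4 X (by omega)
  have hX0 : (0 : ℝ) < X := by
    have : 0 < X := by omega
    exact_mod_cast this
  have h7 : r * ((S X : ℝ) / X) - c * ((T X : ℝ) / X) = (r * S X - c * T X) / X := by ring
  rw [h7, lt_div_iff₀ hX0] at h5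
  linarith

/-- **A positive proportion of imaginary quadratic fields.** -/
theorem odd_seven : ∃ X₀ : ℕ, ∀ X : ℕ, X₀ ≤ X →
    (7 / 100 : ℝ) * {D : ℕ | D ≤ X ∧ IsDisc D}.ncard
      ≤ {D : ℕ | D ≤ X ∧ IsDisc D ∧ D % 4 = 3 ∧ FinPts.{u} D}.ncard := by
  obtain ⟨X₀, h⟩ := ratio (T := fun X => {D : ℕ | D ≤ X ∧ IsDisc D}.ncard)
    (S := fun X => ((sqf X).filter F1).card)
    (G := fun X => (((sqf X).filter F1).filter (fun n => Nr n = 2)).card)
    (beta_pos (by norm_num : 0 < 60)) lim_disc lim_F1 low_F1 (c := 7 / 100) (by norm_num)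
  refine ⟨X₀, fun X hX => (h X hX).trans ?_⟩
  have h1 : ((((sqf X).filter F1).filter (fun n => Nr n = 2) : Finset ℕ) : Set ℕ) ⊆
      {D : ℕ | D ≤ X ∧ IsDisc D ∧ D % 4 = 3 ∧ FinPts.{u} D} := by
    intro n hn
    rw [Finset.mem_coe, Finset.mem_filter, Finset.mem_filter, mem_sqf] at hn
    obtain ⟨⟨⟨⟨h1, h2⟩, h3⟩, h4⟩, h5⟩ := hn
    exact ⟨h2, (isDisc_iff n).2 (Or.inl ⟨h3, h4.1⟩), h4.1, fin_F1 h3 h4 h5⟩
  have h2 := Set.ncard_le_ncard h1 ((Set.finite_Iic X).subset fun D hD => hD.1)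
  rw [Set.ncard_coe_finset] at h2
  exact_mod_cast h2

end Vale.Agent.P017.H626
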