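import Vale.Agent.P017.H626.J7

/-!
All discriminants: fifteen per cent.
-/

namespace Vale.Agent.P017.H626

open NumberField Finset Function Filter Topology Vale.Agent.P014.H580 Vale.Agent.P014.FM
open Vale.Agent.P014.H687.FM
open Vale.Agent.P017.H185 (QF X015)

universe u

/-! ### densities -/

/-- first class -/
def CA (k r n : ℕ) : Prop := n % 4 = r ∧ (k * n) % 3 ≠ 1 ∧ (k * n) % 5 ≠ 1 ∧ (k * n) % 5 ≠ 4

/-- second class -/
def CB (k r n : ℕ) : Prop := n % 4 = r ∧ (k * n) % 3 = 1 ∧ ((k * n) % 5 = 1 ∨ (k * n) % 5 = 4)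

instance (k r : ℕ) : DecidablePred (CA k r) := fun n =>
  inferInstanceAs (Decidable (n % 4 = r ∧ (k * n) % 3 ≠ 1 ∧ (k * n) % 5 ≠ 1 ∧ (k * n) % 5 ≠ 4))

instance (k r : ℕ) : DecidablePred (CB k r) := fun n =>
  inferInstanceAs (Decidable (n % 4 = r ∧ (k * n) % 3 = 1 ∧ ((k * n) % 5 = 1 ∨ (k * n) % 5 = 4)))

lemma mul_per (k n c : ℕ) (hc : c ∣ 60) : (k * n) % c = (k * (n % 60)) % c := by
  rw [Nat.mul_mod, Nat.mul_mod k (n % 60), Nat.mod_mod_of_dvd _ hc]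

lemma CA_per (k r n : ℕ) : CA k r n ↔ CA k r (n % 60) := by
  unfold CA
  rw [mul_per k n 3 (by norm_num), mul_per k n 5 (by norm_num),
    Nat.mod_mod_of_dvd n (by norm_num : 4 ∣ 60)]

lemma CB_per (k r n : ℕ) : CB k r n ↔ CB k r (n % 60) := by
  unfold CB
  rw [mul_per k n 3 (by norm_num), mul_per k n 5 (by norm_num),
    Nat.mod_mod_of_dvd n (by norm_num : 4 ∣ 60)]

lemma nCA_1_1_1 : ncl (fun m => CA 1 1 (1 * m)) = 2 := by decide

lemma nCA_1_1_3 : ncl (fun m => CA 1 1 (3 * m)) = 4 := by decide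

lemma nCA_1_1_5 : ncl (fun m => CA 1 1 (5 * m)) = 4 := by decide

lemma nCA_1_1_15 : ncl (fun m => CA 1 1 (15 * m)) = 8 := by decide

lemma lim_CA_1_1 : As (odc (CA 1 1)) (14 / 3 * beta 60) := by
  have a1 := odc_lim (CA 1 1) (CA_per 1 1)
  rw [nCA_1_1_1, nCA_1_1_3, nCA_1_1_5, nCA_1_1_15] at a1
  convert a1 using 1
  push_cast
  ring

lemma nCA_1_3_1 : ncl (fun m => CA 1 3 (1 * m)) = 2 := by decide

lemma nCA_1_3_3 : ncl (fun m => CA 1 3 (3 * m)) = 4 := by decide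

lemma nCA_1_3_5 : ncl (fun m => CA 1 3 (5 * m)) = 4 := by decide

lemma nCA_1_3_15 : ncl (fun m => CA 1 3 (15 * m)) = 8 := by decide

lemma lim_CA_1_3 : As (odc (CA 1 3)) (14 / 3 * beta 60) := by
  have a1 := odc_lim (CA 1 3) (CA_per 1 3)
  rw [nCA_1_3_1, nCA_1_3_3, nCA_1_3_5, nCA_1_3_15] at a1
  convert a1 using 1
  push_cast
  ring

lemma nCA_2_1_1 : ncl (fun m => CA 2 1 (1 * m)) = 2 := by decide

lemma nCA_2_1_3 : ncl (fun m => CA 2 1 (3 * m)) = 4 := by decide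

lemma nCA_2_1_5 : ncl (fun m => CA 2 1 (5 * m)) = 4 := by decide

lemma nCA_2_1_15 : ncl (fun m => CA 2 1 (15 * m)) = 8 := by decide

lemma lim_CA_2_1 : As (odc (CA 2 1)) (14 / 3 * beta 60) := by
  have a1 := odc_lim (CA 2 1) (CA_per 2 1)
  rw [nCA_2_1_1, nCA_2_1_3, nCA_2_1_5, nCA_2_1_15] at a1
  convert a1 using 1
  push_cast
  ring

lemma nCA_2_3_1 : ncl (fun m => CA 2 3 (1 * m)) = 2 := by decide

lemma nCA_2_3_3 : ncl (fun m => CA 2 3 (3 * m)) = 4 := by decide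

lemma nCA_2_3_5 : ncl (fun m => CA 2 3 (5 * m)) = 4 := by decide

lemma nCA_2_3_15 : ncl (fun m => CA 2 3 (15 * m)) = 8 := by decide

lemma lim_CA_2_3 : As (odc (CA 2 3)) (14 / 3 * beta 60) := by
  have a1 := odc_lim (CA 2 3) (CA_per 2 3)
  rw [nCA_2_3_1, nCA_2_3_3, nCA_2_3_5, nCA_2_3_15] at a1
  convert a1 using 1
  push_cast
  ring

theorem lim_CA (k r : ℕ) (hk : k = 1 ∨ k = 2) (hr : r = 1 ∨ r = 3) :
    As (odc (CA k r)) (14 / 3 * beta 60) := by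
  rcases hk with rfl | rfl <;> rcases hr with rfl | rfl
  · exact lim_CA_1_1
  · exact lim_CA_1_3
  · exact lim_CA_2_1
  · exact lim_CA_2_3

lemma nCB_1_1_1 : ncl (fun m => CB 1 1 (1 * m)) = 2 := by decide

lemma nCB_1_1_3 : ncl (fun m => CB 1 1 (3 * m)) = 0 := by decide

lemma nCB_1_1_5 : ncl (fun m => CB 1 1 (5 * m)) = 0 := by decide

lemma nCB_1_1_15 : ncl (fun m => CB 1 1 (15 * m)) = 0 := by decide

lemma lim_CB_1_1 : As (odc (CB 1 1)) (2 * beta 60) := by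
  have a1 := odc_lim (CB 1 1) (CB_per 1 1)
  rw [nCB_1_1_1, nCB_1_1_3, nCB_1_1_5, nCB_1_1_15] at a1
  convert a1 using 1
  push_cast
  ring

lemma nCB_1_3_1 : ncl (fun m => CB 1 3 (1 * m)) = 2 := by decide

lemma nCB_1_3_3 : ncl (fun m => CB 1 3 (3 * m)) = 0 := by decide

lemma nCB_1_3_5 : ncl (fun m => CB 1 3 (5 * m)) = 0 := by decide

lemma nCB_1_3_15 : ncl (fun m => CB 1 3 (15 * m)) = 0 := by decide

lemma lim_CB_1_3 : As (odc (CB 1 3)) (2 * beta 60) := by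
  have a1 := odc_lim (CB 1 3) (CB_per 1 3)
  rw [nCB_1_3_1, nCB_1_3_3, nCB_1_3_5, nCB_1_3_15] at a1
  convert a1 using 1
  push_cast
  ring

lemma nCB_2_1_1 : ncl (fun m => CB 2 1 (1 * m)) = 2 := by decide

lemma nCB_2_1_3 : ncl (fun m => CB 2 1 (3 * m)) = 0 := by decide

lemma nCB_2_1_5 : ncl (fun m => CB 2 1 (5 * m)) = 0 := by decide

lemma nCB_2_1_15 : ncl (fun m => CB 2 1 (15 * m)) = 0 := by decide

lemma lim_CB_2_1 : As (odc (CB 2 1)) (2 * beta 60) := by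
  have a1 := odc_lim (CB 2 1) (CB_per 2 1)
  rw [nCB_2_1_1, nCB_2_1_3, nCB_2_1_5, nCB_2_1_15] at a1
  convert a1 using 1
  push_cast
  ring

lemma nCB_2_3_1 : ncl (fun m => CB 2 3 (1 * m)) = 2 := by decide

lemma nCB_2_3_3 : ncl (fun m => CB 2 3 (3 * m)) = 0 := by decide

lemma nCB_2_3_5 : ncl (fun m => CB 2 3 (5 * m)) = 0 := by decide

lemma nCB_2_3_15 : ncl (fun m => CB 2 3 (15 * m)) = 0 := by decide

lemma lim_CB_2_3 : As (odc (CB 2 3)) (2 * beta 60) := by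
  have a1 := odc_lim (CB 2 3) (CB_per 2 3)
  rw [nCB_2_3_1, nCB_2_3_3, nCB_2_3_5, nCB_2_3_15] at a1
  convert a1 using 1
  push_cast
  ring

theorem lim_CB (k r : ℕ) (hk : k = 1 ∨ k = 2) (hr : r = 1 ∨ r = 3) :
    As (odc (CB k r)) (2 * beta 60) := by
  rcases hk with rfl | rfl <;> rcases hr with rfl | rfl
  · exact lim_CB_1_1
  · exact lim_CB_1_3
  · exact lim_CB_2_1
  · exact lim_CB_2_3

lemma Fam_zero_iff {t s : ZMod 2} (n : ℕ) : Fam 0 t s n ↔
    (Odd n ∧ CA (2 ^ t.val) (if s = 1 then 3 else 1) n) := by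
  unfold Fam CA
  rw [Ne, Ne, J3_iff, J5_iff, not_or]
  have h01 : ¬ ((0 : ZMod 2) = 1) := by decide
  constructor
  · rintro ⟨h1, h2, h3, -⟩
    obtain ⟨h4, h5, h6⟩ := h3 rfl
    refine ⟨h1, ?_, h4, h5, h6⟩
    rw [Nat.odd_iff] at h1
    rcases z2 s with hs | hs
    · rw [hs, e4'_iff_zero] at h2
      rw [hs, if_neg h01]
      omega
    · rw [hs, e4'_iff_one] at h2
      rw [hs, if_pos rfl]
      omega
  · rintro ⟨h1, h2, h4, h5, h6⟩
    refine ⟨h1, ?_, fun _ => ⟨h4, h5, h6⟩, fun h => absurd h h01⟩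
    rcases z2 s with hs | hs
    · rw [hs, if_neg h01] at h2
      rw [hs, e4'_iff_zero]
      omega
    · rw [hs, if_pos rfl] at h2
      rw [hs, e4'_iff_one]
      omega

lemma Fam_one_iff {t s : ZMod 2} (n : ℕ) : Fam 1 t s n ↔
    (Odd n ∧ CB (2 ^ t.val) (if s = 1 then 3 else 1) n) := by
  unfold Fam CB
  rw [Ne, Ne, J3_iff, J5_iff, not_or]
  have h01 : ¬ ((0 : ZMod 2) = 1) := by decide
  have h10 : ¬ ((1 : ZMod 2) = 0) := by decide
  constructor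
  · rintro ⟨h1, h2, -, h3⟩
    obtain ⟨h4, h5⟩ := h3 rfl
    refine ⟨h1, ?_, h4, h5⟩
    rw [Nat.odd_iff] at h1
    rcases z2 s with hs | hs
    · rw [hs, e4'_iff_zero] at h2
      rw [hs, if_neg h01]
      omega
    · rw [hs, e4'_iff_one] at h2
      rw [hs, if_pos rfl]
      omega
  · rintro ⟨h1, h2, h4, h5⟩
    refine ⟨h1, ?_, fun h => absurd h h10, fun _ => ⟨h4, h5⟩⟩
    rcases z2 s with hs | hs
    · rw [hs, if_neg h01] at h2
      rw [hs, e4'_iff_zero]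
      omega
    · rw [hs, if_pos rfl] at h2
      rw [hs, e4'_iff_one]
      omega

lemma two_pow_cases (t : ZMod 2) : 2 ^ t.val = 1 ∨ 2 ^ t.val = 2 := by
  rcases z2 t with ht | ht
  · left; rw [ht]; rfl
  · right; rw [ht]; rfl

lemma ite_cases (s : ZMod 2) : (if s = 1 then 3 else 1) = 1 ∨ (if s = 1 then 3 else 1) = 3 := by
  split_ifs
  · right; rfl
  · left; rfl

/-- the weight of the class -/
noncomputable def wt2 (c2 : ZMod 2) : ℝ := if c2 = 0 then 14 / 3 else 2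

theorem lim_Fam (c2 t s : ZMod 2) :
    As (fun X => ((sqf X).filter (Fam c2 t s)).card) (wt2 c2 * beta 60) := by
  rcases z2 c2 with rfl | rfl
  · have h1 : (fun X => ((sqf X).filter (Fam 0 t s)).card)
        = odc (CA (2 ^ t.val) (if s = 1 then 3 else 1)) := by
      funext X
      unfold odc
      congr 1
      apply Finset.filter_congr
      intro n _
      exact Fam_zero_iff n
    rw [h1]
    unfold wt2
    rw [if_pos rfl]
    exact lim_CA _ _ (two_pow_cases t) (ite_cases s)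
  · have h1 : (fun X => ((sqf X).filter (Fam 1 t s)).card)
        = odc (CB (2 ^ t.val) (if s = 1 then 3 else 1)) := by
      funext X
      unfold odc
      congr 1
      apply Finset.filter_congr
      intro n _
      exact Fam_one_iff n
    rw [h1]
    have hw : wt2 1 = 2 := if_neg (by decide)
    rw [hw]
    exact lim_CB _ _ (two_pow_cases t) (ite_cases s)

/-! ### the eight families -/

/-- multiplier -/
def mu : Fin 4 → ℕ := ![1, 4, 8, 8]
/-- is `2` ramified -/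
def fe : Fin 4 → ZMod 2 := ![0, 1, 1, 1]
/-- is `8 ∣ D` -/
def ft : Fin 4 → ZMod 2 := ![0, 0, 1, 1]
/-- the class mod four -/
def fs : Fin 4 → ZMod 2 := ![1, 0, 0, 1]

lemma Ty_all (i : Fin 4) : Ty (fe i) (ft i) (fs i) := by
  fin_cases i
  · exact Or.inl ⟨rfl, rfl, rfl⟩
  · exact Or.inr (Or.inl ⟨rfl, rfl, rfl⟩)
  · exact Or.inr (Or.inr ⟨rfl, rfl⟩)
  · exact Or.inr (Or.inr ⟨rfl, rfl⟩)

lemma mu_pos (i : Fin 4) : 0 < mu i := by
  fin_cases i <;> decide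

lemma mu_le (i : Fin 4) : mu i ≤ 8 := by
  fin_cases i <;> decide

/-- the members of the family -/
noncomputable def FS (x : ZMod 2 × Fin 4) (X : ℕ) : Finset ℕ :=
  ((((sqf (X / mu x.2)).filter (Fam x.1 (ft x.2) (fs x.2))).filter
    (fun n => NA (fe x.2) (ft x.2) x.1 n = 2)).erase 1).image (fun n => mu x.2 * n)

/-- all the members -/
noncomputable def cS (x : ZMod 2 × Fin 4) (X : ℕ) : ℕ :=
  ((sqf (X / mu x.2)).filter (Fam x.1 (ft x.2) (fs x.2))).card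

lemma div_tendsto (i : Fin 4) : Tendsto (fun X : ℕ => X / mu i) atTop atTop :=
  Nat.tendsto_div_const_atTop (mu_pos i).ne'

theorem low_FS (x : ZMod 2 × Fin 4) (ε : ℝ) (hε : 0 < ε) :
    ∀ᶠ X : ℕ in atTop, 188 / 651 * (cS x X : ℝ) - ε * X ≤ ((FS x X).card : ℝ) := by
  obtain ⟨X₀, h0⟩ := low_Fam (Ty_all x.2) x.1 (ε / 2) (by linarith)
  have h1 := (div_tendsto x.2).eventually (eventually_ge_atTop X₀)
  obtain ⟨N, hN⟩ := exists_nat_gt (2 / ε)
  filter_upwards [h1, eventually_ge_atTop N] with X hX hXN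
  have h2 := h0 _ hX
  have h3 : ((FS x X).card : ℝ) ≥ ((((sqf (X / mu x.2)).filter (Fam x.1 (ft x.2) (fs x.2))).filter
      (fun n => NA (fe x.2) (ft x.2) x.1 n = 2)).card : ℝ) - 1 := by
    unfold FS
    rw [Finset.card_image_of_injective _ (fun a b h => Nat.eq_of_mul_eq_mul_left (mu_pos x.2) h)]
    have h4 := Finset.pred_card_le_card_erase (a := 1)
      (s := (((sqf (X / mu x.2)).filter (Fam x.1 (ft x.2) (fs x.2))).filter
      (fun n => NA (fe x.2) (ft x.2) x.1 n = 2)))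
    have h5 : (((sqf (X / mu x.2)).filter (Fam x.1 (ft x.2) (fs x.2))).filter
      (fun n => NA (fe x.2) (ft x.2) x.1 n = 2)).card ≤
      ((((sqf (X / mu x.2)).filter (Fam x.1 (ft x.2) (fs x.2))).filter
      (fun n => NA (fe x.2) (ft x.2) x.1 n = 2)).erase 1).card + 1 := by omega
    have h6 := (Nat.cast_le (α := ℝ)).2 h5
    push_cast at h6
    linarith
  have h4 : ((X / mu x.2 : ℕ) : ℝ) ≤ X := by exact_mod_cast Nat.div_le_self _ _
  have h5 : 1 ≤ ε / 2 * X := by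
    have h6 : 2 / ε < X := hN.trans_le (by exact_mod_cast hXN)
    rw [div_lt_iff₀ hε] at h6
    linarith
  have h6 : ε / 2 * ((X / mu x.2 : ℕ) : ℝ) ≤ ε / 2 * X := mul_le_mul_of_nonneg_left h4 (by linarith)
  unfold cS
  linarith

lemma lim_cS (x : ZMod 2 × Fin 4) : As (cS x) (wt2 x.1 * beta 60 / mu x.2) := by
  have h1 := (lim_Fam x.1 (ft x.2) (fs x.2)).div (mu x.2) (mu_pos x.2) (by
    unfold sqf
    simp)
  exact h1

theorem lim_sum : As (fun X => ∑ x : ZMod 2 × Fin 4, cS x X) (10 * beta 60) := by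
  have h1 := As.sum (univ : Finset (ZMod 2 × Fin 4)) (fun x _ => lim_cS x)
  convert h1 using 1
  rw [Fintype.sum_prod_type]
  have h2 : (univ : Finset (ZMod 2)) = {0, 1} := by decide
  rw [h2, Finset.sum_pair (by decide)]
  have h3 : ∀ y : Fin 4, wt2 ((0 : ZMod 2), y).1 = 14 / 3 := fun y => if_pos rfl
  have h4 : ∀ y : Fin 4, wt2 ((1 : ZMod 2), y).1 = 2 := fun y => if_neg (by show ¬ ((1 : ZMod 2) = 0); decide)
  have h5 : ∑ y : Fin 4, wt2 ((0 : ZMod 2), y).1 * beta 60 / (mu ((0 : ZMod 2), y).2 : ℝ)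
      = ∑ y : Fin 4, 14 / 3 * beta 60 / (mu y : ℝ) :=
    Finset.sum_congr rfl fun y _ => by rw [h3 y]
  have h6 : ∑ y : Fin 4, wt2 ((1 : ZMod 2), y).1 * beta 60 / (mu ((1 : ZMod 2), y).2 : ℝ)
      = ∑ y : Fin 4, 2 * beta 60 / (mu y : ℝ) :=
    Finset.sum_congr rfl fun y _ => by rw [h4 y]
  rw [h5, h6]
  simp only [Fin.sum_univ_four, mu, Matrix.cons_val_zero, Matrix.cons_val_one, Matrix.cons_val_two,
    Matrix.cons_val_three, Matrix.head_cons, Matrix.tail_cons]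
  push_cast
  ring

/-- the signature of the family -/
def Sig (x : ZMod 2 × Fin 4) (D : ℕ) : Prop :=
  (x.1 = 0 → D % 3 ≠ 1) ∧ (x.1 = 1 → D % 3 = 1) ∧
  (x.2 = 0 → D % 2 = 1) ∧ (x.2 = 1 → D % 8 = 4) ∧ (x.2 = 2 → D % 32 = 8) ∧
  (x.2 = 3 → D % 32 = 24)

lemma Sig_inj {x y : ZMod 2 × Fin 4} {D : ℕ} (hx : Sig x D) (hy : Sig y D) : x = y := by
  obtain ⟨x1, x2⟩ := x
  obtain ⟨y1, y2⟩ := y
  obtain ⟨a1, a2, a3, a4, a5, a6⟩ := hx
  obtain ⟨b1, b2, b3, b4, b5, b6⟩ := hy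
  simp only at a1 a2 a3 a4 a5 a6 b1 b2 b3 b4 b5 b6
  have h1 : x1 = y1 := by
    rcases z2 x1 with h | h <;> rcases z2 y1 with h' | h'
    · rw [h, h']
    · exact absurd (b2 h') (a1 h)
    · exact absurd (a2 h) (b1 h')
    · rw [h, h']
  have h2 : x2 = y2 := by
    fin_cases x2 <;> fin_cases y2 <;> simp at a3 a4 a5 a6 b3 b4 b5 b6 ⊢ <;> omega
  rw [h1, h2]

end Vale.Agent.P017.H626
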