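import Vale.Agent.P017.H626.G2

/-!
All discriminants: fifteen per cent, end of the proof.
-/

namespace Vale.Agent.P017.H626

open NumberField Finset Function Filter Topology Vale.Agent.P014.H580 Vale.Agent.P014.FM
open Vale.Agent.P014.H687.FM
open Vale.Agent.P017.H185 (QF X015)

universe u

/-- the members of the families are good discriminants -/
theorem FS_mem {x : ZMod 2 × Fin 4} {X D : ℕ} (h : D ∈ FS x X) :
    (D ≤ X ∧ IsDisc D ∧ FinPts.{u} D) ∧ Sig x D := by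
  unfold FS at h
  rw [Finset.mem_image] at h
  obtain ⟨n, hn, rfl⟩ := h
  rw [Finset.mem_erase, Finset.mem_filter, Finset.mem_filter, mem_sqf] at hn
  obtain ⟨hne, ⟨⟨⟨hn1, hnX⟩, hsq⟩, hF⟩, hN⟩ := hn
  have hX : mu x.2 * n ≤ X := by
    have := (Nat.le_div_iff_mul_le (mu_pos x.2)).1 hnX
    rw [mul_comm]
    exact this
  have hodd := hF.1
  have hno := Nat.odd_iff.1 hodd
  have hfin := fun (d : ℕ) (hd : d = 2 ^ (ft x.2).val * n) (K : Type u) [Field K] [NumberField K]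
    (q : QF K d) => fin_Fam (Ty_all x.2) hsq hF (Or.inl hne) hN hd q
  have h3 : (x.1 = 0 → (2 ^ (ft x.2).val * n) % 3 ≠ 1) ∧
      (x.1 = 1 → (2 ^ (ft x.2).val * n) % 3 = 1) := by
    constructor
    · intro hc
      have := (hF.2.2.1 hc).1
      rwa [Ne, J3_iff] at this
    · intro hc
      have := (hF.2.2.2 hc).1
      rwa [J3_iff] at this
  have hs := hF.2.1
  obtain ⟨c, i⟩ := x
  have e0 : (0 : ZMod 2).val = 0 := rfl
  have e1 : (1 : ZMod 2).val = 1 := rfl
  simp only at h3 hX hfin hs hF hN ⊢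
  have hsq2 : Squarefree (2 * n) :=
    (Nat.squarefree_mul_iff).2 ⟨Nat.coprime_two_left.2 hodd, Nat.prime_two.squarefree, hsq⟩
  fin_cases i
  · -- odd discriminants
    have f1 : ft (0 : Fin 4) = 0 := rfl
    have f2 : fs (0 : Fin 4) = 1 := rfl
    have f3 : mu (0 : Fin 4) = 1 := rfl
    simp only [Fin.zero_eta, Fin.isValue, f1, f2, f3, e0, pow_zero, one_mul] at h3 hX hfin hs ⊢
    rw [e4'_iff_one] at hs
    refine ⟨⟨hX, (isDisc_iff n).2 (Or.inl ⟨hsq, hs⟩), FinPts_three hs (hfin n rfl)⟩, ?_⟩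
    exact ⟨h3.1, h3.2, fun _ => hno, fun h => absurd h (by simp),
      fun h => absurd h (by simp), fun h => absurd h (by simp)⟩
  · -- four times an integer `≡ 1 mod 4`
    have f1 : ft (1 : Fin 4) = 0 := rfl
    have f2 : fs (1 : Fin 4) = 0 := rfl
    have f3 : mu (1 : Fin 4) = 4 := rfl
    simp only [Fin.mk_one, Fin.isValue, f1, f2, f3, e0, pow_zero, one_mul] at h3 hX hfin hs ⊢
    rw [e4'_iff_zero] at hs
    refine ⟨⟨hX, (isDisc_iff _).2 (Or.inr ⟨n, hsq, hs, rfl⟩), FinPts_other hs hsq (hfin n rfl)⟩, ?_⟩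
    exact ⟨fun h => by have := h3.1 h; omega, fun h => by have := h3.2 h; omega,
      fun h => absurd h (by simp), fun _ => by omega,
      fun h => absurd h (by simp), fun h => absurd h (by simp)⟩
  · have f1 : ft (2 : Fin 4) = 1 := rfl
    have f2 : fs (2 : Fin 4) = 0 := rfl
    have f3 : mu (2 : Fin 4) = 8 := rfl
    simp only [Fin.reduceFinMk, Fin.isValue, f1, f2, f3, e1, pow_one] at h3 hX hfin hs ⊢
    rw [e4'_iff_zero] at hs
    have h8 : 8 * n = 4 * (2 * n) := by ring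
    refine ⟨⟨hX, (isDisc_iff _).2 (Or.inr ⟨2 * n, hsq2, by omega, h8⟩), ?_⟩, ?_⟩
    · rw [h8]
      exact FinPts_other (by omega) hsq2 (hfin (2 * n) rfl)
    · exact ⟨fun h => by have := h3.1 h; omega, fun h => by have := h3.2 h; omega,
        fun h => absurd h (by simp), fun h => absurd h (by simp),
        fun _ => by omega, fun h => absurd h (by simp)⟩
  · have f1 : ft (3 : Fin 4) = 1 := rfl
    have f2 : fs (3 : Fin 4) = 1 := rfl
    have f3 : mu (3 : Fin 4) = 8 := rfl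
    simp only [Fin.reduceFinMk, Fin.isValue, f1, f2, f3, e1, pow_one] at h3 hX hfin hs ⊢
    rw [e4'_iff_one] at hs
    have h8 : 8 * n = 4 * (2 * n) := by ring
    refine ⟨⟨hX, (isDisc_iff _).2 (Or.inr ⟨2 * n, hsq2, by omega, h8⟩), ?_⟩, ?_⟩
    · rw [h8]
      exact FinPts_other (by omega) hsq2 (hfin (2 * n) rfl)
    · exact ⟨fun h => by have := h3.1 h; omega, fun h => by have := h3.2 h; omega,
        fun h => absurd h (by simp), fun h => absurd h (by simp),
        fun h => absurd h (by simp), fun _ => by omega⟩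

/-- **A positive proportion of imaginary quadratic fields.** -/
theorem fifteen : ∃ X₀ : ℕ, ∀ X : ℕ, X₀ ≤ X →
    (15 / 100 : ℝ) * {D : ℕ | D ≤ X ∧ IsDisc D}.ncard
      ≤ {D : ℕ | D ≤ X ∧ IsDisc D ∧ FinPts.{u} D}.ncard := by
  have hG : ∀ ε : ℝ, 0 < ε → ∃ X₀ : ℕ, ∀ X : ℕ, X₀ ≤ X →
      188 / 651 * (((fun X => ∑ x : ZMod 2 × Fin 4, cS x X) X : ℕ) : ℝ) - ε * X
        ≤ (((fun X => ∑ x : ZMod 2 × Fin 4, (FS x X).card) X : ℕ) : ℝ) := by
    intro ε hε
    have h1 : ∀ᶠ X : ℕ in atTop, ∀ x : ZMod 2 × Fin 4,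
        188 / 651 * (cS x X : ℝ) - ε / 8 * X ≤ ((FS x X).card : ℝ) :=
      Filter.eventually_all.2 fun x => low_FS x (ε / 8) (by linarith)
    rw [eventually_atTop] at h1
    obtain ⟨X₀, h1⟩ := h1
    refine ⟨X₀, fun X hX => ?_⟩
    have h2 := Finset.sum_le_sum (s := (univ : Finset (ZMod 2 × Fin 4))) fun x _ => h1 X hX x
    rw [Finset.sum_sub_distrib, ← Finset.mul_sum, Finset.sum_const, Finset.card_univ] at h2
    have h3 : Fintype.card (ZMod 2 × Fin 4) = 8 := by simp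
    rw [h3, nsmul_eq_mul] at h2
    push_cast at h2 ⊢
    linarith
  obtain ⟨X₀, h⟩ := ratio (T := fun X => {D : ℕ | D ≤ X ∧ IsDisc D}.ncard)
    (S := fun X => ∑ x : ZMod 2 × Fin 4, cS x X)
    (G := fun X => ∑ x : ZMod 2 × Fin 4, (FS x X).card)
    (beta_pos (by norm_num : 0 < 60)) lim_disc lim_sum hG (c := 15 / 100) (by norm_num)
  refine ⟨X₀, fun X hX => (h X hX).trans ?_⟩
  have h1 : ((univ : Finset (ZMod 2 × Fin 4)).biUnion (fun x => FS x X)).card
      = ∑ x : ZMod 2 × Fin 4, (FS x X).card := by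
    apply Finset.card_biUnion
    intro x _ y _ hxy
    rw [Function.onFun, Finset.disjoint_left]
    intro D hD hD'
    exact hxy (Sig_inj (FS_mem.{u} hD).2 (FS_mem.{u} hD').2)
  have h2 : (((univ : Finset (ZMod 2 × Fin 4)).biUnion (fun x => FS x X) : Finset ℕ) : Set ℕ) ⊆
      {D : ℕ | D ≤ X ∧ IsDisc D ∧ FinPts.{u} D} := by
    intro D hD
    rw [Finset.mem_coe, Finset.mem_biUnion] at hD
    obtain ⟨x, -, hx⟩ := hD
    exact (FS_mem hx).1
  have h3 := Set.ncard_le_ncard h2 ((Set.finite_Iic X).subset fun D hD => hD.1)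
  rw [Set.ncard_coe_finset, h1] at h3
  exact_mod_cast h3

end Vale.Agent.P017.H626
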