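import Vale.Agent.P017.H626.D1

/-!
Characters of the coordinates with conductors `8`, `3` and `5`.
-/

namespace Vale.Agent.P017.H626

open Finset Function Vale.Agent.P014.H580 Vale.Agent.P014.FM Vale.Agent.P014.H687.FM Filter

/-- the odd conductor of a coordinate -/
def cC (c2 i j : ZMod 2) : ℕ := if c2 = 1 then 225 * 3 ^ i.val * 5 ^ j.val else 1

lemma cC_one (i j : ZMod 2) : cC 1 i j = 225 * 3 ^ i.val * 5 ^ j.val := if_pos rfl

lemma cC_zero (i j : ZMod 2) : cC 0 i j = 1 := if_neg (by decide)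

lemma cC_odd (c2 i j : ZMod 2) : Odd (cC c2 i j) := by
  rcases z2 c2 with rfl | rfl
  · rw [cC_zero]
    exact odd_one
  · rw [cC_one]
    exact ((by decide : Odd 225).mul ((by decide : Odd 3).pow)).mul ((by decide : Odd 5).pow)

lemma cC_prime {c2 i j : ZMod 2} {p : ℕ} (hp : p.Prime) (h : p ∣ cC c2 i j) :
    c2 = 1 ∧ p ∣ 15 := by
  rcases z2 c2 with rfl | rfl
  · rw [cC_zero] at h
    exact absurd (Nat.dvd_one.1 h) hp.one_lt.ne'
  · refine ⟨rfl, ?_⟩
    rw [cC_one] at h
    have h225 : (225 : ℕ) = 15 * 15 := by norm_num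
    rcases (Nat.Prime.dvd_mul hp).1 h with h | h
    · rcases (Nat.Prime.dvd_mul hp).1 h with h | h
      · rw [h225] at h
        rcases (Nat.Prime.dvd_mul hp).1 h with h | h <;> exact h
      · exact (hp.dvd_of_dvd_pow h).trans (by norm_num)
    · exact (hp.dvd_of_dvd_pow h).trans (by norm_num)

/-- numbers on which the characters do not vanish -/
def good (c2 : ZMod 2) (n : ℕ) : Prop := Odd n ∧ (c2 = 1 → Nat.Coprime n 15)

lemma chi8_leg {n : ℕ} (h : Odd n) : chi8 n = sg2 (leg 2 n) := by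
  have h1 : J 2 n = chi8 n := by
    unfold J chi8
    rw [Nat.cast_ofNat, jacobiSym.at_two h]
  rw [← h1, sg2_leg (Nat.coprime_two_left.2 h)]

lemma J_c1 (n i j : ℕ) : J n (225 * 3 ^ i * 5 ^ j) = J n 3 ^ (2 + i) * J n 5 ^ (2 + j) := by
  have h225 : (225 : ℕ) = 3 * 3 * (5 * 5) := by norm_num
  rw [J_mul_right _ _ _ (by positivity) (by positivity),
    J_mul_right _ _ _ (by positivity) (by positivity), h225,
    J_mul_right _ _ _ (by positivity) (by positivity),
    J_mul_right _ _ _ (by positivity) (by positivity),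
    J_mul_right _ _ _ (by positivity) (by positivity),
    Vale.Agent.P014.FM.J_pow_right, Vale.Agent.P014.FM.J_pow_right]
  ring

lemma sg2_pow_even (a l : ZMod 2) : sg2 a ^ (2 + l.val) = sg2 (l * a) := by
  rw [pow_add, pow_two, sg2_sq, one_mul, sg2_pow]

lemma ch_level {c2 : ZMod 2} {n : ℕ} (h : good c2 n) (l b i j : ZMod 2) :
    ch (2 + l.val) b.val (cC c2 i j) n
      = sg2 (l * e4' n + b * leg 2 n + c2 * (i * leg n 3 + j * leg n 5)) := by
  unfold ch
  rw [chi4_sg h.1, chi8_leg h.1, sg2_pow_even, ← sg2_pow, ← sg2_add]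
  rcases z2 c2 with rfl | rfl
  · rw [cC_zero, Vale.Agent.P014.FM.J_one_right, zero_mul, add_zero, mul_one]
  · have hc := h.2 rfl
    rw [cC_one, J_c1, ← sg2_leg (hc.coprime_dvd_right (by norm_num)),
      ← sg2_leg (hc.coprime_dvd_right (by norm_num)), sg2_pow_even, sg2_pow_even, ← sg2_add,
      ← sg2_add, one_mul]

lemma ch_level_zero {c2 : ZMod 2} {n : ℕ} (h : ¬ good c2 n) (l b i j : ZMod 2) :
    ch (2 + l.val) b.val (cC c2 i j) n = 0 := by
  unfold good at h
  by_cases ho : Odd n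
  · have h1 : c2 = 1 ∧ ¬ Nat.Coprime n 15 := by
      by_contra hcon
      apply h
      refine ⟨ho, fun h2 => ?_⟩
      by_contra h3
      exact hcon ⟨h2, h3⟩
    apply ch_ncop (cC_odd _ _ _).pos.ne'
    rw [h1.1, cC_one]
    intro h2
    apply h1.2
    exact h2.coprime_dvd_right (by
      have : (225 : ℕ) = 15 * 15 := by norm_num
      rw [this, mul_assoc, mul_assoc]
      exact dvd_mul_right _ _)
  · exact ch_even (by omega) ho

lemma ch_level_val (c2 : ZMod 2) (n : ℕ) (l b i j l' b' i' j' : ZMod 2) :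
    ch (2 + l.val) b.val (cC c2 i j) n * ch (2 + l'.val) b'.val (cC c2 i' j') n = 1 ∨
    ch (2 + l.val) b.val (cC c2 i j) n * ch (2 + l'.val) b'.val (cC c2 i' j') n = -1 ∨
    (ch (2 + l.val) b.val (cC c2 i j) n * ch (2 + l'.val) b'.val (cC c2 i' j') n = 0 ∧
      ¬ good c2 n) := by
  by_cases h : good c2 n
  · rw [ch_level h, ch_level h, ← sg2_add]
    rcases z2 ((l * e4' n + b * leg 2 n + c2 * (i * leg n 3 + j * leg n 5)) +
      (l' * e4' n + b' * leg 2 n + c2 * (i' * leg n 3 + j' * leg n 5))) with h1 | h1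
    · left; rw [h1, sg2_zero]
    · right; left; rw [h1, sg2_one]
  · right; right
    rw [ch_level_zero h, zero_mul]
    exact ⟨rfl, h⟩

lemma J_per' (n c k : ℕ) : J (n + c * k) c = J n c := by
  have := J_per n k c
  rw [mul_comm] at this
  exact this

/-- the modulus -/
def qC (c2 : ZMod 2) : ℕ := if c2 = 1 then 120 else 8

lemma not_good {c2 : ZMod 2} {n : ℕ} (h : ¬ good c2 n) : ¬ n.Coprime (qC c2) := by
  intro hc
  apply h
  refine ⟨?_, ?_⟩
  · apply Nat.coprime_two_right.1
    refine hc.coprime_dvd_right ?_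
    unfold qC
    split_ifs <;> norm_num
  · intro h1
    unfold qC at hc
    rw [if_pos h1] at hc
    exact hc.coprime_dvd_right (by norm_num)

lemma good_of_cop {c2 : ZMod 2} {n : ℕ} (h : n.Coprime (qC c2)) : good c2 n := by
  by_contra hcon
  exact not_good hcon h

lemma ch_level_per (c2 : ZMod 2) (n : ℕ) (a b i j : ℕ) :
    ch a b (if c2 = 1 then 225 * 3 ^ i * 5 ^ j else 1) (n + qC c2)
      = ch a b (if c2 = 1 then 225 * 3 ^ i * 5 ^ j else 1) n := by
  unfold ch qC
  rcases z2 c2 with rfl | rfl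
  · rw [if_neg (by decide), if_neg (by decide)]
    have h1 := chi4_per n 2
    have h2 := chi8_per n 1
    norm_num at h1 h2
    rw [h1, h2, Vale.Agent.P014.FM.J_one_right, Vale.Agent.P014.FM.J_one_right]
  · rw [if_pos rfl, if_pos rfl]
    have h1 := chi4_per n 30
    have h2 := chi8_per n 15
    have h3 := J_per' n 3 40
    have h5 := J_per' n 5 24
    norm_num at h1 h2 h3 h5
    rw [h1, h2, J_c1, J_c1, h3, h5]

lemma wit (c2 l b i j : ZMod 2) (h : l ≠ 0 ∨ b ≠ 0 ∨ (c2 = 1 ∧ (i ≠ 0 ∨ j ≠ 0))) :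
    ∃ n : ℕ, n.Coprime (qC c2) ∧
      l * e4' n + b * leg 2 n + c2 * (i * leg n 3 + j * leg n 5) = 1 := by
  have cop : ∀ n : ℕ, n.Coprime 120 → n.Coprime (qC c2) := by
    intro n hn
    unfold qC
    split_ifs
    · exact hn
    · exact hn.coprime_dvd_right (by norm_num)
  have a1 : e4' 31 = 1 := by unfold e4'; rw [if_pos (by norm_num)]
  have a2 : leg 2 31 = 0 := by
    unfold leg
    rw [if_neg]
    norm_num
  have a3 : leg 31 3 = 0 := by
    unfold leg
    rw [if_neg]
    norm_num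
  have a5 : leg 31 5 = 0 := by
    unfold leg
    rw [if_neg]
    norm_num
  have b1 : e4' 61 = 0 := by unfold e4'; rw [if_neg (by norm_num)]
  have b2 : leg 2 61 = 1 := by
    unfold leg
    rw [if_pos]
    norm_num
  have b3 : leg 61 3 = 0 := by
    unfold leg
    rw [if_neg]
    norm_num
  have b5 : leg 61 5 = 0 := by
    unfold leg
    rw [if_neg]
    norm_num
  have c1 : e4' 41 = 0 := by unfold e4'; rw [if_neg (by norm_num)]
  have c2' : leg 2 41 = 0 := by
    unfold leg
    rw [if_neg]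
    norm_num
  have c3 : leg 41 3 = 1 := by
    unfold leg
    rw [if_pos]
    norm_num
  have c5 : leg 41 5 = 0 := by
    unfold leg
    rw [if_neg]
    norm_num
  have d1 : e4' 73 = 0 := by unfold e4'; rw [if_neg (by norm_num)]
  have d2 : leg 2 73 = 0 := by
    unfold leg
    rw [if_neg]
    norm_num
  have d3 : leg 73 3 = 0 := by
    unfold leg
    rw [if_neg]
    norm_num
  have d5 : leg 73 5 = 1 := by
    unfold leg
    rw [if_pos]
    norm_num
  rcases h with h | h | ⟨h1, h | h⟩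
  · refine ⟨31, cop _ (by norm_num), ?_⟩
    rw [a1, a2, a3, a5, (z2 l).resolve_left h]
    ring
  · refine ⟨61, cop _ (by norm_num), ?_⟩
    rw [b1, b2, b3, b5, (z2 b).resolve_left h]
    ring
  · refine ⟨41, cop _ (by norm_num), ?_⟩
    rw [c1, c2', c3, c5, (z2 i).resolve_left h, h1]
    ring
  · refine ⟨73, cop _ (by norm_num), ?_⟩
    rw [d1, d2, d3, d5, (z2 j).resolve_left h, h1]
    ring

/-- distinct characters have a non principal product -/
theorem np_level (c2 l b i j l' b' i' j' : ZMod 2)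
    (h : l ≠ l' ∨ b ≠ b' ∨ (c2 = 1 ∧ (i ≠ i' ∨ j ≠ j'))) :
    NPChar (qC c2) (fun n => ((ch (2 + l.val) b.val (cC c2 i j) n *
      ch (2 + l'.val) b'.val (cC c2 i' j') n : ℝ) : ℂ)) := by
  have hadd : ∀ x y : ZMod 2, x ≠ y → x + y ≠ 0 := by decide
  obtain ⟨w, hw1, hw2⟩ := wit c2 (l + l') (b + b') (i + i') (j + j') (by
    rcases h with h | h | ⟨h1, h | h⟩
    · exact Or.inl (hadd _ _ h)
    · exact Or.inr (Or.inl (hadd _ _ h))
    · exact Or.inr (Or.inr ⟨h1, Or.inl (hadd _ _ h)⟩)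
    · exact Or.inr (Or.inr ⟨h1, Or.inr (hadd _ _ h)⟩))
  refine NPChar.of_ne_one (b := w) ?_ ?_ ?_ ?_ ?_ ?_ hw1
  · unfold qC
    split_ifs <;> norm_num
  · intro m n
    rw [ch_mul, ch_mul]
    push_cast
    ring
  · intro n
    have h1 := ch_level_per c2 n (2 + l.val) b.val i.val j.val
    have h2 := ch_level_per c2 n (2 + l'.val) b'.val i'.val j'.val
    unfold cC
    rw [h1, h2]
  · intro n hn
    have : ¬ good c2 n := fun hg => by
      apply hn
      unfold qC
      have h2 : n.Coprime 2 := Nat.coprime_two_right.2 hg.1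
      have e8 : (8 : ℕ) = 2 ^ 3 := by norm_num
      split_ifs with hc
      · have h15 := hg.2 hc
        have : (120 : ℕ) = 2 ^ 3 * 15 := by norm_num
        rw [this]
        exact Nat.Coprime.mul_right (h2.pow_right 3) h15
      · rw [e8]
        exact h2.pow_right 3
    rw [ch_level_zero this]
    simp
  · intro n
    rw [Complex.norm_real, Real.norm_eq_abs, abs_mul]
    exact mul_le_one₀ (ch_abs _ _ _ _) (abs_nonneg _) (ch_abs _ _ _ _)
  · have hg := good_of_cop hw1
    have h3 : (l * e4' w + b * leg 2 w + c2 * (i * leg w 3 + j * leg w 5)) +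
        (l' * e4' w + b' * leg 2 w + c2 * (i' * leg w 3 + j' * leg w 5)) = 1 := by
      rw [← hw2]
      ring
    rw [ch_level hg, ch_level hg, ← sg2_add, h3, sg2_one]
    norm_num

end Vale.Agent.P017.H626
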