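import Vale.Agent.P017.H626.I1

/-!
The main term of an unlinked set with characters at the level of the coordinates.
-/

namespace Vale.Agent.P017.H626

open Finset Function Vale.Agent.P014.H580 Vale.Agent.P014.FM Vale.Agent.P014.H687.FM Filter

section general

variable {ι : Type*} [Fintype ι] [DecidableEq ι]

/-- the data with the conductors `8`, `3`, `5` -/
structure Lev (d : Dat ι) (c2 : ZMod 2) (b i j : ι → ZMod 2) : Prop where
  hA : ∀ u, d.A u = 2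
  hB : ∀ u, d.B u = (b u).val
  hC : ∀ u, d.C u = cC c2 (i u) (j u)

/-- members of the family -/
def Mem (c2 s s3 s5 : ZMod 2) (n : ℕ) : Prop :=
  good c2 n ∧ e4' n = s ∧ (c2 = 1 → leg n 3 = s3 ∧ leg n 5 = s5)

lemma favG_lev {d : Dat ι} {c2 : ZMod 2} {b i j : ι → ZMod 2} (hL : Lev d c2 b i j)
    (U : Finset ι) (l : U → ZMod 2) (p : ℕ) :
    favG d U l p = (1 / (d.m : ℝ)) * ∑ u : U, ch (2 + (l u).val) (b u).val (cC c2 (i u) (j u)) p := by
  unfold favG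
  simp only [hL.hA, hL.hB, hL.hC]

/-- nonconstant characters -/
theorem fav_nonconst (hsw : SW) {d : Dat ι} {c2 : ZMod 2} {b i j : ι → ZMod 2}
    (hL : Lev d c2 b i j) {U : Finset ι} (hcard' : Fintype.card U = d.m) (l : U → ZMod 2)
    (u v : U) (h : l u ≠ l v ∨ b u ≠ b v ∨ (c2 = 1 ∧ (i u ≠ i v ∨ j u ≠ j v))) :
    ∀ ε : ℝ, 0 < ε → ∃ X₀ : ℕ, ∀ X : ℕ, X₀ ≤ X → ∀ S : Finset ℕ, S ⊆ sqf X →
      |∑ n ∈ S, ∏ p ∈ n.primeFactors, favG d U l p| ≤ ε * X := by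
  have huv : u ≠ v := by
    rintro rfl
    rcases h with h | h | ⟨-, h | h⟩ <;> exact h rfl
  have h1 := fav_small hsw d.m hcard'
    (fun w : U => fun n => ch (2 + (l w).val) (b w).val (cC c2 (i w) (j w)) n)
    (fun w n => ch_abs _ _ _ _) u v huv (qC c2)
    (np_level c2 (l u) (b u) (i u) (j u) (l v) (b v) (i v) (j v) h)
    (by
      intro n
      rcases ch_level_val c2 n (l u) (b u) (i u) (j u) (l v) (b v) (i v) (j v) with h | h | ⟨h, h'⟩
      · exact Or.inl h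
      · exact Or.inr (Or.inl h)
      · exact Or.inr (Or.inr ⟨h, not_good h'⟩))
  intro ε hε
  obtain ⟨X₀, hX₀⟩ := h1 ε hε
  refine ⟨X₀, fun X hX S hS => ?_⟩
  have := hX₀ X hX S hS
  simp only [favG_lev hL]
  exact this

/-- assembling the Fourier coefficients -/
theorem main_assemble {d : Dat ι} {U : Finset ι} (hU : U ∈ UsG d.P d.m) (u0 : U) (s : ZMod 2)
    (c2 s3 s5 : ZMod 2) (w : ℕ → ℝ)
    (key : ∀ l : U → ZMod 2, ∀ ε : ℝ, 0 < ε → ∃ X₀ : ℕ, ∀ X : ℕ, X₀ ≤ X → ∀ S : Finset ℕ,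
      S ⊆ sqf X → (∀ n ∈ S, Mem c2 s s3 s5 n) →
      |∑ n ∈ S, ∏ p ∈ n.primeFactors, favG d U l p - kap' u0 s l * ∑ n ∈ S, w n| ≤ ε * X) :
    ∀ ε : ℝ, 0 < ε → ∃ X₀ : ℕ, ∀ X : ℕ, X₀ ≤ X → ∀ S : Finset ℕ, S ⊆ sqf X →
      (∀ n ∈ S, Mem c2 s s3 s5 n) →
      |∑ n ∈ S, mainG d U n - gam d.P d.m U s * ∑ n ∈ S, w n| ≤ ε * X := by
  intro ε hε
  set B : ℝ := ∑ l : U → ZMod 2, |hat' (fun e => sg2 (Qs U d.P e)) l| + 1 with hB'
  have hB0 : 0 < B := by
    have : 0 ≤ ∑ l : U → ZMod 2, |hat' (fun e => sg2 (Qs U d.P e)) l| :=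
      Finset.sum_nonneg fun _ _ => abs_nonneg _
    linarith
  have key2 := fun l => key l (ε / B) (by positivity)
  choose X₀ hX₀ using key2
  refine ⟨∑ l, X₀ l, fun X hX S hS hfam => ?_⟩
  have h1 : ∑ n ∈ S, mainG d U n = (1 / 2 ^ d.m) * ∑ l : U → ZMod 2,
      hat' (fun e => sg2 (Qs U d.P e)) l * ∑ n ∈ S, ∏ p ∈ n.primeFactors, favG d U l p := by
    rw [Finset.sum_congr rfl fun n hn => mainG_eq d hU (mem_sqf.1 (hS hn)).2 (hfam n hn).1.1,
      ← Finset.mul_sum, Finset.sum_comm]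
    congr 1
    refine Finset.sum_congr rfl fun l _ => ?_
    rw [Finset.mul_sum]
  have h2 : gam d.P d.m U s * ∑ n ∈ S, w n = (1 / 2 ^ d.m) * ∑ l : U → ZMod 2,
      hat' (fun e => sg2 (Qs U d.P e)) l * (kap' u0 s l * ∑ n ∈ S, w n) := by
    rw [← gam_hat, ← sum_kap' u0, mul_assoc, Finset.sum_mul]
    congr 1
    refine Finset.sum_congr rfl fun l _ => ?_
    ring
  rw [h1, h2, ← mul_sub, ← Finset.sum_sub_distrib, abs_mul]
  have h3 : |(1 : ℝ) / 2 ^ d.m| ≤ 1 := by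
    rw [abs_of_pos (by positivity), div_le_one (by positivity)]
    exact one_le_pow₀ (by norm_num)
  have h4 : |∑ l : U → ZMod 2, (hat' (fun e => sg2 (Qs U d.P e)) l *
      ∑ n ∈ S, ∏ p ∈ n.primeFactors, favG d U l p
      - hat' (fun e => sg2 (Qs U d.P e)) l * (kap' u0 s l * ∑ n ∈ S, w n))| ≤
      ∑ l : U → ZMod 2, |hat' (fun e => sg2 (Qs U d.P e)) l| * (ε / B * X) := by
    refine (Finset.abs_sum_le_sum_abs _ _).trans (Finset.sum_le_sum fun l _ => ?_)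
    rw [← mul_sub, abs_mul]
    apply mul_le_mul_of_nonneg_left _ (abs_nonneg _)
    apply hX₀ l X _ S hS hfam
    exact (Finset.single_le_sum (f := X₀) (fun _ _ => Nat.zero_le _) (mem_univ l)).trans hX
  calc |(1 : ℝ) / 2 ^ d.m| * |∑ l : U → ZMod 2, (hat' (fun e => sg2 (Qs U d.P e)) l *
      ∑ n ∈ S, ∏ p ∈ n.primeFactors, favG d U l p
      - hat' (fun e => sg2 (Qs U d.P e)) l * (kap' u0 s l * ∑ n ∈ S, w n))|
      ≤ 1 * ∑ l : U → ZMod 2, |hat' (fun e => sg2 (Qs U d.P e)) l| * (ε / B * X) := by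
        gcongr
    _ = (∑ l : U → ZMod 2, |hat' (fun e => sg2 (Qs U d.P e)) l|) * (ε / B * X) := by
        rw [one_mul, Finset.sum_mul]
    _ ≤ B * (ε / B * X) := by
        apply mul_le_mul_of_nonneg_right _ (by positivity)
        linarith
    _ = ε * X := by
        field_simp

/-- the characters are constant on `U` -/
def Cst (c2 : ZMod 2) (b i j : ι → ZMod 2) (U : Finset ι) (u0 : ι) : Prop :=
  ∀ u ∈ U, b u = b u0 ∧ (c2 = 1 → i u = i u0 ∧ j u = j u0)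

/-- **constant characters** -/
theorem mainG_cst (hsw : SW) {d : Dat ι} {c2 : ZMod 2} {b i j : ι → ZMod 2} (hL : Lev d c2 b i j)
    {U : Finset ι} (hU : U ∈ UsG d.P d.m) {u0 : ι} (hu0 : u0 ∈ U) (hc : Cst c2 b i j U u0)
    (s s3 s5 : ZMod 2) (hb : gam d.P d.m U s = 0 ∨ b u0 = 0) :
    ∀ ε : ℝ, 0 < ε → ∃ X₀ : ℕ, ∀ X : ℕ, X₀ ≤ X → ∀ S : Finset ℕ, S ⊆ sqf X →
      (∀ n ∈ S, Mem c2 s s3 s5 n) →
      |∑ n ∈ S, mainG d U n - gam d.P d.m U s * sg2 (c2 * (i u0 * s3 + j u0 * s5)) * S.card|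
        ≤ ε * X := by
  have hcard' : Fintype.card U = d.m := by rw [Fintype.card_coe, (mem_UsG.1 hU).1]
  have hm0 : (0 : ℝ) < d.m := by exact_mod_cast d.hm
  have h0 := main_assemble (d := d) hU ⟨u0, hu0⟩ s c2 s3 s5
    (fun n => sg2 (b u0 * leg 2 n) * sg2 (c2 * (i u0 * s3 + j u0 * s5))) (by
    intro l
    by_cases hl : l = (fun _ => l ⟨u0, hu0⟩)
    · intro ε hε
      refine ⟨0, fun X _ S hS hfam => ?_⟩
      have h1 : ∀ n ∈ S, ∏ p ∈ n.primeFactors, favG d U l p =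
          kap' ⟨u0, hu0⟩ s l * (sg2 (b u0 * leg 2 n) * sg2 (c2 * (i u0 * s3 + j u0 * s5))) := by
        intro n hn
        have hsq := (mem_sqf.1 (hS hn)).2
        have h2 : ∀ p ∈ n.primeFactors, favG d U l p =
            ch (2 + (l ⟨u0, hu0⟩).val) (b u0).val (cC c2 (i u0) (j u0)) p := by
          intro p hp
          have hpn : p ∣ n := Nat.dvd_of_mem_primeFactors hp
          have hg : good c2 p := by
            have := (hfam n hn).1
            exact ⟨Odd.of_dvd_nat this.1 hpn, fun h => (this.2 h).coprime_dvd_left hpn⟩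
          rw [favG_lev hL]
          rw [Finset.sum_congr rfl (g := fun _ =>
            ch (2 + (l ⟨u0, hu0⟩).val) (b u0).val (cC c2 (i u0) (j u0)) p)]
          · rw [Finset.sum_const, Finset.card_univ, hcard', nsmul_eq_mul]
            field_simp
          · intro u _
            rw [ch_level hg, ch_level hg, (hc u u.2).1, congrFun hl u]
            rcases z2 c2 with h | h
            · rw [h]
              ring_nf
            · rw [((hc u u.2).2 h).1, ((hc u u.2).2 h).2]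
        rw [Finset.prod_congr rfl h2, prod_ch hsq, ch_level (hfam n hn).1, (hfam n hn).2.1]
        unfold kap'
        rw [if_pos hl, ← sg2_add, ← sg2_add]
        congr 1
        rcases z2 c2 with h | h
        · rw [h]
          ring
        · rw [((hfam n hn).2.2 h).1, ((hfam n hn).2.2 h).2]
          ring
      rw [Finset.sum_congr rfl h1, ← Finset.mul_sum, sub_self, abs_zero]
      positivity
    · obtain ⟨v, hv⟩ : ∃ v, l v ≠ l ⟨u0, hu0⟩ := by
        by_contra hcon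
        push Not at hcon
        exact hl (funext hcon)
      intro ε hε
      obtain ⟨X₀, hX₀⟩ := fav_nonconst hsw hL hcard' l v ⟨u0, hu0⟩ (Or.inl hv) ε hε
      refine ⟨X₀, fun X hX S hS _ => ?_⟩
      unfold kap'
      rw [if_neg hl, zero_mul, sub_zero]
      exact hX₀ X hX S hS)
  intro ε hε
  obtain ⟨X₀, hX₀⟩ := h0 ε hε
  refine ⟨X₀, fun X hX S hS hfam => ?_⟩
  have h2 := hX₀ X hX S hS hfam
  rcases hb with hb | hb
  · rw [hb] at h2 ⊢
    rw [zero_mul] at h2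
    rw [zero_mul, zero_mul]
    exact h2
  · rw [hb] at h2
    have h3 : ∑ n ∈ S, sg2 ((0 : ZMod 2) * leg 2 n) * sg2 (c2 * (i u0 * s3 + j u0 * s5))
        = sg2 (c2 * (i u0 * s3 + j u0 * s5)) * S.card := by
      rw [Finset.sum_congr rfl (g := fun _ => sg2 (c2 * (i u0 * s3 + j u0 * s5)))]
      · rw [Finset.sum_const, nsmul_eq_mul, mul_comm]
      · intro n _
        rw [zero_mul, sg2_zero, one_mul]
    rw [h3, ← mul_assoc] at h2
    exact h2

/-- **nonconstant characters** -/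
theorem mainG_ncst (hsw : SW) {d : Dat ι} {c2 : ZMod 2} {b i j : ι → ZMod 2}
    (hL : Lev d c2 b i j) {U : Finset ι} (hU : U ∈ UsG d.P d.m) {u0 : ι} (hu0 : u0 ∈ U)
    (hc : ¬ Cst c2 b i j U u0) (s s3 s5 : ZMod 2) :
    ∀ ε : ℝ, 0 < ε → ∃ X₀ : ℕ, ∀ X : ℕ, X₀ ≤ X → ∀ S : Finset ℕ, S ⊆ sqf X →
      (∀ n ∈ S, Mem c2 s s3 s5 n) → |∑ n ∈ S, mainG d U n| ≤ ε * X := by
  have hcard' : Fintype.card U = d.m := by rw [Fintype.card_coe, (mem_UsG.1 hU).1]
  unfold Cst at hc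
  push Not at hc
  obtain ⟨v, hv, hne⟩ := hc
  have h0 := main_assemble (d := d) hU ⟨u0, hu0⟩ s c2 s3 s5 (fun _ => 0) (by
    intro l ε hε
    obtain ⟨X₀, hX₀⟩ := fav_nonconst hsw hL hcard' l ⟨v, hv⟩ ⟨u0, hu0⟩ (by
      by_cases hb : b v = b u0
      · obtain ⟨h1, h2⟩ := hne hb
        right; right
        refine ⟨h1, ?_⟩
        by_cases hi : i v = i u0
        · exact Or.inr (h2 hi)
        · exact Or.inl hi
      · exact Or.inr (Or.inl hb)) ε hε
    refine ⟨X₀, fun X hX S hS _ => ?_⟩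
    simp only [Finset.sum_const_zero, mul_zero, sub_zero]
    exact hX₀ X hX S hS)
  intro ε hε
  obtain ⟨X₀, hX₀⟩ := h0 ε hε
  refine ⟨X₀, fun X hX S hS hfam => ?_⟩
  have h2 := hX₀ X hX S hS hfam
  simp only [Finset.sum_const_zero, mul_zero, sub_zero] at h2
  exact h2

open Classical in
/-- the value of an unlinked set -/
noncomputable def valU (d : Dat ι) (c2 : ZMod 2) (b i j : ι → ZMod 2) (U : Finset ι)
    (s s3 s5 : ZMod 2) (u0 : ι) : ℝ :=
  if Cst c2 b i j U u0 then gam d.P d.m U s * sg2 (c2 * (i u0 * s3 + j u0 * s5)) else 0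

theorem mainG_val (hsw : SW) {d : Dat ι} {c2 : ZMod 2} {b i j : ι → ZMod 2}
    (hL : Lev d c2 b i j) {U : Finset ι} (hU : U ∈ UsG d.P d.m) {u0 : ι} (hu0 : u0 ∈ U)
    (s s3 s5 : ZMod 2) (hb : Cst c2 b i j U u0 → gam d.P d.m U s = 0 ∨ b u0 = 0) :
    ∀ ε : ℝ, 0 < ε → ∃ X₀ : ℕ, ∀ X : ℕ, X₀ ≤ X → ∀ S : Finset ℕ, S ⊆ sqf X →
      (∀ n ∈ S, Mem c2 s s3 s5 n) →
      |∑ n ∈ S, mainG d U n - valU d c2 b i j U s s3 s5 u0 * S.card| ≤ ε * X := by
  unfold valU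
  split_ifs with h
  · exact mainG_cst hsw hL hU hu0 h s s3 s5 (hb h)
  · simp only [zero_mul, sub_zero]
    exact mainG_ncst hsw hL hU hu0 h s s3 s5

end general

end Vale.Agent.P017.H626
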