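import Vale.Agent.P017.H626.C4
import Vale.Agent.P017.H626.I2

/-!
Values of the unlinked sets with characters at the level of the coordinates.
-/

namespace Vale.Agent.P017.H626

open Finset Function

/-- vanishing of the constant, one class -/
lemma gam_vanish' {ι : Type*} [Fintype ι] [DecidableEq ι] (P : ι → ι → ZMod 2) (m : ℕ)
    (U : Finset ι) (s : ZMod 2) (η : U → ZMod 2)
    (h1 : ∑ u, η u = 0) (h2 : ∀ e : U → ZMod 2, ∑ u, e u = s → Qs U P (e + η) = Qs U P e + 1) :
    gam P m U s = 0 := by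
  unfold gam
  have h3 : ∑ e : U → ZMod 2, (if ∑ u, e u = s then sg2 (Qs U P e) else 0)
      = - ∑ e : U → ZMod 2, (if ∑ u, e u = s then sg2 (Qs U P e) else 0) := by
    conv_lhs => rw [← Equiv.sum_comp (Equiv.addRight η)]
    rw [← Finset.sum_neg_distrib]
    refine Finset.sum_congr rfl fun e _ => ?_
    rw [Equiv.coe_addRight]
    have : ∑ u, (e + η) u = ∑ u, e u := by
      simp only [Pi.add_apply, Finset.sum_add_distrib, h1, add_zero]
    rw [this]
    split_ifs with hs
    · rw [h2 e hs, sg2_add, sg2_one]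
      ring
    · ring
  have h4 : ∑ e : U → ZMod 2, (if ∑ u, e u = s then sg2 (Qs U P e) else 0) = 0 := by linarith
  rw [h4, mul_zero]

variable {k : ℕ}

lemma gam_zero_in (X : Submodule (ZMod 2) (Wk k)) (u : Ix k) (hu : u.2 ∈ perpF X) (s : ZMod 2) :
    gam (Phi (k := k)) (2 ^ k) (Uof X u) s = 1 := by
  have hcard : Fintype.card (Uof X u) = 2 ^ k := by rw [Fintype.card_coe, card_Uof]
  have hne : Nonempty (Uof X u) := ⟨⟨u, self_mem_Uof X u⟩⟩
  unfold gam
  have h0 : ∀ a b : Uof X u, Phi (a : Ix k) (b : Ix k) = 0 := by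
    intro a b
    have ha := mem_Uof.1 a.2
    have hb := mem_Uof.1 b.2
    unfold Phi
    have h1 : (a : Ix k).1 + (b : Ix k).1 ∈ X := by
      rw [add_shift (a : Ix k).1 (b : Ix k).1 u.1]
      exact X.add_mem ha.1 hb.1
    have h2 : (b : Ix k).2 ∈ perpF X := by
      have := perp_add hb.2 hu
      rwa [add_add_W] at this
    rw [dt_comm]
    exact mem_perpF.1 h2 _ h1
  have h1 : ∀ e : Uof X u → ZMod 2, Qs (Uof X u) (Phi (k := k)) e = 0 := by
    intro e
    unfold Qs
    refine Finset.sum_eq_zero fun a _ => Finset.sum_eq_zero fun b _ => ?_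
    rw [h0, zero_mul]
    simp
  have h2 : ∑ e : Uof X u → ZMod 2, (if ∑ v, e v = s then sg2 (Qs (Uof X u) Phi e) else 0)
      = 2 ^ (2 ^ k) / 2 := by
    rw [← hcard, ← sum_half (κ := Uof X u) s]
    refine Finset.sum_congr rfl fun e _ => ?_
    rw [h1, sg2_zero]
  rw [h2]
  field_simp

lemma gam_zero_out (X : Submodule (ZMod 2) (Wk k)) (u : Ix k) (hu : u.2 ∉ perpF X) :
    gam (Phi (k := k)) (2 ^ k) (Uof X u) 0 = 0 := by
  rw [mem_perpF] at hu
  push Not at hu
  obtain ⟨x, hx, hxu⟩ := hu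
  have hxu1 : dt x u.2 = 1 := (z2 _).resolve_left hxu
  have hun := (mem_UsG.1 (Uof_mem X u)).2
  have hb : ((u.1 + x, u.2) : Ix k) ∈ Uof X u := by
    rw [mem_Uof]
    dsimp only
    rw [add_self_W, add_comm u.1 x, add_add_W]
    exact ⟨hx, mem_perpF.2 fun y _ => dt_zero_right y⟩
  refine gam_vanish' _ _ _ 0 (Pi.single ⟨u, self_mem_Uof X u⟩ 1
    + Pi.single ⟨(u.1 + x, u.2), hb⟩ 1) ?_ ?_
  · simp only [Pi.add_apply, Finset.sum_add_distrib]
    have h1 : ∀ y : Uof X u, ∑ v : Uof X u, (Pi.single y 1 : Uof X u → ZMod 2) v = 1 := by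
      intro y
      rw [Finset.sum_eq_single y]
      · rw [Pi.single_eq_same]
      · intro v _ hv
        rw [Pi.single_eq_of_ne hv]
      · intro h
        exact absurd (mem_univ _) h
    rw [h1, h1]
    decide
  · intro e he
    rw [← add_assoc, Qs_add_single _ _ hun Phi_self, Qs_add_single _ _ hun Phi_self,
      lin_single (Uof X u) Phi e ⟨u, self_mem_Uof X u⟩ ⟨(u.1 + x, u.2), hb⟩]
    have h1 : ∑ v : Uof X u, Phi (v : Ix k) u * e v
        + ∑ v : Uof X u, Phi (v : Ix k) ((u.1 + x, u.2) : Ix k) * e v = 0 := by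
      rw [← Finset.sum_add_distrib, ← he]
      refine Finset.sum_congr rfl fun v _ => ?_
      rw [← add_mul]
      have : Phi (v : Ix k) u + Phi (v : Ix k) ((u.1 + x, u.2) : Ix k) = 1 := by
        unfold Phi
        dsimp only
        rw [← dt_add_right]
        have e1 : (v : Ix k).1 + u.1 + ((v : Ix k).1 + (u.1 + x)) = x := by
          have : (v : Ix k).1 + u.1 + ((v : Ix k).1 + (u.1 + x))
              = ((v : Ix k).1 + (v : Ix k).1) + (u.1 + u.1) + x := by abel
          rw [this, add_self_W, add_self_W, zero_add, zero_add]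
        rw [e1, dt_comm]
        exact hxu1
      rw [this, one_mul]
    have h2 : Phi u ((u.1 + x, u.2) : Ix k) = 1 := by
      unfold Phi
      dsimp only
      have e1 : u.1 + (u.1 + x) = x := by
        rw [← add_assoc, add_self_W, zero_add]
      rw [e1, dt_comm]
      exact hxu1
    linear_combination h1 + h2

/-- the orthogonal, as a subspace -/
def perpS (X : Submodule (ZMod 2) (Wk k)) : Submodule (ZMod 2) (Wk k) where
  carrier := {y | ∀ x ∈ X, dt x y = 0}
  add_mem' := by
    intro a b ha hb x hx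
    rw [dt_add_right, ha x hx, hb x hx, add_zero]
  zero_mem' := fun x _ => dt_zero_right x
  smul_mem' := by
    intro c y hy x hx
    rcases z2 c with rfl | rfl
    · rw [zero_smul]
      exact dt_zero_right x
    · rw [one_smul]
      exact hy x hx

lemma subF_perpS (X : Submodule (ZMod 2) (Wk k)) : subF (perpS X) = perpF X := by
  ext y
  rw [mem_subF, mem_perpF]
  rfl

lemma perp_perp (X : Submodule (ZMod 2) (Wk k)) (y : Wk k) :
    (∀ z ∈ perpF X, dt z y = 0) ↔ y ∈ X := by
  have h1 : subF X ⊆ perpF (perpS X) := by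
    intro x hx
    rw [mem_perpF]
    intro z hz
    rw [dt_comm]
    exact hz x (mem_subF.1 hx)
  have h2 := card_sub_perp X
  have h3 := card_sub_perp (perpS X)
  rw [subF_perpS] at h3
  have h4 : (perpF (perpS X)).card = (subF X).card := by
    have h5 : 0 < (perpF X).card := by
      rcases Nat.eq_zero_or_pos (perpF X).card with h | h
      · rw [h, mul_zero] at h2
        exact absurd h2.symm (by positivity)
      · exact h
    apply Nat.eq_of_mul_eq_mul_left h5
    rw [h3, mul_comm, h2]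
  have h5 := Finset.eq_of_subset_of_card_le h1 h4.le
  constructor
  · intro h
    rw [← mem_subF, h5, mem_perpF]
    intro z hz
    exact h z (by rw [← subF_perpS, mem_subF]; exact hz)
  · intro hy z hz
    rw [dt_comm]
    exact mem_perpF.1 hz y hy

open Classical in
/-- sums over the sets with a nonzero constant -/
theorem sum_UZ (f : Finset (Ix k) → ℝ) [Fintype (Submodule (ZMod 2) (Wk k))] :
    2 ^ k * ∑ U ∈ UZ k, f U = ∑ u : Ix k, ∑ X : Submodule (ZMod 2) (Wk k), f (Uof X u) := by
  have h1 : 2 ^ k * ∑ U ∈ UZ k, f U = ∑ U ∈ UZ k, ∑ _u ∈ U, f U := by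
    rw [Finset.mul_sum]
    refine Finset.sum_congr rfl fun U hU => ?_
    rw [UZ, Finset.mem_filter] at hU
    rw [Finset.sum_const, (mem_UsG.1 hU.1).1, nsmul_eq_mul]
    push_cast
    rfl
  have h2 : ∑ U ∈ UZ k, ∑ _u ∈ U, f U = ∑ u : Ix k, ∑ U ∈ (UZ k).filter (fun U => u ∈ U), f U := by
    simp_rw [Finset.sum_filter]
    rw [Finset.sum_comm]
    refine Finset.sum_congr rfl fun U _ => ?_
    rw [← Finset.sum_filter]
    congr 1
    ext u
    simp
  rw [h1, h2]
  refine Finset.sum_congr rfl fun u _ => ?_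
  symm
  refine Finset.sum_bij (fun X _ => Uof X u) ?_ ?_ ?_ ?_
  · intro X _
    rw [Finset.mem_filter, UZ, Finset.mem_filter]
    exact ⟨⟨Uof_mem X u, Uof_ZU X u⟩, self_mem_Uof X u⟩
  · intro X _ Y _ h
    exact Uof_inj h
  · intro U hU
    rw [Finset.mem_filter, UZ, Finset.mem_filter] at hU
    exact ⟨subOf U hU.1.1 u hU.2, mem_univ _, Uof_subOf hU.1.1 hU.1.2 hU.2⟩
  · intro X _
    rfl

end Vale.Agent.P017.H626
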