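import Vale.Agent.P017.H626.I3

/-!
The sum of the values of the unlinked sets over all the auxiliary vectors.
-/

namespace Vale.Agent.P017.H626

open Finset Function

variable {k : ℕ}

/-- exponent of the character of conductor `8` -/
def lb (t : ZMod 2) (E : Wk k) (u : Ix k) : ZMod 2 := dt u.2 (E + t • u.1)

/-- exponent of the character of conductor `3` -/
def li (Z : Wk k) (u : Ix k) : ZMod 2 := dt Z u.1

/-- exponent of the character of conductor `5` -/
def lj (A : Wk k) (u : Ix k) : ZMod 2 := dt A u.2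

/-- the data -/
def gD (k : ℕ) (c2 t : ZMod 2) (E A Z : Wk k) : Dat (Ix k) where
  m := 2 ^ k
  a := 1
  b := 0
  c := 15
  A := fun _ => 2
  B := fun u => (lb t E u).val
  C := fun u => cC c2 (li Z u) (lj A u)
  P := Phi
  hm := Nat.one_le_two_pow
  ha := one_ne_zero
  hc := by decide
  hC := fun _ => cC_odd _ _ _
  hCc := fun _ _ hp h => (cC_prime hp h).2
  hP := Phi_self

lemma gD_lev (c2 t : ZMod 2) (E A Z : Wk k) : Lev (gD k c2 t E A Z) c2 (lb t E) (li Z) (lj A) :=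
  ⟨fun _ => rfl, fun _ => rfl, fun _ => rfl⟩

/-- the types: discriminant odd, `4` times odd, `8` times odd -/
def Ty (e2 t s : ZMod 2) : Prop :=
  (e2 = 0 ∧ t = 0 ∧ s = 1) ∨ (e2 = 1 ∧ t = 0 ∧ s = 0) ∨ (e2 = 1 ∧ t = 1)

lemma smul_W (t : ZMod 2) (x : Wk k) : t • x = if t = 1 then x else 0 := by
  rcases z2 t with rfl | rfl
  · rw [zero_smul, if_neg (by decide)]
  · rw [one_smul, if_pos rfl]

lemma mem_shift {X : Submodule (ZMod 2) (Wk k)} {u : Ix k} {x y : Wk k} (hx : x ∈ X)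
    (hy : y ∈ perpF X) : ((u.1 + x, u.2 + y) : Ix k) ∈ Uof X u := by
  rw [mem_Uof]
  dsimp only
  have e1 : u.1 + x + u.1 = x := by
    rw [add_comm u.1 x, add_add_W]
  have e2 : u.2 + y + u.2 = y := by
    rw [add_comm u.2 y, add_add_W]
  rw [e1, e2]
  exact ⟨hx, hy⟩

lemma eq_shift {X : Submodule (ZMod 2) (Wk k)} {u v : Ix k} (h : v ∈ Uof X u) :
    ∃ x ∈ X, ∃ y ∈ perpF X, v = (u.1 + x, u.2 + y) := by
  rw [mem_Uof] at h
  refine ⟨v.1 + u.1, h.1, v.2 + u.2, h.2, ?_⟩
  have e1 : u.1 + (v.1 + u.1) = v.1 := by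
    rw [add_comm, add_add_W]
  have e2 : u.2 + (v.2 + u.2) = v.2 := by
    rw [add_comm, add_add_W]
  rw [e1, e2]

lemma zero_mem_perpF (X : Submodule (ZMod 2) (Wk k)) : (0 : Wk k) ∈ perpF X :=
  mem_perpF.2 fun x _ => dt_zero_right x

/-- the condition on `(u, E)` -/
def P1 (e2 t : ZMod 2) (X : Submodule (ZMod 2) (Wk k)) (u : Ix k) (E : Wk k) : Prop :=
  (t = 1 → u.2 ∈ perpF X ∧ E + u.1 ∈ X) ∧ (t = 0 → E ∈ X) ∧ (e2 = 1 → u.2 ∈ perpF X)

/-- the condition on `(A, Z)` -/
def P2 (c2 : ZMod 2) (X : Submodule (ZMod 2) (Wk k)) (A Z : Wk k) : Prop :=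
  c2 = 1 → A ∈ X ∧ Z ∈ perpF X

/-- constancy of the first character -/
lemma cst_b (t : ZMod 2) (X : Submodule (ZMod 2) (Wk k)) (u : Ix k) (E : Wk k) :
    (∀ v ∈ Uof X u, lb t E v = lb t E u) ↔
      ((t = 1 → u.2 ∈ perpF X ∧ E + u.1 ∈ X) ∧ (t = 0 → E ∈ X)) := by
  rcases z2 t with rfl | rfl
  · have e : ∀ v : Ix k, lb 0 E v = dt v.2 E := by
      intro v
      unfold lb
      rw [zero_smul, add_zero]
    simp only [e]
    constructor
    · intro h
      refine ⟨fun h1 => absurd h1 (by decide), fun _ => ?_⟩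
      rw [← perp_perp]
      intro z hz
      have h1 := h _ (mem_shift (u := u) X.zero_mem hz)
      dsimp only at h1
      rw [dt_add_left] at h1
      exact add_eq_left.1 h1
    · rintro ⟨-, h⟩ v hv
      obtain ⟨x, hx, y, hy, rfl⟩ := eq_shift hv
      dsimp only
      rw [dt_add_left, (perp_perp X E).2 (h trivial) y hy, add_zero]
  · have e : ∀ v : Ix k, lb 1 E v = dt v.2 (E + v.1) := by
      intro v
      unfold lb
      rw [one_smul]
    simp only [e]
    constructor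
    · intro h
      refine ⟨fun _ => ⟨?_, ?_⟩, fun h1 => absurd h1 (by decide)⟩
      · rw [mem_perpF]
        intro x hx
        have h1 := h _ (mem_shift (u := u) hx (zero_mem_perpF X))
        dsimp only at h1
        rw [add_zero, ← add_assoc, dt_add_right] at h1
        rw [dt_comm]
        exact add_eq_left.1 h1
      · rw [← perp_perp]
        intro z hz
        have h1 := h _ (mem_shift (u := u) X.zero_mem hz)
        dsimp only at h1
        rw [add_zero, dt_add_left] at h1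
        exact add_eq_left.1 h1
    · rintro ⟨h, -⟩ v hv
      obtain ⟨h1, h2⟩ := h trivial
      obtain ⟨x, hx, y, hy, rfl⟩ := eq_shift hv
      dsimp only
      have e1 : dt u.2 x = 0 := by
        rw [dt_comm]
        exact mem_perpF.1 h1 x hx
      have e2 : dt y (E + u.1) = 0 := (perp_perp X _).2 h2 y hy
      have e3 : dt y x = 0 := by
        rw [dt_comm]
        exact mem_perpF.1 hy x hx
      rw [← add_assoc, dt_add_left, dt_add_right, dt_add_right y, e1, e2, e3]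
      simp

lemma cst_ij (X : Submodule (ZMod 2) (Wk k)) (u : Ix k) (A Z : Wk k) :
    (∀ v ∈ Uof X u, li Z v = li Z u ∧ lj A v = lj A u) ↔ A ∈ X ∧ Z ∈ perpF X := by
  unfold li lj
  constructor
  · intro h
    refine ⟨?_, ?_⟩
    · rw [← perp_perp]
      intro z hz
      have h1 := (h _ (mem_shift (u := u) X.zero_mem hz)).2
      dsimp only at h1
      rw [dt_add_right] at h1
      rw [dt_comm]
      exact add_eq_left.1 h1
    · rw [mem_perpF]
      intro x hx
      have h1 := (h _ (mem_shift (u := u) hx (zero_mem_perpF X))).1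
      dsimp only at h1
      rw [dt_add_right] at h1
      rw [dt_comm]
      exact add_eq_left.1 h1
  · rintro ⟨hA, hZ⟩ v hv
    obtain ⟨x, hx, y, hy, rfl⟩ := eq_shift hv
    dsimp only
    rw [dt_add_right, dt_add_right]
    have e1 : dt Z x = 0 := by
      rw [dt_comm]
      exact mem_perpF.1 hZ x hx
    have e2 : dt A y = 0 := mem_perpF.1 hy A hA
    rw [e1, e2, add_zero, add_zero]
    exact ⟨rfl, rfl⟩

lemma cst_iff (c2 t : ZMod 2) (X : Submodule (ZMod 2) (Wk k)) (u : Ix k) (E A Z : Wk k) :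
    Cst c2 (lb t E) (li Z) (lj A) (Uof X u) u ↔
      ((t = 1 → u.2 ∈ perpF X ∧ E + u.1 ∈ X) ∧ (t = 0 → E ∈ X)) ∧ P2 c2 X A Z := by
  unfold Cst P2
  rw [← cst_b t X u E]
  constructor
  · intro h
    refine ⟨fun v hv => (h v hv).1, fun hc => ?_⟩
    rw [← cst_ij X u A Z]
    exact fun v hv => (h v hv).2 hc
  · rintro ⟨h1, h2⟩ v hv
    exact ⟨h1 v hv, fun hc => (cst_ij X u A Z).2 (h2 hc) v hv⟩

/-- independence of the base point -/
lemma valU_base {ι : Type*} [Fintype ι] [DecidableEq ι] (d : Dat ι) (c2 : ZMod 2)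
    (b i j : ι → ZMod 2) {U : Finset ι} (s s3 s5 : ZMod 2) {u v : ι} (hu : u ∈ U) (hv : v ∈ U) :
    valU d c2 b i j U s s3 s5 u = valU d c2 b i j U s s3 s5 v := by
  have key : ∀ u v : ι, u ∈ U → v ∈ U → Cst c2 b i j U u → Cst c2 b i j U v := by
    intro u v _ hv h w hw
    refine ⟨(h w hw).1.trans (h v hv).1.symm, fun hc => ⟨?_, ?_⟩⟩
    · exact ((h w hw).2 hc).1.trans ((h v hv).2 hc).1.symm
    · exact ((h w hw).2 hc).2.trans ((h v hv).2 hc).2.symm
  unfold valU
  by_cases h : Cst c2 b i j U u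
  · rw [if_pos h, if_pos (key u v hu hv h)]
    congr 2
    rcases z2 c2 with hc | hc
    · rw [hc, zero_mul, zero_mul]
    · rw [((h v hv).2 hc).1, ((h v hv).2 hc).2]
  · rw [if_neg h, if_neg fun h' => h (key v u hv hu h')]

/-- the value of a coset -/
theorem valU_Uof {e2 t s : ZMod 2} (hT : Ty e2 t s) (c2 : ZMod 2)
    (X : Submodule (ZMod 2) (Wk k)) (u : Ix k) (E A Z : Wk k) (hE : e2 = 0 → E = 0)
    [Decidable (P1 e2 t X u E ∧ P2 c2 X A Z)] :
    sg2 (c2 * dt Z (E + A)) *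
      valU (gD k c2 t E A Z) c2 (lb t E) (li Z) (lj A) (Uof X u) s t t u
      = if P1 e2 t X u E ∧ P2 c2 X A Z then 1 else 0 := by
  have hgP : (gD k c2 t E A Z).P = Phi := rfl
  have hgm : (gD k c2 t E A Z).m = 2 ^ k := rfl
  unfold valU
  rw [cst_iff, hgP, hgm]
  by_cases h2 : P2 c2 X A Z
  swap
  · rw [if_neg (fun h => h2 h.2), if_neg (fun h => h2 h.2), mul_zero]
  have hZA : c2 * dt Z A = 0 := by
    rcases z2 c2 with hc | hc
    · rw [hc, zero_mul]
    · obtain ⟨hA, hZ⟩ := h2 hc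
      rw [dt_comm, mem_perpF.1 hZ A hA, mul_zero]
  have hZX : ∀ x ∈ X, c2 * dt Z x = 0 := by
    intro x hx
    rcases z2 c2 with hc | hc
    · rw [hc, zero_mul]
    · rw [dt_comm, mem_perpF.1 (h2 hc).2 x hx, mul_zero]
  have hAp : ∀ y ∈ perpF X, c2 * dt A y = 0 := by
    intro y hy
    rcases z2 c2 with hc | hc
    · rw [hc, zero_mul]
    · rw [mem_perpF.1 hy A (h2 hc).1, mul_zero]
  rcases hT with ⟨he, ht, hs⟩ | ⟨he, ht, hs⟩ | ⟨he, ht⟩
  · subst he ht hs
    have hE0 := hE rfl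
    subst hE0
    have hP1 : P1 0 0 X u 0 :=
      ⟨fun h => absurd h (by decide), fun _ => X.zero_mem, fun h => absurd h (by decide)⟩
    rw [if_pos ⟨⟨hP1.1, hP1.2.1⟩, h2⟩, if_pos ⟨hP1, h2⟩, gam_of_ZU (Uof_mem X u) (Uof_ZU X u),
      zero_add, hZA, mul_zero, mul_zero, add_zero, mul_zero, sg2_zero]
    norm_num
  · subst he ht hs
    by_cases hEX : E ∈ X
    · rw [if_pos ⟨⟨fun h => absurd h (by decide), fun _ => hEX⟩, h2⟩]
      have e1 : c2 * dt Z (E + A) = 0 := by
        rw [dt_add_right, mul_add, hZX E hEX, hZA, add_zero]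
      by_cases hu : u.2 ∈ perpF X
      · rw [if_pos ⟨⟨fun h => absurd h (by decide), fun _ => hEX, fun _ => hu⟩, h2⟩,
          gam_zero_in X u hu, e1, mul_zero, mul_zero, add_zero, mul_zero, sg2_zero]
        norm_num
      · rw [if_neg (fun h => hu (h.1.2.2 rfl)), gam_zero_out X u hu]
        ring
    · rw [if_neg (fun h => hEX (h.1.2 rfl)), if_neg (fun h => hEX (h.1.2.1 rfl)), mul_zero]
  · subst he ht
    by_cases h3 : u.2 ∈ perpF X ∧ E + u.1 ∈ X
    · rw [if_pos ⟨⟨fun _ => h3, fun h => absurd h (by decide)⟩, h2⟩,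
        if_pos ⟨⟨fun _ => h3, fun h => absurd h (by decide), fun _ => h3.1⟩, h2⟩,
        gam_zero_in X u h3.1, one_mul, ← sg2_add]
      have e1 : c2 * dt Z (E + A) + c2 * (li Z u * 1 + lj A u * 1) = 0 := by
        unfold li lj
        have e2 := hZX _ h3.2
        have e3 := hAp _ h3.1
        rw [dt_add_right] at e2 ⊢
        linear_combination e2 + hZA + e3
      rw [e1, sg2_zero]
    · rw [if_neg (fun h => h3 (h.1.1 rfl)), if_neg (fun h => h3 (h.1.1 rfl)), mul_zero]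

/-- the value vanishes off the good sets, and the first character is trivial -/
theorem lb_zero {e2 t s : ZMod 2} (hT : Ty e2 t s) (c2 : ZMod 2) {U : Finset (Ix k)}
    (hU : U ∈ UsG (Phi (k := k)) (2 ^ k)) {u : Ix k} (hu : u ∈ U) (E A Z : Wk k)
    (hE : e2 = 0 → E = 0) (hc : Cst c2 (lb t E) (li Z) (lj A) U u) :
    gam (Phi (k := k)) (2 ^ k) U s = 0 ∨ lb t E u = 0 := by
  by_cases hZ : ZU U
  swap
  · exact Or.inl (gam_of_not hU hZ s)
  have hX := Uof_subOf hU hZ hu
  set X := subOf U hU u hu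
  rw [← hX] at hc ⊢
  rw [cst_iff] at hc
  rcases hT with ⟨he, ht, hs⟩ | ⟨he, ht, hs⟩ | ⟨he, ht⟩
  · right
    subst ht
    unfold lb
    rw [hE he, zero_smul, add_zero, dt_zero_right]
  · subst ht hs
    by_cases h2 : u.2 ∈ perpF X
    · right
      unfold lb
      rw [zero_smul, add_zero, dt_comm]
      exact mem_perpF.1 h2 E (hc.1.2 rfl)
    · exact Or.inl (gam_zero_out X u h2)
  · subst ht
    right
    obtain ⟨h1, h2⟩ := hc.1.1 rfl
    unfold lb
    rw [one_smul, dt_comm]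
    exact mem_perpF.1 h1 _ h2

end Vale.Agent.P017.H626
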