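import Vale.Agent.P017.H626.I4

/-!
The total of the values.
-/

namespace Vale.Agent.P017.H626

open Finset Function

variable {k : ℕ}

open Classical in
/-- allowed vectors for the auxiliary prime -/
noncomputable def fW (k : ℕ) (e : ZMod 2) : Finset (Wk k) :=
  univ.filter fun E => e = 0 → E = 0

lemma mem_fW {e : ZMod 2} {E : Wk k} : E ∈ fW k e ↔ (e = 0 → E = 0) := by
  classical
  unfold fW
  rw [Finset.mem_filter]
  exact ⟨fun h => h.2, fun h => ⟨mem_univ _, h⟩⟩

lemma fW_zero : fW k 0 = {0} := by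
  ext E
  rw [mem_fW, Finset.mem_singleton]
  exact ⟨fun h => h rfl, fun h _ => h⟩

lemma fW_one : fW k 1 = univ := by
  ext E
  rw [mem_fW]
  exact ⟨fun _ => mem_univ _, fun _ h => absurd h (by decide)⟩

open Classical in
lemma sum_mem_sub (X : Submodule (ZMod 2) (Wk k)) :
    ∑ E : Wk k, (if E ∈ X then (1 : ℝ) else 0) = (subF X).card := by
  rw [← Finset.sum_filter, Finset.sum_const, nsmul_eq_mul, mul_one]
  rfl

open Classical in
lemma sum_mem_perp (X : Submodule (ZMod 2) (Wk k)) :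
    ∑ E : Wk k, (if E ∈ perpF X then (1 : ℝ) else 0) = (perpF X).card := by
  rw [Finset.sum_ite_mem, Finset.univ_inter, Finset.sum_const, nsmul_eq_mul, mul_one]

lemma card_mul (X : Submodule (ZMod 2) (Wk k)) :
    ((subF X).card : ℝ) * (perpF X).card = 2 ^ k := by
  have := card_sub_perp X
  exact_mod_cast this

lemma card_Wk : (Fintype.card (Wk k) : ℝ) = 2 ^ k := by
  rw [Fintype.card_fun, ZMod.card, Fintype.card_fin]
  push_cast
  rfl

open Classical in
lemma sum_P2 (c2 : ZMod 2) (X : Submodule (ZMod 2) (Wk k)) :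
    ∑ A ∈ fW k c2, ∑ Z : Wk k, (if P2 c2 X A Z then (1 : ℝ) else 0) = 2 ^ k := by
  rcases z2 c2 with rfl | rfl
  · rw [fW_zero, Finset.sum_singleton]
    have h1 : ∀ Z : Wk k, P2 0 X 0 Z := fun Z h => absurd h (by decide)
    simp only [h1, if_true]
    rw [Finset.sum_const, Finset.card_univ, nsmul_eq_mul, mul_one, card_Wk]
  · rw [fW_one]
    have h1 : ∀ A Z : Wk k, (if P2 1 X A Z then (1 : ℝ) else 0)
        = (if A ∈ X then 1 else 0) * (if Z ∈ perpF X then 1 else 0) := by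
      intro A Z
      by_cases hA : A ∈ X <;> by_cases hZ : Z ∈ perpF X
      · have hP : P2 1 X A Z := fun _ => ⟨hA, hZ⟩
        rw [if_pos hP, if_pos hA, if_pos hZ, mul_one]
      · rw [if_neg (fun h => hZ (h rfl).2), if_neg hZ, mul_zero]
      · rw [if_neg (fun h => hA (h rfl).1), if_neg hA, zero_mul]
      · rw [if_neg (fun h => hA (h rfl).1), if_neg hA, zero_mul]
    simp_rw [h1, ← Finset.mul_sum, ← Finset.sum_mul]
    rw [sum_mem_sub, sum_mem_perp, card_mul]

open Classical in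
lemma sum_P1 {e2 t s : ZMod 2} (hT : Ty e2 t s) (X : Submodule (ZMod 2) (Wk k)) :
    ∑ u : Ix k, ∑ E ∈ fW k e2, (if P1 e2 t X u E then (1 : ℝ) else 0) = 2 ^ k * 2 ^ k := by
  rcases hT with ⟨he, ht, hs⟩ | ⟨he, ht, hs⟩ | ⟨he, ht⟩
  · subst he ht
    rw [fW_zero]
    have h1 : ∀ u : Ix k, P1 0 0 X u 0 := fun u =>
      ⟨fun h => absurd h (by decide), fun _ => X.zero_mem, fun h => absurd h (by decide)⟩
    simp only [Finset.sum_singleton, h1, if_true]
    rw [Finset.sum_const, Finset.card_univ, nsmul_eq_mul, mul_one, Fintype.card_prod]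
    push_cast
    rw [card_Wk]
  · subst he ht
    rw [fW_one]
    have h1 : ∀ (u : Ix k) (E : Wk k), (if P1 1 0 X u E then (1 : ℝ) else 0)
        = (if u.2 ∈ perpF X then 1 else 0) * (if E ∈ X then 1 else 0) := by
      intro u E
      by_cases hA : u.2 ∈ perpF X <;> by_cases hZ : E ∈ X
      · rw [if_pos ⟨fun h => absurd h (by decide), fun _ => hZ, fun _ => hA⟩, if_pos hA, if_pos hZ,
          mul_one]
      · rw [if_neg (fun h => hZ (h.2.1 rfl)), if_neg hZ, mul_zero]
      · rw [if_neg (fun h => hA (h.2.2 rfl)), if_neg hA, zero_mul]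
      · rw [if_neg (fun h => hA (h.2.2 rfl)), if_neg hA, zero_mul]
    simp_rw [h1, ← Finset.mul_sum]
    rw [sum_mem_sub, ← Finset.sum_mul, Fintype.sum_prod_type]
    simp only [sum_mem_perp]
    rw [Finset.sum_const, Finset.card_univ, nsmul_eq_mul, card_Wk, mul_assoc,
      mul_comm ((perpF X).card : ℝ), card_mul]
  · subst he ht
    rw [fW_one]
    have h1 : ∀ (u : Ix k) (E : Wk k), (if P1 1 1 X u E then (1 : ℝ) else 0)
        = (if u.2 ∈ perpF X then 1 else 0) * (if E + u.1 ∈ X then 1 else 0) := by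
      intro u E
      by_cases hA : u.2 ∈ perpF X <;> by_cases hZ : E + u.1 ∈ X
      · rw [if_pos ⟨fun _ => ⟨hA, hZ⟩, fun h => absurd h (by decide), fun _ => hA⟩, if_pos hA,
          if_pos hZ, mul_one]
      · rw [if_neg (fun h => hZ (h.1 rfl).2), if_neg hZ, mul_zero]
      · rw [if_neg (fun h => hA (h.2.2 rfl)), if_neg hA, zero_mul]
      · rw [if_neg (fun h => hA (h.2.2 rfl)), if_neg hA, zero_mul]
    have h2 : ∀ u : Ix k, ∑ E : Wk k, (if E + u.1 ∈ X then (1 : ℝ) else 0) = (subF X).card := by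
      intro u
      rw [← sum_mem_sub]
      exact Equiv.sum_comp (Equiv.addRight u.1) (fun E => if E ∈ X then (1 : ℝ) else 0)
    simp_rw [h1, ← Finset.mul_sum, h2]
    rw [← Finset.sum_mul, Fintype.sum_prod_type]
    simp only [sum_mem_perp]
    rw [Finset.sum_const, Finset.card_univ, nsmul_eq_mul, card_Wk, mul_assoc,
      mul_comm ((perpF X).card : ℝ), card_mul]

open Classical in
/-- a base point -/
noncomputable def bp (U : Finset (Ix k)) : Ix k := if h : U.Nonempty then h.choose else 0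

lemma bp_mem {U : Finset (Ix k)} (h : U.Nonempty) : bp U ∈ U := by
  unfold bp
  rw [dif_pos h]
  exact h.choose_spec

open Classical in
/-- **the total of the values** -/
theorem total {e2 t s : ZMod 2} (hT : Ty e2 t s) (c2 : ZMod 2) :
    ∑ E ∈ fW k e2, ∑ A ∈ fW k c2, ∑ Z : Wk k, sg2 (c2 * dt Z (E + A)) *
      ∑ U ∈ UsG (Phi (k := k)) (2 ^ k),
        valU (gD k c2 t E A Z) c2 (lb t E) (li Z) (lj A) U s t t (bp U)
      = 2 ^ k * (2 ^ k * Nsub k) := by
  have hfin : Finite (Submodule (ZMod 2) (Wk k)) :=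
    Finite.of_injective (fun X : Submodule (ZMod 2) (Wk k) => (X : Set (Wk k)))
      SetLike.coe_injective
  have := Fintype.ofFinite (Submodule (ZMod 2) (Wk k))
  -- restriction to the good sets
  have h1 : ∀ E A Z : Wk k, ∑ U ∈ UsG (Phi (k := k)) (2 ^ k),
      valU (gD k c2 t E A Z) c2 (lb t E) (li Z) (lj A) U s t t (bp U)
      = ∑ U ∈ UZ k, valU (gD k c2 t E A Z) c2 (lb t E) (li Z) (lj A) U s t t (bp U) := by
    intro E A Z
    unfold UZ
    rw [Finset.sum_filter]
    refine Finset.sum_congr rfl fun U hU => ?_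
    split_ifs with hZ
    · rfl
    · unfold valU
      have : gam (gD k c2 t E A Z).P (gD k c2 t E A Z).m U s = 0 := gam_of_not hU hZ s
      rw [this, zero_mul, ite_self]
  have h2 : ∀ E ∈ fW k e2, ∀ A Z : Wk k, 2 ^ k * (sg2 (c2 * dt Z (E + A)) *
      ∑ U ∈ UZ k, valU (gD k c2 t E A Z) c2 (lb t E) (li Z) (lj A) U s t t (bp U))
      = ∑ u : Ix k, ∑ X : Submodule (ZMod 2) (Wk k),
        (if P1 e2 t X u E then (1 : ℝ) else 0) * (if P2 c2 X A Z then 1 else 0) := by
    intro E hE A Z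
    rw [mul_left_comm, sum_UZ, Finset.mul_sum]
    refine Finset.sum_congr rfl fun u _ => ?_
    rw [Finset.mul_sum]
    refine Finset.sum_congr rfl fun X _ => ?_
    rw [valU_base _ _ _ _ _ s t t (bp_mem ⟨u, self_mem_Uof X u⟩) (self_mem_Uof X u),
      valU_Uof hT c2 X u E A Z (mem_fW.1 hE)]
    by_cases ha : P1 e2 t X u E <;> by_cases hb : P2 c2 X A Z <;> simp [ha, hb]
  have h3 : (2 : ℝ) ^ k ≠ 0 := by positivity
  apply mul_left_cancel₀ h3
  rw [Finset.mul_sum]
  have h4 : ∑ E ∈ fW k e2, 2 ^ k * ∑ A ∈ fW k c2, ∑ Z : Wk k, sg2 (c2 * dt Z (E + A)) *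
      ∑ U ∈ UsG (Phi (k := k)) (2 ^ k),
        valU (gD k c2 t E A Z) c2 (lb t E) (li Z) (lj A) U s t t (bp U)
      = ∑ E ∈ fW k e2, ∑ A ∈ fW k c2, ∑ Z : Wk k, ∑ u : Ix k, ∑ X : Submodule (ZMod 2) (Wk k),
        (if P1 e2 t X u E then (1 : ℝ) else 0) * (if P2 c2 X A Z then 1 else 0) := by
    refine Finset.sum_congr rfl fun E hE => ?_
    rw [Finset.mul_sum]
    refine Finset.sum_congr rfl fun A _ => ?_
    rw [Finset.mul_sum]
    refine Finset.sum_congr rfl fun Z _ => ?_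
    rw [h1, h2 E hE]
  rw [h4]
  have h5 : ∑ E ∈ fW k e2, ∑ A ∈ fW k c2, ∑ Z : Wk k, ∑ u : Ix k,
      ∑ X : Submodule (ZMod 2) (Wk k),
        (if P1 e2 t X u E then (1 : ℝ) else 0) * (if P2 c2 X A Z then 1 else 0)
      = ∑ X : Submodule (ZMod 2) (Wk k), (∑ u : Ix k, ∑ E ∈ fW k e2,
        (if P1 e2 t X u E then (1 : ℝ) else 0)) *
        (∑ A ∈ fW k c2, ∑ Z : Wk k, (if P2 c2 X A Z then (1 : ℝ) else 0)) := by
    have e1 : ∀ X : Submodule (ZMod 2) (Wk k), (∑ u : Ix k, ∑ E ∈ fW k e2,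
        (if P1 e2 t X u E then (1 : ℝ) else 0)) *
        (∑ A ∈ fW k c2, ∑ Z : Wk k, (if P2 c2 X A Z then (1 : ℝ) else 0))
        = ∑ E ∈ fW k e2, ∑ A ∈ fW k c2, ∑ Z : Wk k, ∑ u : Ix k,
          (if P1 e2 t X u E then (1 : ℝ) else 0) * (if P2 c2 X A Z then 1 else 0) := by
      intro X
      rw [Finset.sum_comm, Finset.sum_mul]
      refine Finset.sum_congr rfl fun E _ => ?_
      rw [Finset.mul_sum]
      refine Finset.sum_congr rfl fun A _ => ?_
      rw [Finset.mul_sum]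
      refine Finset.sum_congr rfl fun Z _ => ?_
      rw [Finset.sum_mul]
    simp_rw [e1]
    rw [Finset.sum_comm (s := (univ : Finset (Submodule (ZMod 2) (Wk k))))]
    refine Finset.sum_congr rfl fun E _ => ?_
    rw [Finset.sum_comm (s := (univ : Finset (Submodule (ZMod 2) (Wk k))))]
    refine Finset.sum_congr rfl fun A _ => ?_
    rw [Finset.sum_comm (s := (univ : Finset (Submodule (ZMod 2) (Wk k))))]
    refine Finset.sum_congr rfl fun Z _ => ?_
    rw [Finset.sum_comm]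
  rw [h5]
  simp_rw [sum_P1 hT, sum_P2]
  rw [Finset.sum_const, Finset.card_univ, nsmul_eq_mul]
  unfold Nsub
  rw [Nat.card_eq_fintype_card]
  ring

end Vale.Agent.P017.H626
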