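import Vale.Agent.P017.H626.I5

/-!
Powers of the number of kernel vectors, with auxiliary primes.
-/

namespace Vale.Agent.P017.H626

open Finset Function Vale.Agent.P014.H580 Vale.Agent.P014.FM

/-- the equations of the kernel -/
def EqA {S : Type*} [Fintype S] (a : S → S → ZMod 2) (g h r : S → ZMod 2) (e2 t c2 : ZMod 2)
    (x : S → ZMod 2) (ε α : ZMod 2) : Prop :=
  (e2 = 0 → ε = 0) ∧ (c2 = 0 → α = 0) ∧
  (∀ q, ∑ p, a p q * (x p + x q) + g q * (ε + t * x q) + h q * α = 0) ∧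
  c2 * (∑ p, r p * x p + ε + α) = 0

/-- the kernel -/
abbrev KrA {S : Type*} [Fintype S] (a : S → S → ZMod 2) (g h r : S → ZMod 2) (e2 t c2 : ZMod 2) :=
  {z : (S → ZMod 2) × ZMod 2 × ZMod 2 // EqA a g h r e2 t c2 z.1 z.2.1 z.2.2}

section colour

variable {S : Type*} [Fintype S] [DecidableEq S] (a : S → S → ZMod 2) (g h r : S → ZMod 2)
  (e2 t c2 : ZMod 2) (k : ℕ)

lemma dt_fun_zero {k : ℕ} (y : Wk k) (f : Fin k → ZMod 2) : dt y f = ∑ i, y i * f i := rfl

/-- the sum over the second coordinates -/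
lemma sum_Y (X : S → Wk k) (E A : Wk k) :
    ∑ Y : S → Wk k, (∏ p, ∏ q, sg2 (a p q * dt (Y q) (X p + X q))) *
      ∏ q, sg2 (g q * dt (Y q) (E + t • X q) + h q * dt A (Y q))
    = if (∀ q, (fun i => ∑ p, a p q * (X p i + X q i) + g q * (E i + t * X q i) + h q * A i)
        = (0 : Wk k)) then (2 ^ k : ℝ) ^ (Fintype.card S) else 0 := by
  classical
  have e1 : ∀ Y : S → Wk k, (∏ p, ∏ q, sg2 (a p q * dt (Y q) (X p + X q))) *
      ∏ q, sg2 (g q * dt (Y q) (E + t • X q) + h q * dt A (Y q))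
      = ∏ q, sg2 (dt (Y q) (fun i => ∑ p, a p q * (X p i + X q i) + g q * (E i + t * X q i)
          + h q * A i)) := by
    intro Y
    rw [Finset.prod_comm, ← Finset.prod_mul_distrib]
    refine Finset.prod_congr rfl fun q _ => ?_
    rw [← sg2_sum, ← sg2_add]
    congr 1
    unfold dt
    simp_rw [Finset.mul_sum]
    rw [Finset.sum_comm, ← Finset.sum_add_distrib, ← Finset.sum_add_distrib]
    refine Finset.sum_congr rfl fun i _ => ?_
    rw [mul_add, mul_add, Finset.mul_sum]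
    simp only [Pi.add_apply, Pi.smul_apply, smul_eq_mul]
    have : ∑ p, a p q * (Y q i * (X p i + X q i)) = ∑ p, Y q i * (a p q * (X p i + X q i)) :=
      Finset.sum_congr rfl fun p _ => by ring
    rw [this]
    ring
  simp_rw [e1]
  have e2' := Finset.prod_univ_sum (t := fun _ : S => (univ : Finset (Wk k)))
    (f := fun q y => sg2 (dt y (fun i => ∑ p, a p q * (X p i + X q i) + g q * (E i + t * X q i)
          + h q * A i)))
  rw [Fintype.piFinset_univ] at e2'
  rw [← e2']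
  simp_rw [sum_sg_dt]
  split_ifs with hX
  · rw [Finset.prod_congr rfl fun q _ => if_pos (hX q), Finset.prod_const, Finset.card_univ]
  · push Not at hX
    obtain ⟨q, hq⟩ := hX
    exact Finset.prod_eq_zero (mem_univ q) (if_neg hq)

omit [DecidableEq S] in
/-- the sum over `Z` -/
lemma sum_Z (X : S → Wk k) (E A : Wk k) :
    ∑ Z : Wk k, sg2 (c2 * dt Z (E + A)) * ∏ q, sg2 (c2 * (r q * dt Z (X q)))
    = if (fun i => c2 * (∑ p, r p * X p i + E i + A i)) = (0 : Wk k) then (2 ^ k : ℝ) else 0 := by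
  rw [← sum_sg_dt]
  refine Finset.sum_congr rfl fun Z _ => ?_
  rw [← sg2_sum, ← sg2_add]
  congr 1
  unfold dt
  simp_rw [Finset.mul_sum]
  rw [Finset.sum_comm, ← Finset.sum_add_distrib]
  refine Finset.sum_congr rfl fun i _ => ?_
  rw [Pi.add_apply]
  have : ∑ x, c2 * (r x * (Z i * X x i)) = c2 * Z i * ∑ p, r p * X p i := by
    rw [Finset.mul_sum]
    exact Finset.sum_congr rfl fun p _ => by ring
  rw [this]
  ring

omit [Fintype S] [DecidableEq S] in
lemma ite4 (p q r s : Prop) [Decidable r] [Decidable s] [Decidable (p ∧ q ∧ r ∧ s)] (hp : p)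
    (hq : q) : (if r then (1 : ℝ) else 0) * (if s then 1 else 0) = if p ∧ q ∧ r ∧ s then 1 else 0 := by
  by_cases hr : r <;> by_cases hs : s <;> simp [hp, hq, hr, hs]

open Classical in
/-- counting -/
lemma count_KrA : ((Nat.card (KrA a g h r e2 t c2) : ℝ)) ^ k =
    ∑ E ∈ fW k e2, ∑ A ∈ fW k c2, ∑ X : S → Wk k,
      (if (∀ q, (fun i => ∑ p, a p q * (X p i + X q i) + g q * (E i + t * X q i) + h q * A i)
        = (0 : Wk k)) then (1 : ℝ) else 0) *
      (if (fun i => c2 * (∑ p, r p * X p i + E i + A i)) = (0 : Wk k) then 1 else 0) := by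
  have h1 : ∑ E ∈ fW k e2, ∑ A ∈ fW k c2, ∑ X : S → Wk k,
      (if (∀ q, (fun i => ∑ p, a p q * (X p i + X q i) + g q * (E i + t * X q i) + h q * A i)
        = (0 : Wk k)) then (1 : ℝ) else 0) *
      (if (fun i => c2 * (∑ p, r p * X p i + E i + A i)) = (0 : Wk k) then 1 else 0)
      = ∑ z : Wk k × Wk k × (S → Wk k), if ((e2 = 0 → z.1 = 0) ∧ (c2 = 0 → z.2.1 = 0) ∧
        (∀ q, (fun i => ∑ p, a p q * (z.2.2 p i + z.2.2 q i) + g q * (z.1 i + t * z.2.2 q i)
          + h q * z.2.1 i) = (0 : Wk k)) ∧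
        (fun i => c2 * (∑ p, r p * z.2.2 p i + z.1 i + z.2.1 i)) = (0 : Wk k)) then (1 : ℝ)
          else 0 := by
    rw [Fintype.sum_prod_type]
    unfold fW
    rw [Finset.sum_filter]
    refine Finset.sum_congr rfl fun E _ => ?_
    rw [Fintype.sum_prod_type]
    split_ifs with hE
    · rw [Finset.sum_filter]
      refine Finset.sum_congr rfl fun A _ => ?_
      split_ifs with hA
      · refine Finset.sum_congr rfl fun X _ => ?_
        exact ite4 _ _ _ _ hE hA
      · refine (Finset.sum_eq_zero fun X _ => ?_).symm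
        rw [if_neg (fun h => hA h.2.1)]
    · refine (Finset.sum_eq_zero fun A _ => Finset.sum_eq_zero fun X _ => ?_).symm
      rw [if_neg (fun h => hE h.1)]
  rw [h1, ← Finset.sum_filter, Finset.sum_const, nsmul_eq_mul, mul_one]
  have e1 : Nat.card (KrA a g h r e2 t c2) ^ k = Nat.card (Fin k → KrA a g h r e2 t c2) := by
    rw [Nat.card_fun, Nat.card_eq_fintype_card (α := Fin k), Fintype.card_fin]
  have e2' : Nat.card (Fin k → KrA a g h r e2 t c2) =
      (univ.filter fun z : Wk k × Wk k × (S → Wk k) => ((e2 = 0 → z.1 = 0) ∧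
        (c2 = 0 → z.2.1 = 0) ∧
        (∀ q, (fun i => ∑ p, a p q * (z.2.2 p i + z.2.2 q i) + g q * (z.1 i + t * z.2.2 q i)
          + h q * z.2.1 i) = (0 : Wk k)) ∧
        (fun i => c2 * (∑ p, r p * z.2.2 p i + z.1 i + z.2.1 i)) = (0 : Wk k))).card := by
    rw [Nat.card_eq_fintype_card, ← Finset.card_univ]
    symm
    refine Finset.card_bij'
      (fun z hz => fun i => ⟨(fun p => z.2.2 p i, z.1 i, z.2.1 i), ?_⟩)
      (fun f _ => (fun i => (f i).1.2.1, fun i => (f i).1.2.2, fun p i => (f i).1.1 p))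
      ?_ ?_ ?_ ?_
    · rw [Finset.mem_filter] at hz
      obtain ⟨-, h1, h2, h3, h4⟩ := hz
      refine ⟨fun he => ?_, fun hc => ?_, fun q => ?_, ?_⟩
      · show z.1 i = 0
        rw [h1 he]
        rfl
      · show z.2.1 i = 0
        rw [h2 hc]
        rfl
      · exact congrFun (h3 q) i
      · exact congrFun h4 i
    · intro z hz
      exact mem_univ _
    · intro f _
      rw [Finset.mem_filter]
      refine ⟨mem_univ _, fun he => ?_, fun hc => ?_, fun q => ?_, ?_⟩
      · funext i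
        exact (f i).2.1 he
      · funext i
        exact (f i).2.2.1 hc
      · funext i
        exact (f i).2.2.2.1 q
      · funext i
        exact (f i).2.2.2.2
    · intro z hz
      rfl
    · intro f _
      rfl
  have e3 : ((Nat.card (KrA a g h r e2 t c2) : ℝ)) ^ k
      = ((Nat.card (KrA a g h r e2 t c2) ^ k : ℕ) : ℝ) := by push_cast; rfl
  rw [e3, e1, e2']

theorem kerA_pow : ((Nat.card (KrA a g h r e2 t c2) : ℝ)) ^ k =
    (1 / 2 ^ k) * ∑ E ∈ fW k e2, ∑ A ∈ fW k c2, ∑ Z : Wk k, sg2 (c2 * dt Z (E + A)) *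
      ((1 / (2 ^ k : ℝ)) ^ (Fintype.card S) *
        ∑ c : S → Ix k, (∏ p, ∏ q, sg2 (a p q * Phi (c p) (c q))) *
          ∏ q, sg2 (g q * lb t E (c q) + h q * lj A (c q) + c2 * (r q * li Z (c q)))) := by
  classical
  have h1 : ∀ E A Z : Wk k, ∑ c : S → Ix k, (∏ p, ∏ q, sg2 (a p q * Phi (c p) (c q))) *
          ∏ q, sg2 (g q * lb t E (c q) + h q * lj A (c q) + c2 * (r q * li Z (c q)))
      = ∑ X : S → Wk k, (∏ q, sg2 (c2 * (r q * dt Z (X q)))) *
          ∑ Y : S → Wk k, (∏ p, ∏ q, sg2 (a p q * dt (Y q) (X p + X q))) *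
            ∏ q, sg2 (g q * dt (Y q) (E + t • X q) + h q * dt A (Y q)) := by
    intro E A Z
    simp_rw [Finset.mul_sum]
    rw [← Fintype.sum_prod_type'
      (f := fun (X Y : S → Wk k) => (∏ q, sg2 (c2 * (r q * dt Z (X q)))) *
          ((∏ p, ∏ q, sg2 (a p q * dt (Y q) (X p + X q))) *
            ∏ q, sg2 (g q * dt (Y q) (E + t • X q) + h q * dt A (Y q))))]
    refine Fintype.sum_equiv (Equiv.arrowProdEquivProdArrow S (fun _ => Wk k) (fun _ => Wk k)) _ _
      (fun c => ?_)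
    have : ∏ q, sg2 (g q * lb t E (c q) + h q * lj A (c q) + c2 * (r q * li Z (c q)))
        = (∏ q, sg2 (g q * lb t E (c q) + h q * lj A (c q))) *
          ∏ q, sg2 (c2 * (r q * li Z (c q))) := by
      rw [← Finset.prod_mul_distrib]
      exact Finset.prod_congr rfl fun q _ => sg2_add _ _
    rw [this, mul_comm (∏ q, sg2 (g q * lb t E (c q) + h q * lj A (c q))), mul_left_comm]
    rfl
  simp_rw [h1, sum_Y]
  rw [count_KrA]
  have h2 : ∀ E A : Wk k, ∑ Z : Wk k, sg2 (c2 * dt Z (E + A)) *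
      ((1 / (2 ^ k : ℝ)) ^ (Fintype.card S) * ∑ X : S → Wk k,
        (∏ q, sg2 (c2 * (r q * dt Z (X q)))) *
        (if (∀ q, (fun i => ∑ p, a p q * (X p i + X q i) + g q * (E i + t * X q i) + h q * A i)
        = (0 : Wk k)) then (2 ^ k : ℝ) ^ (Fintype.card S) else 0))
      = 2 ^ k * ∑ X : S → Wk k,
      (if (∀ q, (fun i => ∑ p, a p q * (X p i + X q i) + g q * (E i + t * X q i) + h q * A i)
        = (0 : Wk k)) then (1 : ℝ) else 0) *
      (if (fun i => c2 * (∑ p, r p * X p i + E i + A i)) = (0 : Wk k) then 1 else 0) := by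
    intro E A
    have hne : (2 ^ k : ℝ) ≠ 0 := by positivity
    have h3 : ∀ Z : Wk k, sg2 (c2 * dt Z (E + A)) *
      ((1 / (2 ^ k : ℝ)) ^ (Fintype.card S) * ∑ X : S → Wk k,
        (∏ q, sg2 (c2 * (r q * dt Z (X q)))) *
        (if (∀ q, (fun i => ∑ p, a p q * (X p i + X q i) + g q * (E i + t * X q i) + h q * A i)
        = (0 : Wk k)) then (2 ^ k : ℝ) ^ (Fintype.card S) else 0))
        = ∑ X : S → Wk k, (if (∀ q, (fun i => ∑ p, a p q * (X p i + X q i)
          + g q * (E i + t * X q i) + h q * A i) = (0 : Wk k)) then (1 : ℝ) else 0) *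
          (sg2 (c2 * dt Z (E + A)) * ∏ q, sg2 (c2 * (r q * dt Z (X q)))) := by
      intro Z
      rw [Finset.mul_sum, Finset.mul_sum]
      refine Finset.sum_congr rfl fun X _ => ?_
      split_ifs
      · have : (1 / (2 ^ k : ℝ)) ^ (Fintype.card S) * (2 ^ k : ℝ) ^ (Fintype.card S) = 1 := by
          rw [← mul_pow, one_div_mul_cancel hne, one_pow]
        calc sg2 (c2 * dt Z (E + A)) * ((1 / (2 ^ k : ℝ)) ^ (Fintype.card S) *
            ((∏ q, sg2 (c2 * (r q * dt Z (X q)))) * (2 ^ k : ℝ) ^ (Fintype.card S)))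
            = ((1 / (2 ^ k : ℝ)) ^ (Fintype.card S) * (2 ^ k : ℝ) ^ (Fintype.card S)) *
              (sg2 (c2 * dt Z (E + A)) * ∏ q, sg2 (c2 * (r q * dt Z (X q)))) := by ring
          _ = _ := by rw [this]
      · ring
    simp_rw [h3]
    rw [Finset.sum_comm, Finset.mul_sum]
    refine Finset.sum_congr rfl fun X _ => ?_
    rw [← Finset.mul_sum, sum_Z]
    split_ifs <;> ring
  simp_rw [h2, ← Finset.mul_sum]
  rw [← mul_assoc, one_div_mul_cancel (by positivity), one_mul]

end colour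

end Vale.Agent.P017.H626
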