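import Vale.Agent.P017.H626.I6

/-!
The kernel attached to an integer, and its moments as sums over factorisations.
-/

namespace Vale.Agent.P017.H626

open Finset Function Vale.Agent.P014.H580 Vale.Agent.P014.FM

/-- the kernel attached to `n` -/
abbrev KnA (e2 t c2 : ZMod 2) (n : ℕ) :=
  KrA (S := n.primeFactors) (fun p q => leg p q) (fun q => leg 2 q) (fun q => leg 5 q)
    (fun p => leg p 3) e2 t c2

/-- its cardinality -/
noncomputable def NA (e2 t c2 : ZMod 2) (n : ℕ) : ℕ := Nat.card (KnA e2 t c2 n)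

lemma ch_prod {κ : Type*} (s : Finset κ) (a b c : ℕ) (f : κ → ℕ) :
    ch a b c (∏ i ∈ s, f i) = ∏ i ∈ s, ch a b c (f i) := by
  classical
  induction s using Finset.induction_on with
  | empty => simp [ch_one]
  | insert i s hi ih => rw [Finset.prod_insert hi, Finset.prod_insert hi, ch_mul, ih]

/-- the part without characters -/
lemma wt_plain {n : ℕ} {k : ℕ} (c : n.primeFactors → Ix k) :
    ∏ u : Ix k, ∏ v : Ix k, (if Phi u v = 1 then J (Dc' c u) (Dc' c v) else 1)
      = ∏ p : n.primeFactors, ∏ q : n.primeFactors, sg2 (leg p q * Phi (c p) (c q)) := by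
  have h := wt_Dc' k c
  unfold wtG at h
  have h0 : ∏ u, ch ((pureD k).A u) ((pureD k).B u) ((pureD k).C u) (Dc' c u) = 1 :=
    Finset.prod_eq_one fun u _ => ch_triv _
  rw [h0, one_mul] at h
  exact h

lemma leg5 {p : ℕ} (hp : Odd p) (h5 : Nat.Coprime p 5) : leg p 5 = leg 5 p := by
  have h1 := pair_recip hp (by decide : Odd 5) h5
  have h2 : e4' 5 = 0 := by
    unfold e4'
    rw [if_neg (by norm_num)]
  rw [h2, mul_zero, sg2_zero, ← sg2_leg h5, ← sg2_leg h5.symm, ← sg2_add] at h1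
  rcases z2 (leg p 5 + leg 5 p) with h | h
  · exact (eq_iff_add _ _).2 h
  · rw [h, sg2_one] at h1
    norm_num at h1

/-- **the moments of the kernel** -/
theorem NA_pow {n : ℕ} (hn : Squarefree n) (e2 t c2 : ZMod 2) (hg : good c2 n) (k : ℕ) :
    ((NA e2 t c2 n : ℝ)) ^ k = (1 / 2 ^ k) * ∑ E ∈ fW k e2, ∑ A ∈ fW k c2, ∑ Z : Wk k,
      sg2 (c2 * dt Z (E + A)) * kerG (gD k c2 t E A Z) n := by
  unfold NA
  rw [kerA_pow]
  congr 1
  refine Finset.sum_congr rfl fun E _ => Finset.sum_congr rfl fun A hA =>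
    Finset.sum_congr rfl fun Z _ => ?_
  congr 1
  unfold kerG qw
  have h2 : ((gD k c2 t E A Z).m : ℝ) = 2 ^ k := by
    show ((2 ^ k : ℕ) : ℝ) = 2 ^ k
    push_cast
    rfl
  rw [h2, Fintype.card_coe, ← sum_tup' hn]
  congr 1
  refine Finset.sum_congr rfl fun c _ => ?_
  unfold wtG
  have h3 : ∏ u, ∏ v, (if (gD k c2 t E A Z).P u v = 1 then J (Dc' c u) (Dc' c v) else 1)
      = ∏ p : n.primeFactors, ∏ q : n.primeFactors, sg2 (leg p q * Phi (c p) (c q)) :=
    wt_plain c
  rw [h3, mul_comm]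
  congr 1
  have h4 : ∀ u : Ix k, ch ((gD k c2 t E A Z).A u) ((gD k c2 t E A Z).B u)
      ((gD k c2 t E A Z).C u) (Dc' c u)
      = ∏ p ∈ univ.filter (fun p => c p = u), sg2 (leg 2 p * lb t E (c p) + leg 5 p * lj A (c p) +
        c2 * (leg p 3 * li Z (c p))) := by
    intro u
    unfold Dc'
    rw [ch_prod]
    refine Finset.prod_congr rfl fun p hp => ?_
    rw [Finset.mem_filter] at hp
    have hpn : (p : ℕ) ∣ n := Nat.dvd_of_mem_primeFactors p.2
    have hgp : good c2 (p : ℕ) :=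
      ⟨Odd.of_dvd_nat hg.1 hpn, fun h => (hg.2 h).coprime_dvd_left hpn⟩
    have h5 := ch_level hgp 0 (lb t E u) (li Z u) (lj A u)
    have h6 : (2 : ℕ) + (0 : ZMod 2).val = 2 := rfl
    rw [h6] at h5
    show ch 2 (lb t E u).val (cC c2 (li Z u) (lj A u)) p = _
    rw [h5, hp.2]
    congr 1
    rcases z2 c2 with hc | hc
    · have hA0 : A = 0 := mem_fW.1 hA hc
      have h7 : lj A u = 0 := by
        unfold lj
        rw [hA0, dt_zero_left]
      rw [h7, hc]
      ring
    · have h15 := hgp.2 hc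
      rw [leg5 hgp.1 (h15.coprime_dvd_right (by norm_num)), hc]
      ring
  rw [Finset.prod_congr rfl fun u _ => h4 u]
  exact (Finset.prod_fiberwise _ _ _).symm

end Vale.Agent.P017.H626
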