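import Vale.Agent.P017.H626.I7
import Vale.Agent.P014.H687.FM3sw
import Vale.Agent.P017.H626.D3

/-!
The moments over families, with auxiliary primes.
-/

namespace Vale.Agent.P017.H626

open Finset Function Vale.Agent.P014.H580 Vale.Agent.P014.FM Vale.Agent.P014.H687.FM Filter

/-- asymptotic mean value over a family -/
def Lim (F : ℕ → Prop) [DecidablePred F] (f : ℕ → ℝ) (v : ℝ) : Prop :=
  ∀ ε : ℝ, 0 < ε → ∃ X₀ : ℕ, ∀ X : ℕ, X₀ ≤ X →
    |∑ n ∈ (sqf X).filter F, f n - v * ((sqf X).filter F).card| ≤ ε * X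

variable {F : ℕ → Prop} [DecidablePred F]

lemma Lim.add {f g : ℕ → ℝ} {v w : ℝ} (hf : Lim F f v) (hg : Lim F g w) :
    Lim F (fun n => f n + g n) (v + w) := by
  intro ε hε
  obtain ⟨X₁, h1⟩ := hf (ε / 2) (by positivity)
  obtain ⟨X₂, h2⟩ := hg (ε / 2) (by positivity)
  refine ⟨max X₁ X₂, fun X hX => ?_⟩
  have a1 := abs_le.1 (h1 X ((le_max_left _ _).trans hX))
  have a2 := abs_le.1 (h2 X ((le_max_right _ _).trans hX))
  rw [Finset.sum_add_distrib, abs_le]
  constructor
  · linarith [a1.1, a2.1]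
  · linarith [a1.2, a2.2]

lemma Lim.zero : Lim F (fun _ => 0) 0 := by
  intro ε hε
  refine ⟨0, fun X _ => ?_⟩
  simp only [Finset.sum_const_zero, zero_mul, sub_zero, abs_zero]
  positivity

lemma Lim.sum {κ : Type*} (s : Finset κ) {f : κ → ℕ → ℝ} {v : κ → ℝ}
    (h : ∀ i ∈ s, Lim F (f i) (v i)) : Lim F (fun n => ∑ i ∈ s, f i n) (∑ i ∈ s, v i) := by
  classical
  induction s using Finset.induction_on with
  | empty =>
    simp only [Finset.sum_empty]
    exact Lim.zero
  | insert i s hi ih =>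
    simp only [Finset.sum_insert hi]
    exact (h i (Finset.mem_insert_self _ _)).add
      (ih fun j hj => h j (Finset.mem_insert_of_mem hj))

lemma Lim.const_mul {f : ℕ → ℝ} {v : ℝ} (hf : Lim F f v) (c : ℝ) :
    Lim F (fun n => c * f n) (c * v) := by
  intro ε hε
  obtain ⟨X₁, h1⟩ := hf (ε / (|c| + 1)) (by positivity)
  refine ⟨X₁, fun X hX => ?_⟩
  have a1 := h1 X hX
  rw [← Finset.mul_sum, mul_assoc, ← mul_sub, abs_mul]
  calc |c| * |∑ n ∈ (sqf X).filter F, f n - v * ((sqf X).filter F).card|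
      ≤ (|c| + 1) * (ε / (|c| + 1) * X) := by
        apply mul_le_mul (by linarith [abs_nonneg c]) a1 (abs_nonneg _) (by positivity)
    _ = ε * X := by
        field_simp

lemma Lim.congr {f g : ℕ → ℝ} {v : ℝ} (hf : Lim F f v)
    (h : ∀ n, Squarefree n → F n → f n = g n) : Lim F g v := by
  intro ε hε
  obtain ⟨X₁, h1⟩ := hf ε hε
  refine ⟨X₁, fun X hX => ?_⟩
  have a1 := h1 X hX
  have e : ∑ n ∈ (sqf X).filter F, f n = ∑ n ∈ (sqf X).filter F, g n := by
    refine Finset.sum_congr rfl fun n hn => ?_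
    rw [Finset.mem_filter, mem_sqf] at hn
    exact h n hn.1.2 hn.2
  rw [← e]
  exact a1

open Classical in
/-- **the moments over a family** -/
theorem mom_gen {e2 t s : ZMod 2} (hT : Ty e2 t s) (c2 : ZMod 2) {T : Type*} [Fintype T]
    (α : T → ℝ) (a b c : T → ℕ)
    (ha : ∀ t, a t ≠ 0) (hc : ∀ t, Odd (c t)) (hc15 : c2 = 1 → ∀ t, 15 ∣ c t)
    (hf : ∀ n, (if F n then (1 : ℝ) else 0) = ∑ t, α t * ch (a t) (b t) (c t) n)
    (hF : ∀ n, F n → Mem c2 s t t n) (k : ℕ) (hk : 1 ≤ k) :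
    Lim F (fun n => (NA e2 t c2 n : ℝ) ^ k) (2 ^ k * Nsub k) := by
  have hsw : SW := Vale.Agent.P014.H687.FM.sw
  have h2k : 2 ≤ 2 ^ k := by
    calc 2 = 2 ^ 1 := (pow_one 2).symm
      _ ≤ 2 ^ k := Nat.pow_le_pow_right (by norm_num) hk
  have h1 : ∀ E ∈ fW k e2, ∀ A Z : Wk k, Lim F (fun n => kerG (gD k c2 t E A Z) n)
      (∑ U ∈ UsG (Phi (k := k)) (2 ^ k),
        valU (gD k c2 t E A Z) c2 (lb t E) (li Z) (lj A) U s t t (bp U)) := by
    intro E hE A Z
    set d := gD k c2 t E A Z with hd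
    have h2 : Lim F (fun n => ∑ U ∈ UsG (Phi (k := k)) (2 ^ k), mainG d U n)
        (∑ U ∈ UsG (Phi (k := k)) (2 ^ k),
          valU d c2 (lb t E) (li Z) (lj A) U s t t (bp U)) := by
      apply Lim.sum
      intro U hU
      have hne : U.Nonempty := by
        rw [← Finset.card_pos, (mem_UsG.1 hU).1]
        positivity
      have h3 := mainG_val hsw (gD_lev c2 t E A Z) (U := U) hU (bp_mem hne) s t t
        (fun hcst => lb_zero hT c2 hU (bp_mem hne) E A Z (mem_fW.1 hE) hcst)
      intro ε hε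
      obtain ⟨X₀, hX₀⟩ := h3 ε hε
      refine ⟨X₀, fun X hX => ?_⟩
      exact hX₀ X hX _ (Finset.filter_subset _ _)
        (fun n hn => hF n (Finset.mem_filter.1 hn).2)
    have h4 : Lim F (fun n => kerG d n - ∑ U ∈ UsG (Phi (k := k)) (2 ^ k), mainG d U n) 0 := by
      intro ε hε
      obtain ⟨X₀, hX₀⟩ := fam_main hsw d (card_Ix k) h2k (maxUn k) α a b c ha hc (by
        intro t' u p hp hpC
        obtain ⟨hc2, hp15⟩ := cC_prime hp hpC
        exact hp15.trans (hc15 hc2 t')) (fun n => if F n then (1 : ℝ) else 0) hf ε hε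
      refine ⟨X₀, fun X hX => ?_⟩
      have h5 := hX₀ X hX
      have e1 : ∑ n ∈ sqf X, (if F n then (1 : ℝ) else 0) *
          (kerG d n - ∑ U ∈ UsG d.P d.m, mainG d U n)
          = ∑ n ∈ (sqf X).filter F,
            (kerG d n - ∑ U ∈ UsG (Phi (k := k)) (2 ^ k), mainG d U n) := by
        rw [Finset.sum_filter]
        refine Finset.sum_congr rfl fun n _ => ?_
        by_cases hn : F n
        · rw [if_pos hn, if_pos hn, one_mul]
          rfl
        · rw [if_neg hn, if_neg hn, zero_mul]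
      rw [e1] at h5
      rw [zero_mul, sub_zero]
      exact h5
    have h6 := h4.add h2
    rw [zero_add] at h6
    refine h6.congr fun n _ _ => ?_
    ring
  have h7 : Lim F (fun n => (1 / 2 ^ k) * ∑ E ∈ fW k e2, ∑ A ∈ fW k c2, ∑ Z : Wk k,
      sg2 (c2 * dt Z (E + A)) * kerG (gD k c2 t E A Z) n)
      ((1 / 2 ^ k) * ∑ E ∈ fW k e2, ∑ A ∈ fW k c2, ∑ Z : Wk k, sg2 (c2 * dt Z (E + A)) *
      ∑ U ∈ UsG (Phi (k := k)) (2 ^ k),
        valU (gD k c2 t E A Z) c2 (lb t E) (li Z) (lj A) U s t t (bp U)) := by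
    apply Lim.const_mul
    apply Lim.sum
    intro E hE
    apply Lim.sum
    intro A _
    apply Lim.sum
    intro Z _
    exact (h1 E hE A Z).const_mul _
  rw [total hT c2, ← mul_assoc, one_div_mul_cancel (by positivity), one_mul] at h7
  refine h7.congr fun n hn hFn => ?_
  rw [NA_pow hn e2 t c2 (hF n hFn).1]

/-- the kernel has `2 ^ (j + 1)` elements as soon as it is not zero -/
lemma card_KrA {S : Type*} [Fintype S] (a : S → S → ZMod 2) (g h r : S → ZMod 2)
    (e2 t c2 : ZMod 2) (hz : ∃ z : (S → ZMod 2) × ZMod 2 × ZMod 2, z ≠ 0 ∧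
      EqA a g h r e2 t c2 z.1 z.2.1 z.2.2) :
    ∃ j, Nat.card (KrA a g h r e2 t c2) = 2 ^ (j + 1) := by
  classical
  let V : Submodule (ZMod 2) ((S → ZMod 2) × ZMod 2 × ZMod 2) :=
    { carrier := {z | EqA a g h r e2 t c2 z.1 z.2.1 z.2.2}
      add_mem' := by
        rintro x y ⟨h1, h2, h3, h4⟩ ⟨k1, k2, k3, k4⟩
        refine ⟨fun he => ?_, fun hc => ?_, fun q => ?_, ?_⟩
        · rw [Prod.snd_add, Prod.fst_add, h1 he, k1 he, add_zero]
        · rw [Prod.snd_add, Prod.snd_add, h2 hc, k2 hc, add_zero]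
        · have e1 : ∑ p, a p q * ((x + y).1 p + (x + y).1 q)
              = ∑ p, a p q * (x.1 p + x.1 q) + ∑ p, a p q * (y.1 p + y.1 q) := by
            rw [← Finset.sum_add_distrib]
            refine Finset.sum_congr rfl fun p _ => ?_
            simp only [Prod.fst_add, Pi.add_apply]
            ring
          rw [e1]
          simp only [Prod.fst_add, Prod.snd_add, Pi.add_apply]
          linear_combination h3 q + k3 q
        · have e1 : ∑ p, r p * (x + y).1 p = ∑ p, r p * x.1 p + ∑ p, r p * y.1 p := by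
            rw [← Finset.sum_add_distrib]
            refine Finset.sum_congr rfl fun p _ => ?_
            simp only [Prod.fst_add, Pi.add_apply]
            ring
          rw [e1]
          simp only [Prod.fst_add, Prod.snd_add]
          linear_combination h4 + k4
      zero_mem' := by
        refine ⟨fun _ => rfl, fun _ => rfl, fun q => ?_, ?_⟩
        · simp
        · simp
      smul_mem' := by
        rintro c x ⟨h1, h2, h3, h4⟩
        rcases z2 c with rfl | rfl
        · rw [zero_smul]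
          refine ⟨fun _ => rfl, fun _ => rfl, fun q => ?_, ?_⟩
          · simp
          · simp
        · rw [one_smul]
          exact ⟨h1, h2, h3, h4⟩ }
  have h1 : Nat.card (KrA a g h r e2 t c2) = Nat.card V := rfl
  have h2 := Module.natCard_eq_pow_finrank (K := ZMod 2) (V := V)
  rw [Nat.card_zmod] at h2
  rw [h1, h2]
  obtain ⟨z, hz0, hz⟩ := hz
  have h3 : 0 < Module.finrank (ZMod 2) V := by
    have : Nontrivial V := by
      refine ⟨⟨0, ⟨z, hz⟩, ?_⟩⟩
      intro hz'
      exact hz0 (congrArg Subtype.val hz').symm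
    exact Module.finrank_pos
  exact ⟨Module.finrank (ZMod 2) V - 1, by rw [Nat.sub_add_cancel h3]⟩

/-- the standard element of the kernel -/
lemma one_KrA {S : Type*} [Fintype S] (a : S → S → ZMod 2) (g h r : S → ZMod 2)
    (e2 t c2 : ZMod 2) (ht : e2 = 0 → t = 0) (hr : c2 * (∑ p, r p + t) = 0) :
    EqA a g h r e2 t c2 (fun _ => 1) t 0 := by
  refine ⟨ht, fun _ => rfl, fun q => ?_, ?_⟩
  · have e1 : ∑ p, a p q * ((1 : ZMod 2) + 1) = 0 := by
      refine Finset.sum_eq_zero fun p _ => ?_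
      rw [zmod2_add_self, mul_zero]
    show ∑ p, a p q * ((1 : ZMod 2) + 1) + g q * (t + t * 1) + h q * 0 = 0
    rw [e1, mul_one, zmod2_add_self]
    ring
  · show c2 * (∑ p, r p * 1 + t + 0) = 0
    simp only [mul_one, add_zero]
    exact hr

end Vale.Agent.P017.H626
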