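import Vale.Agent.P017.H626.I8

/-!
The eight families, and the proportion of the integers with a kernel of two elements.
-/

namespace Vale.Agent.P017.H626

open Finset Function Vale.Agent.P014.H580 Vale.Agent.P014.FM Vale.Agent.P014.H687.FM Filter

/-- the families -/
def Fam (c2 t s : ZMod 2) (n : ℕ) : Prop :=
  Odd n ∧ e4' n = s ∧ (c2 = 0 → J n 3 ≠ sg2 t ∧ J n 5 ≠ sg2 t) ∧
    (c2 = 1 → J n 3 = sg2 t ∧ J n 5 = sg2 t)

noncomputable instance (c2 t s : ZMod 2) : DecidablePred (Fam c2 t s) := fun _ => Classical.dec _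

lemma J_tri (n c : ℕ) : J n c = 0 ∨ J n c = 1 ∨ J n c = -1 := by
  unfold J
  rcases jacobiSym.trichotomy (n : ℤ) c with h | h | h <;> rw [h] <;> norm_num

lemma sg2_val (t : ZMod 2) : sg2 t = 1 ∨ sg2 t = -1 := by
  rcases z2 t with rfl | rfl
  · left; exact sg2_zero
  · right; exact sg2_one

open Classical in
lemma ind_ne (n c : ℕ) (hc : c ≠ 0) (t : ZMod 2) :
    (if J n c ≠ sg2 t then (1 : ℝ) else 0)
      = 1 - 1 / 2 * J n (c * c) - sg2 t / 2 * J n c := by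
  rw [J_mul_right _ _ _ hc hc]
  rcases J_tri n c with h | h | h <;> rcases sg2_val t with h' | h' <;> rw [h, h'] <;> norm_num

open Classical in
lemma ind_eq (n c : ℕ) (hc : c ≠ 0) (t : ZMod 2) :
    (if J n c = sg2 t then (1 : ℝ) else 0)
      = 1 / 2 * J n (c * c) + sg2 t / 2 * J n c := by
  rw [J_mul_right _ _ _ hc hc]
  rcases J_tri n c with h | h | h <;> rcases sg2_val t with h' | h' <;> rw [h, h'] <;> norm_num

open Classical in
lemma ind_four (n : ℕ) (s : ZMod 2) :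
    (if Odd n ∧ e4' n = s then (1 : ℝ) else 0) = 1 / 2 * chi4 n ^ 2 + sg2 s / 2 * chi4 n := by
  by_cases h : Odd n
  · rw [chi4_sg h]
    rcases z2 (e4' n) with h1 | h1 <;> rcases z2 s with h2 | h2 <;> rw [h1, h2] <;>
      simp [h, sg2_zero, sg2_one] <;> norm_num
  · rw [if_neg (fun h' => h h'.1), Vale.Agent.P014.FM.chi4_even h]
    norm_num

/-- products of sums of characters -/
lemma comb (n : ℕ) (u0 u1 : ℝ) (u v : Fin 3 → ℝ) (c3 c5 : Fin 3 → ℕ) (h3 : ∀ i, c3 i ≠ 0)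
    (h5 : ∀ i, c5 i ≠ 0) :
    (u0 * chi4 n ^ 2 + u1 * chi4 n) * ((∑ i, u i * J n (c3 i)) * (∑ j, v j * J n (c5 j)))
      = ∑ t : Fin 2 × Fin 3 × Fin 3,
      ((![u0, u1] : Fin 2 → ℝ) t.1 * (u t.2.1 * v t.2.2)) *
      ch ((![2, 1] : Fin 2 → ℕ) t.1) 0 (c3 t.2.1 * c5 t.2.2) n := by
  have h1 : ∀ t : Fin 2 × Fin 3 × Fin 3,
      ((![u0, u1] : Fin 2 → ℝ) t.1 * (u t.2.1 * v t.2.2)) *
      ch ((![2, 1] : Fin 2 → ℕ) t.1) 0 (c3 t.2.1 * c5 t.2.2) n
      = ((![u0, u1] : Fin 2 → ℝ) t.1 * chi4 n ^ (![2, 1] : Fin 2 → ℕ) t.1) *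
        ((u t.2.1 * J n (c3 t.2.1)) * (v t.2.2 * J n (c5 t.2.2))) := by
    rintro ⟨t1, t2, t3⟩
    unfold ch
    rw [J_mul_right _ _ _ (h3 _) (h5 _)]
    ring
  rw [Finset.sum_congr rfl fun t _ => h1 t, Fintype.sum_prod_type]
  simp_rw [Fintype.sum_prod_type, ← Finset.mul_sum, ← Finset.sum_mul]
  simp only [Fin.sum_univ_two, Matrix.cons_val_zero, Matrix.cons_val_one]
  ring

open Classical in
lemma Fam_ind0 (t s : ZMod 2) (n : ℕ) : (if Fam 0 t s n then (1 : ℝ) else 0) =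
    ∑ x : Fin 2 × Fin 3 × Fin 3,
      ((![1 / 2, sg2 s / 2] : Fin 2 → ℝ) x.1 *
        ((![1, -1 / 2, -sg2 t / 2] : Fin 3 → ℝ) x.2.1 *
        (![1, -1 / 2, -sg2 t / 2] : Fin 3 → ℝ) x.2.2)) *
      ch ((![2, 1] : Fin 2 → ℕ) x.1) 0
        ((![1, 3 * 3, 3] : Fin 3 → ℕ) x.2.1 * (![1, 5 * 5, 5] : Fin 3 → ℕ) x.2.2) n := by
  rw [← comb n _ _ _ _ _ _ (by intro i; fin_cases i <;> simp) (by intro i; fin_cases i <;> simp)]
  simp only [Fin.sum_univ_three, Matrix.cons_val_zero, Matrix.cons_val_one, Matrix.cons_val_two,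
    Matrix.head_cons, Matrix.tail_cons, Vale.Agent.P014.FM.J_one_right]
  have e3 := ind_ne n 3 (by norm_num) t
  have e5 := ind_ne n 5 (by norm_num) t
  have e4 := ind_four n s
  have e6 : (1 : ℝ) * 1 + -1 / 2 * J n (3 * 3) + -sg2 t / 2 * J n 3
      = if J n 3 ≠ sg2 t then (1 : ℝ) else 0 := by
    rw [e3]; ring
  have e7 : (1 : ℝ) * 1 + -1 / 2 * J n (5 * 5) + -sg2 t / 2 * J n 5
      = if J n 5 ≠ sg2 t then (1 : ℝ) else 0 := by
    rw [e5]; ring
  rw [e6, e7, ← e4]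
  unfold Fam
  by_cases h1 : Odd n <;> by_cases h2 : e4' n = s <;> by_cases h3 : J n 3 = sg2 t <;>
    by_cases h5 : J n 5 = sg2 t <;> simp [h1, h2, h3, h5]

open Classical in
lemma Fam_ind1 (t s : ZMod 2) (n : ℕ) : (if Fam 1 t s n then (1 : ℝ) else 0) =
    ∑ x : Fin 2 × Fin 3 × Fin 3,
      ((![1 / 2, sg2 s / 2] : Fin 2 → ℝ) x.1 *
        ((![0, 1 / 2, sg2 t / 2] : Fin 3 → ℝ) x.2.1 *
        (![0, 1 / 2, sg2 t / 2] : Fin 3 → ℝ) x.2.2)) *
      ch ((![2, 1] : Fin 2 → ℕ) x.1) 0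
        ((![3 * 3, 3 * 3, 3] : Fin 3 → ℕ) x.2.1 * (![5 * 5, 5 * 5, 5] : Fin 3 → ℕ) x.2.2) n := by
  rw [← comb n _ _ _ _ _ _ (by intro i; fin_cases i <;> simp) (by intro i; fin_cases i <;> simp)]
  simp only [Fin.sum_univ_three, Matrix.cons_val_zero, Matrix.cons_val_one, Matrix.cons_val_two,
    Matrix.head_cons, Matrix.tail_cons]
  have e3 := ind_eq n 3 (by norm_num) t
  have e5 := ind_eq n 5 (by norm_num) t
  have e4 := ind_four n s
  have e6 : (0 : ℝ) * J n (3 * 3) + 1 / 2 * J n (3 * 3) + sg2 t / 2 * J n 3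
      = if J n 3 = sg2 t then (1 : ℝ) else 0 := by
    rw [e3]; ring
  have e7 : (0 : ℝ) * J n (5 * 5) + 1 / 2 * J n (5 * 5) + sg2 t / 2 * J n 5
      = if J n 5 = sg2 t then (1 : ℝ) else 0 := by
    rw [e5]; ring
  rw [e6, e7, ← e4]
  unfold Fam
  by_cases h1 : Odd n <;> by_cases h2 : e4' n = s <;> by_cases h3 : J n 3 = sg2 t <;>
    by_cases h5 : J n 5 = sg2 t <;> simp [h1, h2, h3, h5]

lemma cop_of_J {n c : ℕ} (hc : c ≠ 0) {t : ZMod 2} (h : J n c = sg2 t) : Nat.Coprime n c := by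
  by_contra hcon
  rw [J_eq_zero hc hcon] at h
  rcases sg2_val t with h' | h' <;> rw [h'] at h <;> norm_num at h

lemma sg2_inj {x y : ZMod 2} (h : sg2 x = sg2 y) : x = y := by
  rcases z2 x with rfl | rfl <;> rcases z2 y with rfl | rfl
  · rfl
  · rw [sg2_zero, sg2_one] at h
    norm_num at h
  · rw [sg2_zero, sg2_one] at h
    norm_num at h
  · rfl

lemma Fam_mem {c2 t s : ZMod 2} {n : ℕ} (h : Fam c2 t s n) : Mem c2 s t t n := by
  obtain ⟨h1, h2, -, h4⟩ := h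
  refine ⟨⟨h1, fun hc => ?_⟩, h2, fun hc => ?_⟩
  · obtain ⟨h3, h5⟩ := h4 hc
    have e : (15 : ℕ) = 3 * 5 := by norm_num
    rw [e]
    exact Nat.Coprime.mul_right (cop_of_J (by norm_num) h3) (cop_of_J (by norm_num) h5)
  · obtain ⟨h3, h5⟩ := h4 hc
    refine ⟨sg2_inj ?_, sg2_inj ?_⟩
    · rw [sg2_leg (cop_of_J (by norm_num) h3), h3]
    · rw [sg2_leg (cop_of_J (by norm_num) h5), h5]

theorem mom_Fam {e2 t s : ZMod 2} (hT : Ty e2 t s) (c2 : ZMod 2) (k : ℕ) (hk : 1 ≤ k) :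
    Lim (Fam c2 t s) (fun n => (NA e2 t c2 n : ℝ) ^ k) (2 ^ k * Nsub k) := by
  classical
  rcases z2 c2 with rfl | rfl
  · refine mom_gen hT 0 (T := Fin 2 × Fin 3 × Fin 3)
      (fun x => ((![1 / 2, sg2 s / 2] : Fin 2 → ℝ) x.1 *
        ((![1, -1 / 2, -sg2 t / 2] : Fin 3 → ℝ) x.2.1 *
        (![1, -1 / 2, -sg2 t / 2] : Fin 3 → ℝ) x.2.2)))
      (fun x => (![2, 1] : Fin 2 → ℕ) x.1) (fun _ => 0)
      (fun x => (![1, 3 * 3, 3] : Fin 3 → ℕ) x.2.1 * (![1, 5 * 5, 5] : Fin 3 → ℕ) x.2.2)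
      ?_ ?_ (fun h => absurd h (by decide)) (fun n => ?_) (fun n hn => Fam_mem hn) k hk
    · rintro ⟨x1, x2⟩
      fin_cases x1 <;> simp
    · rintro ⟨x1, x2, x3⟩
      refine Odd.mul ?_ ?_
      · fin_cases x2 <;> simp <;> decide
      · fin_cases x3 <;> simp <;> decide
    · rw [← Fam_ind0 t s n]
  · refine mom_gen hT 1 (T := Fin 2 × Fin 3 × Fin 3)
      (fun x => ((![1 / 2, sg2 s / 2] : Fin 2 → ℝ) x.1 *
        ((![0, 1 / 2, sg2 t / 2] : Fin 3 → ℝ) x.2.1 *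
        (![0, 1 / 2, sg2 t / 2] : Fin 3 → ℝ) x.2.2)))
      (fun x => (![2, 1] : Fin 2 → ℕ) x.1) (fun _ => 0)
      (fun x => (![3 * 3, 3 * 3, 3] : Fin 3 → ℕ) x.2.1 *
        (![5 * 5, 5 * 5, 5] : Fin 3 → ℕ) x.2.2)
      ?_ ?_ (fun _ => ?_) (fun n => ?_) (fun n hn => Fam_mem hn) k hk
    · rintro ⟨x1, x2⟩
      fin_cases x1 <;> simp
    · rintro ⟨x1, x2, x3⟩
      refine Odd.mul ?_ ?_
      · fin_cases x2 <;> simp <;> decide
      · fin_cases x3 <;> simp <;> decide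
    · rintro ⟨x1, x2, x3⟩
      have e : (15 : ℕ) = 3 * 5 := by norm_num
      rw [e]
      refine Nat.mul_dvd_mul ?_ ?_
      · fin_cases x2 <;> simp
      · fin_cases x3 <;> simp
    · rw [← Fam_ind1 t s n]

/-- the sum of the symbols at `3` -/
lemma sum_leg3 {n : ℕ} (hn : Squarefree n) (h : Nat.Coprime n 3) :
    sg2 (∑ p : n.primeFactors, leg (p : ℕ) 3) = J n 3 := by
  rw [sg2_sum]
  have h1 : ∀ p : n.primeFactors, sg2 (leg (p : ℕ) 3) = J p 3 := fun p =>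
    sg2_leg (h.coprime_dvd_left (Nat.dvd_of_mem_primeFactors p.2))
  rw [Finset.prod_congr rfl fun p _ => h1 p, ← J_prod_left,
    Finset.prod_coe_sort n.primeFactors (fun p => p), Nat.prod_primeFactors_of_squarefree hn]

theorem NA_two {e2 t s : ZMod 2} (hT : Ty e2 t s) (c2 : ZMod 2) {n : ℕ} (hn : Squarefree n)
    (hF : Fam c2 t s n) : ∃ j, NA e2 t c2 n = 2 ^ (j + 1) := by
  have ht : e2 = 0 → t = 0 := by
    intro he
    rcases hT with ⟨-, h, -⟩ | ⟨-, h, -⟩ | ⟨h, -⟩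
    · exact h
    · exact h
    · rw [he] at h
      exact absurd h (by decide)
  have hr : c2 * (∑ p : n.primeFactors, leg (p : ℕ) 3 + t) = 0 := by
    rcases z2 c2 with hc | hc
    · rw [hc, zero_mul]
    · obtain ⟨h3, -⟩ := hF.2.2.2 hc
      have h4 := sum_leg3 hn (cop_of_J (by norm_num) h3)
      rw [h3] at h4
      rw [sg2_inj h4, zmod2_add_self, mul_zero]
  by_cases hne : 1 < n
  · obtain ⟨p, hp⟩ := Nat.nonempty_primeFactors.2 hne
    refine card_KrA _ _ _ _ e2 t c2 ⟨(fun _ => 1, t, 0), ?_, one_KrA _ _ _ _ e2 t c2 ht hr⟩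
    intro h
    have := congrFun (congrArg Prod.fst h) ⟨p, hp⟩
    simp at this
  · have hn1 : n = 1 := by
      have := hn.ne_zero
      omega
    rcases z2 t with ht0 | ht1
    · -- the case `c2 = 1`, `e2 = 1`
      have hc : c2 = 1 := by
        rcases z2 c2 with hc | hc
        · exfalso
          apply (hF.2.2.1 hc).1
          rw [hn1, ht0, sg2_zero, J_one_left']
        · exact hc
      have he : e2 = 1 := by
        rcases hT with ⟨-, -, h⟩ | ⟨h, -, -⟩ | ⟨h, -⟩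
        · exfalso
          have := hF.2.1
          rw [hn1, e4'_one, h] at this
          exact absurd this (by decide)
        · exact h
        · exact h
      subst hn1
      refine card_KrA _ _ _ _ e2 t c2 ⟨(fun _ => 0, 1, 1), ?_, ?_⟩
      · intro h
        have := congrArg (fun z : ((Nat.primeFactors 1 → ZMod 2) × ZMod 2 × ZMod 2) => z.2.1) h
        exact absurd this (by decide)
      · refine ⟨fun h => ?_, fun h => ?_, fun q => ?_, ?_⟩
        · rw [he] at h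
          exact absurd h (by decide)
        · rw [hc] at h
          exact absurd h (by decide)
        · exact absurd q.2 (by simp)
        · have : ∑ p : (Nat.primeFactors 1), leg (p : ℕ) 3 * (0 : ZMod 2) = 0 := by simp
          show c2 * (∑ p : (Nat.primeFactors 1), leg (p : ℕ) 3 * (0 : ZMod 2) + 1 + 1) = 0
          rw [this, zero_add, zmod2_add_self, mul_zero]
    · refine card_KrA _ _ _ _ e2 t c2 ⟨(fun _ => 1, t, 0), ?_, one_KrA _ _ _ _ e2 t c2 ht hr⟩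
      intro h
      have := congrArg (fun z : ((n.primeFactors → ZMod 2) × ZMod 2 × ZMod 2) => z.2.1) h
      rw [ht1] at this
      exact one_ne_zero this

/-- **the proportion of kernels with two elements** -/
theorem low_Fam {e2 t s : ZMod 2} (hT : Ty e2 t s) (c2 : ZMod 2) :
    ∀ ε : ℝ, 0 < ε → ∃ X₀ : ℕ, ∀ X : ℕ, X₀ ≤ X →
      188 / 651 * ((sqf X).filter (Fam c2 t s)).card - ε * X
        ≤ ((((sqf X).filter (Fam c2 t s)).filter (fun n => NA e2 t c2 n = 2)).card : ℝ) :=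
  low_of_mom (Fam c2 t s) (NA e2 t c2) (fun _ hn hF => NA_two hT c2 hn hF) (mom_Fam hT c2)

end Vale.Agent.P017.H626
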