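import Vale.Agent.P017.H626.I9

/-!
Duality: the kernel of a square matrix and of its transpose.
-/

namespace Vale.Agent.P017.H626

open Finset Function

section dual

variable {ι : Type*} [Fintype ι] [DecidableEq ι]

omit [DecidableEq ι] in
lemma card_ker (M : Matrix ι ι (ZMod 2)) :
    Nat.card {v : ι → ZMod 2 // M.mulVec v = 0} = 2 ^ (Fintype.card ι - M.rank) := by
  have h1 : Nat.card {v : ι → ZMod 2 // M.mulVec v = 0} = Nat.card (LinearMap.ker M.mulVecLin) := by
    refine Nat.card_congr (Equiv.subtypeEquivRight fun v => ?_)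
    rw [LinearMap.mem_ker, Matrix.mulVecLin_apply]
  rw [h1, Module.natCard_eq_pow_finrank (K := ZMod 2)]
  have h2 := LinearMap.finrank_range_add_finrank_ker M.mulVecLin
  rw [Module.finrank_fintype_fun_eq_card] at h2
  have h3 : M.rank = Module.finrank (ZMod 2) (LinearMap.range M.mulVecLin) := rfl
  have h4 : Nat.card (ZMod 2) = 2 := by simp
  rw [h3, h4]
  congr 1
  omega

omit [DecidableEq ι] in
lemma card_ker_transpose (M : Matrix ι ι (ZMod 2)) :
    Nat.card {v : ι → ZMod 2 // M.transpose.mulVec v = 0}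
      = Nat.card {v : ι → ZMod 2 // M.mulVec v = 0} := by
  rw [card_ker, card_ker, Matrix.rank_transpose]

lemma eq_of_two {α : Type*} [Zero α] {P : α → Prop} (h : Nat.card {v : α // P v} = 2) (h0 : P 0)
    {v w : α} (hv : P v) (hw : P w) (hv0 : v ≠ 0) (hw0 : w ≠ 0) : v = w := by
  by_contra hvw
  have : Finite {v : α // P v} := Nat.finite_of_card_ne_zero (by rw [h]; norm_num)
  let f : Fin 3 → {v : α // P v} := ![⟨0, h0⟩, ⟨v, hv⟩, ⟨w, hw⟩]
  have hf : Function.Injective f := by
    intro i j hij
    have h1 := congrArg Subtype.val hij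
    fin_cases i <;> fin_cases j <;> simp [f] at h1 ⊢
    · exact hv0 h1.symm
    · exact hw0 h1.symm
    · exact hv0 h1
    · exact hvw h1
    · exact hw0 h1
    · exact hvw h1.symm
  have := Nat.card_le_card_of_injective f hf
  rw [h] at this
  simp at this

end dual

section kr

variable {S : Type*} [Fintype S] [DecidableEq S] (a : S → S → ZMod 2) (g h r : S → ZMod 2)
  (e2 t c2 : ZMod 2)

/-- the square matrix -/
def MA : Matrix (S ⊕ Fin 2) (S ⊕ Fin 2) (ZMod 2) := fun i j =>
  match i, j with
  | .inl q, .inl p => a p q + if p = q then ∑ p', a p' q + t * g q else 0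
  | .inl q, .inr 0 => c2 * h q
  | .inl q, .inr 1 => e2 * g q
  | .inr 0, .inl p => c2 * r p
  | .inr 0, .inr 0 => 1
  | .inr 0, .inr 1 => c2 * e2
  | .inr 1, .inl _ => 0
  | .inr 1, .inr 0 => 0
  | .inr 1, .inr 1 => 1 + e2

/-- the equations of the dual kernel -/
def EqT (z : S → ZMod 2) (γ : ZMod 2) : Prop :=
  (∀ p, ∑ q, z q * a p q + z p * (∑ p', a p' p + t * g p) + γ * (c2 * r p) = 0) ∧
  (∑ q, z q * (c2 * h q) + γ = 0) ∧ (∑ q, z q * (e2 * g q) + γ * (c2 * e2) = 0)

/-- the vector -/
def vecA (x : S → ZMod 2) (ε α : ZMod 2) : S ⊕ Fin 2 → ZMod 2 := Sum.elim x ![α, ε]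

lemma mul_vecA (x : S → ZMod 2) (ε α : ZMod 2) :
    (MA a g h r e2 t c2).mulVec (vecA x ε α) = 0 ↔
      (∀ q, ∑ p, a p q * (x p + x q) + (e2 * g q * ε + t * g q * x q) + c2 * h q * α = 0) ∧
      (c2 * (∑ p, r p * x p) + α + c2 * e2 * ε = 0) ∧ (1 + e2) * ε = 0 := by
  have h1 : ∀ q, (MA a g h r e2 t c2).mulVec (vecA x ε α) (.inl q) =
      ∑ p, a p q * (x p + x q) + (e2 * g q * ε + t * g q * x q) + c2 * h q * α := by
    intro q
    unfold Matrix.mulVec dotProduct
    rw [Fintype.sum_sum_type, Fin.sum_univ_two]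
    show ∑ p, (a p q + if p = q then ∑ p', a p' q + t * g q else 0) * x p +
      (c2 * h q * α + e2 * g q * ε) = _
    have h2 : ∀ p, (a p q + if p = q then ∑ p', a p' q + t * g q else 0) * x p =
        a p q * x p + if p = q then (∑ p', a p' q + t * g q) * x p else 0 := by
      intro p
      rw [add_mul, ite_mul, zero_mul]
    simp_rw [h2]
    rw [Finset.sum_add_distrib, Finset.sum_ite_eq' univ q, if_pos (mem_univ q)]
    simp_rw [mul_add]
    rw [Finset.sum_add_distrib, ← Finset.sum_mul]
    ring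
  have h2 : (MA a g h r e2 t c2).mulVec (vecA x ε α) (.inr 0) =
      c2 * (∑ p, r p * x p) + α + c2 * e2 * ε := by
    unfold Matrix.mulVec dotProduct
    rw [Fintype.sum_sum_type, Fin.sum_univ_two]
    show ∑ p, c2 * r p * x p + (1 * α + c2 * e2 * ε) = _
    rw [Finset.mul_sum]
    simp_rw [mul_assoc]
    ring
  have h3 : (MA a g h r e2 t c2).mulVec (vecA x ε α) (.inr 1) = (1 + e2) * ε := by
    unfold Matrix.mulVec dotProduct
    rw [Fintype.sum_sum_type, Fin.sum_univ_two]
    show ∑ p, 0 * x p + (0 * α + (1 + e2) * ε) = _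
    simp
  constructor
  · intro h0
    refine ⟨fun q => ?_, ?_, ?_⟩
    · rw [← h1 q, h0]; rfl
    · rw [← h2, h0]; rfl
    · rw [← h3, h0]; rfl
  · rintro ⟨k1, k2, k3⟩
    funext i
    rcases i with q | i
    · rw [h1 q]; exact k1 q
    · fin_cases i
      · show (MA a g h r e2 t c2).mulVec (vecA x ε α) (.inr 0) = 0
        rw [h2]; exact k2
      · show (MA a g h r e2 t c2).mulVec (vecA x ε α) (.inr 1) = 0
        rw [h3]; exact k3

lemma mul_vecT (z : S → ZMod 2) (γ : ZMod 2) (hT : EqT a g h r e2 t c2 z γ) :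
    (MA a g h r e2 t c2).transpose.mulVec (vecA z 0 γ) = 0 := by
  obtain ⟨h1, h2, h3⟩ := hT
  funext i
  rcases i with p | i
  · unfold Matrix.mulVec dotProduct
    rw [Fintype.sum_sum_type, Fin.sum_univ_two]
    show ∑ q, (a p q + if p = q then ∑ p', a p' q + t * g q else 0) * z q +
      (c2 * r p * γ + 0 * 0) = 0
    have h4 : ∀ q, (a p q + if p = q then ∑ p', a p' q + t * g q else 0) * z q =
        z q * a p q + if p = q then z q * (∑ p', a p' q + t * g q) else 0 := by
      intro q
      split_ifs <;> ring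
    simp_rw [h4]
    rw [Finset.sum_add_distrib, Finset.sum_ite_eq univ p, if_pos (mem_univ p)]
    linear_combination h1 p
  · fin_cases i
    · unfold Matrix.mulVec dotProduct
      rw [Fintype.sum_sum_type, Fin.sum_univ_two]
      show ∑ q, (c2 * h q) * z q + (1 * γ + 0 * 0) = 0
      have : ∑ q, (c2 * h q) * z q = ∑ q, z q * (c2 * h q) :=
        Finset.sum_congr rfl fun q _ => by ring
      rw [this]
      linear_combination h2
    · unfold Matrix.mulVec dotProduct
      rw [Fintype.sum_sum_type, Fin.sum_univ_two]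
      show ∑ q, (e2 * g q) * z q + (c2 * e2 * γ + (1 + e2) * 0) = 0
      have : ∑ q, (e2 * g q) * z q = ∑ q, z q * (e2 * g q) :=
        Finset.sum_congr rfl fun q _ => by ring
      rw [this]
      linear_combination h3

lemma card_KrA_eq : Nat.card (KrA a g h r e2 t c2) =
    Nat.card {v : S ⊕ Fin 2 → ZMod 2 // (MA a g h r e2 t c2).mulVec v = 0} := by
  have key : ∀ (x : S → ZMod 2) (ε α : ZMod 2), EqA a g h r e2 t c2 x ε α ↔
      (MA a g h r e2 t c2).mulVec (vecA x ε α) = 0 := by
    intro x ε α
    rw [mul_vecA]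
    unfold EqA
    rcases z2 e2 with rfl | rfl
    · rcases z2 c2 with rfl | rfl
      · constructor
        · rintro ⟨h1, h2, h3, -⟩
          have hε := h1 rfl
          have hα := h2 rfl
          subst hε hα
          refine ⟨fun q => ?_, by simp, by simp⟩
          linear_combination h3 q
        · rintro ⟨h1, h2, h3⟩
          have hε : ε = 0 := by simpa using h3
          have hα : α = 0 := by simpa using h2
          subst hε hα
          refine ⟨fun _ => rfl, fun _ => rfl, fun q => ?_, by simp⟩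
          linear_combination h1 q
      · constructor
        · rintro ⟨h1, -, h3, h4⟩
          have hε := h1 rfl
          subst hε
          refine ⟨fun q => ?_, ?_, by simp⟩
          · linear_combination h3 q
          · linear_combination h4
        · rintro ⟨h1, h2, h3⟩
          have hε : ε = 0 := by simpa using h3
          subst hε
          refine ⟨fun _ => rfl, fun h => absurd h (by decide), fun q => ?_, ?_⟩
          · linear_combination h1 q
          · linear_combination h2
    · have e11 : (1 + 1 : ZMod 2) = 0 := by decide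
      rcases z2 c2 with rfl | rfl
      · constructor
        · rintro ⟨-, h2, h3, -⟩
          have hα := h2 rfl
          subst hα
          refine ⟨fun q => ?_, by simp, by rw [e11, zero_mul]⟩
          linear_combination h3 q
        · rintro ⟨h1, h2, h3⟩
          have hα : α = 0 := by simpa using h2
          subst hα
          refine ⟨fun h => absurd h (by decide), fun _ => rfl, fun q => ?_, by simp⟩
          linear_combination h1 q
      · constructor
        · rintro ⟨-, -, h3, h4⟩
          refine ⟨fun q => ?_, ?_, by rw [e11, zero_mul]⟩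
          · linear_combination h3 q
          · linear_combination h4
        · rintro ⟨h1, h2, h3⟩
          refine ⟨fun h => absurd h (by decide), fun h => absurd h (by decide), fun q => ?_, ?_⟩
          · linear_combination h1 q
          · linear_combination h2
  refine Nat.card_congr ⟨fun z => ⟨vecA z.1.1 z.1.2.1 z.1.2.2, (key _ _ _).1 z.2⟩,
    fun v => ⟨(fun p => v.1 (.inl p), v.1 (.inr 1), v.1 (.inr 0)), (key _ _ _).2 ?_⟩, ?_, ?_⟩
  · have : vecA (fun p => v.1 (.inl p)) (v.1 (.inr 1)) (v.1 (.inr 0)) = v.1 := by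
      funext i
      rcases i with p | i
      · rfl
      · fin_cases i <;> rfl
    show (MA a g h r e2 t c2).mulVec (vecA (fun p => v.1 (.inl p)) (v.1 (.inr 1)) (v.1 (.inr 0)))
      = 0
    rw [this]
    exact v.2
  · intro z
    rfl
  · intro v
    apply Subtype.ext
    funext i
    rcases i with p | i
    · rfl
    · fin_cases i <;> rfl

variable {a g h r e2 t c2}

omit [Fintype S] [DecidableEq S] in
lemma vecA_zero {x : S → ZMod 2} {ε α : ZMod 2} (h0 : vecA x ε α = 0) : x = 0 ∧ ε = 0 ∧ α = 0 := by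
  refine ⟨?_, congrFun h0 (.inr 1), congrFun h0 (.inr 0)⟩
  funext p
  exact congrFun h0 (.inl p)

/-- the dual kernel when `2` is ramified -/
theorem dual_one (he : e2 = 1) (hN : Nat.card (KrA a g h r e2 t c2) = 2) {z : S → ZMod 2}
    {γ : ZMod 2} (hT : EqT a g h r e2 t c2 z γ) : z = 0 ∧ γ = 0 := by
  rw [card_KrA_eq, ← card_ker_transpose] at hN
  have h1 := mul_vecT a g h r e2 t c2 z γ hT
  have h2 : (MA a g h r e2 t c2).transpose.mulVec (vecA 0 1 0) = 0 := by
    funext i
    rcases i with p | i
    · unfold Matrix.mulVec dotProduct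
      rw [Fintype.sum_sum_type, Fin.sum_univ_two]
      show ∑ q, _ * (0 : ZMod 2) + (c2 * r p * 0 + 0 * 1) = 0
      simp
    · have e11 : (1 + 1 : ZMod 2) = 0 := by decide
      fin_cases i
      · unfold Matrix.mulVec dotProduct
        rw [Fintype.sum_sum_type, Fin.sum_univ_two]
        show ∑ q, _ * (0 : ZMod 2) + (1 * 0 + 0 * 1) = 0
        simp
      · unfold Matrix.mulVec dotProduct
        rw [Fintype.sum_sum_type, Fin.sum_univ_two]
        show ∑ q, _ * (0 : ZMod 2) + (c2 * e2 * 0 + (1 + e2) * 1) = 0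
        rw [he]
        simp [e11]
  by_cases h0 : vecA z 0 γ = 0
  · obtain ⟨k1, -, k3⟩ := vecA_zero h0
    exact ⟨k1, k3⟩
  · exfalso
    have h3 := eq_of_two (P := fun v => (MA a g h r e2 t c2).transpose.mulVec v = 0) hN
      (Matrix.mulVec_zero _) h1 h2 h0 (fun h => one_ne_zero (congrFun h (.inr 1)))
    have h4 := congrFun h3 (.inr 1)
    exact absurd h4 (by show ¬ (0 : ZMod 2) = 1; decide)

/-- the dual kernel in general -/
theorem dual_two (hN : Nat.card (KrA a g h r e2 t c2) = 2) {z z' : S → ZMod 2}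
    {γ γ' : ZMod 2} (hT : EqT a g h r e2 t c2 z γ) (hT' : EqT a g h r e2 t c2 z' γ')
    (hne : ¬ (z' = 0 ∧ γ' = 0)) : (z = 0 ∧ γ = 0) ∨ (z = z' ∧ γ = γ') := by
  rw [card_KrA_eq, ← card_ker_transpose] at hN
  have h1 := mul_vecT a g h r e2 t c2 z γ hT
  have h2 := mul_vecT a g h r e2 t c2 z' γ' hT'
  by_cases h0 : vecA z 0 γ = 0
  · obtain ⟨k1, -, k3⟩ := vecA_zero h0
    exact Or.inl ⟨k1, k3⟩
  · right
    have h3 := eq_of_two (P := fun v => (MA a g h r e2 t c2).transpose.mulVec v = 0) hN
      (Matrix.mulVec_zero _) h1 h2 h0 (fun h => hne (by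
        obtain ⟨k1, -, k3⟩ := vecA_zero h
        exact ⟨k1, k3⟩))
    refine ⟨?_, congrFun h3 (.inr 0)⟩
    funext p
    exact congrFun h3 (.inl p)

end kr

end Vale.Agent.P017.H626
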