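import Vale.Agent.P017.H626.J1
import Vale.Agent.P017.H626.D4

/-!
Sums of Legendre symbols over the prime factors, and the vector of the first descent.
-/

namespace Vale.Agent.P017.H626

open Finset Function Vale.Agent.P014.H580 Vale.Agent.P014.FM

/-- indicator of divisibility -/
def xv (B : ℕ) {n : ℕ} : n.primeFactors → ZMod 2 := fun p => if (p : ℕ) ∣ B then 1 else 0

lemma xv_pos {n B : ℕ} {p : n.primeFactors} (h : (p : ℕ) ∣ B) : xv B p = 1 := if_pos h

lemma xv_neg {n B : ℕ} {p : n.primeFactors} (h : ¬ (p : ℕ) ∣ B) : xv B p = 0 := if_neg h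

lemma sum_left {n B c : ℕ} (hn : Squarefree n) (hB : B ∣ n) (hc : Nat.Coprime B c) :
    sg2 (∑ p : n.primeFactors, leg p c * xv B p) = J B c := by
  rw [sg2_sum]
  have h1 : ∀ p : n.primeFactors, sg2 (leg p c * xv B p) = if (p : ℕ) ∣ B then J p c else 1 := by
    intro p
    by_cases hp : (p : ℕ) ∣ B
    · rw [xv_pos hp, if_pos hp, mul_one, sg2_leg (hc.coprime_dvd_left hp)]
    · rw [xv_neg hp, if_neg hp, mul_zero, sg2_zero]
  rw [Finset.prod_congr rfl fun p _ => h1 p, ← Finset.prod_filter, ← J_prod_left,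
    prod_filter_dvd hn hB]

lemma sum_right {n B c : ℕ} (hn : Squarefree n) (hB : B ∣ n) (hc : Nat.Coprime c B) :
    sg2 (∑ p : n.primeFactors, xv B p * leg c p) = J c B := by
  rw [sg2_sum]
  have h1 : ∀ p : n.primeFactors, sg2 (xv B p * leg c p) = if (p : ℕ) ∣ B then J c p else 1 := by
    intro p
    by_cases hp : (p : ℕ) ∣ B
    · rw [xv_pos hp, if_pos hp, one_mul, sg2_leg (hc.coprime_dvd_right hp)]
    · rw [xv_neg hp, if_neg hp, zero_mul, sg2_zero]
  rw [Finset.prod_congr rfl fun p _ => h1 p, ← Finset.prod_filter, ← J_prod_right,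
    prod_filter_dvd hn hB]
  intro p hp
  exact (Nat.prime_of_mem_primeFactors p.2).ne_zero

lemma leg_self (p : ℕ) : leg p p = 0 := by
  unfold leg
  by_cases hp : p ≤ 1
  · interval_cases p <;> simp
  · rw [if_neg]
    have hne : NeZero p := ⟨by omega⟩
    have : jacobiSym (p : ℤ) p = 0 := by
      rw [jacobiSym.eq_zero_iff_not_coprime, Int.gcd_natCast_natCast, Nat.gcd_self]
      omega
    rw [this]
    norm_num

/-- dividing by a prime -/
lemma dvd_div_iff' {B : ℕ} {p q : ℕ} (hp : p.Prime)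
    (hq : q.Prime) (hpB : p ∣ B) (hqp : q ≠ p) : q ∣ B / p ↔ q ∣ B := by
  constructor
  · intro h
    exact h.trans (Nat.div_dvd_of_dvd hpB)
  · intro h
    obtain ⟨c, hc⟩ := hpB
    rw [hc, Nat.mul_div_cancel_left _ hp.pos]
    rw [hc] at h
    exact (((Nat.coprime_primes hq hp).2 hqp).dvd_mul_left).1 h

lemma sum_right_self {n B : ℕ} (hn : Squarefree n) (hB : B ∣ n) (p : n.primeFactors)
    (hp : (p : ℕ) ∣ B) :
    sg2 (∑ q : n.primeFactors, xv B q * leg p q) = J p (B / p) := by
  have hpp := Nat.prime_of_mem_primeFactors p.2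
  have h1 : ∑ q : n.primeFactors, xv B q * leg p q
      = ∑ q : n.primeFactors, xv (B / p) q * leg p q := by
    refine Finset.sum_congr rfl fun q _ => ?_
    by_cases hqp : (q : ℕ) = p
    · rw [hqp, leg_self, mul_zero, mul_zero]
    · congr 1
      unfold xv
      rw [if_congr (dvd_div_iff' hpp (Nat.prime_of_mem_primeFactors q.2) hp hqp).symm rfl rfl]
  rw [h1, sum_right hn ((Nat.div_dvd_of_dvd hp).trans hB)]
  have h2 : p * (B / p) = B := Nat.mul_div_cancel' hp
  have h3 : Squarefree ((p : ℕ) * (B / p)) := by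
    rw [h2]
    exact hn.squarefree_of_dvd hB
  exact (Nat.squarefree_mul_iff.1 h3).1

lemma sum_left_self {n : ℕ} (hn : Squarefree n) (p : n.primeFactors) :
    sg2 (∑ q : n.primeFactors, leg q p) = J (n / p) p := by
  have hpp := Nat.prime_of_mem_primeFactors p.2
  have hpn := Nat.dvd_of_mem_primeFactors p.2
  have h1 : ∑ q : n.primeFactors, leg q p
      = ∑ q : n.primeFactors, leg q p * xv (n / p) q := by
    refine Finset.sum_congr rfl fun q _ => ?_
    by_cases hqp : (q : ℕ) = p
    · rw [hqp, leg_self, zero_mul]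
    · rw [xv_pos, mul_one]
      rw [dvd_div_iff' hpp (Nat.prime_of_mem_primeFactors q.2) hpn hqp]
      exact Nat.dvd_of_mem_primeFactors q.2
  rw [h1, sum_left hn (Nat.div_dvd_of_dvd hpn)]
  have h2 : p * (n / p) = n := Nat.mul_div_cancel' hpn
  have h3 : Squarefree ((p : ℕ) * (n / p)) := by
    rw [h2]
    exact hn
  exact (Nat.squarefree_mul_iff.1 h3).1.symm

lemma J_pow_left (a k c : ℕ) : J (a ^ k) c = J a c ^ k := by
  induction k with
  | zero => rw [pow_zero, pow_zero, J_one_left']
  | succ k ih => rw [pow_succ, pow_succ, J_mul_left, ih]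

lemma cop_of_dvd_sqf {n B : ℕ} (hn : Squarefree n) (hB : B ∣ n) {q : ℕ} (h : q ∣ B) : Nat.Coprime (n / B) q := by
  have h2 : B * (n / B) = n := Nat.mul_div_cancel' hB
  have h3 : Squarefree (B * (n / B)) := by
    rw [h2]
    exact hn
  exact ((Nat.squarefree_mul_iff.1 h3).1.coprime_dvd_left h).symm

/-- **the vector of the first descent** -/
theorem first_EqA {n B : ℕ} {e2 t c2 ε α : ZMod 2} (hn : Squarefree n) (hodd : Odd n)
    (hB : B ∣ n) (he : e2 = 0 → ε = 0) (hc : c2 = 0 → α = 0) (h5 : α = 1 → ¬ 5 ∣ n)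
    (h3n : c2 = 1 → Nat.Coprime B 3)
    (hl1 : ∀ q : ℕ, q.Prime → q ∣ n → ¬ q ∣ B → J (2 ^ ε.val * 5 ^ α.val * B) q = 1)
    (hl2 : ∀ q : ℕ, q.Prime → q ∣ n → q ∣ B →
      J (2 ^ t.val * 2 ^ ε.val * 5 ^ α.val * (n / B)) q = 1)
    (h3 : c2 = 1 → J (2 ^ ε.val * 5 ^ α.val * B) 3 = 1) :
    EqA (S := n.primeFactors) (fun p q => leg p q) (fun q => leg 2 q) (fun q => leg 5 q)
      (fun p => leg p 3) e2 t c2 (xv B) ε α := by
  have hpr : ∀ p : n.primeFactors, (p : ℕ).Prime := fun p => Nat.prime_of_mem_primeFactors p.2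
  have hpd : ∀ p : n.primeFactors, (p : ℕ) ∣ n := fun p => Nat.dvd_of_mem_primeFactors p.2
  have hodd' : ∀ p : n.primeFactors, Odd (p : ℕ) := fun p => Odd.of_dvd_nat hodd (hpd p)
  have h2q : ∀ q : n.primeFactors, sg2 (leg 2 q) = J 2 q := fun q =>
    sg2_leg (Nat.coprime_two_left.2 (hodd' q))
  have h5q : ∀ q : n.primeFactors, sg2 (leg 5 q * α) = J 5 q ^ α.val := by
    intro q
    rw [mul_comm, sg2_pow]
    rcases z2 α with h | h
    · rw [h]
      simp
    · rw [sg2_leg]
      rw [Nat.coprime_primes Nat.prime_five (hpr q)]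
      intro h6
      apply h5 h
      rw [h6]
      exact hpd q
  refine ⟨he, hc, fun q => ?_, ?_⟩
  · apply sg2_inj0
    rw [sg2_add, sg2_add, h5q]
    by_cases hq : (q : ℕ) ∣ B
    · have h6 : ∑ p : n.primeFactors, leg p q * (xv B p + xv B q)
          = ∑ p : n.primeFactors, leg p q * xv (n / B) p := by
        refine Finset.sum_congr rfl fun p _ => ?_
        rw [xv_pos hq]
        congr 1
        by_cases hp : (p : ℕ) ∣ B
        · rw [xv_pos hp, xv_neg, zmod2_add_self]
          intro h7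
          have h8 := (cop_of_dvd_sqf hn hB hp).coprime_dvd_left h7
          rw [Nat.coprime_self] at h8
          exact (hpr p).one_lt.ne' h8
        · rw [xv_neg hp, xv_pos, zero_add]
          have h7 : (p : ℕ) ∣ B * (n / B) := by
            rw [Nat.mul_div_cancel' hB]
            exact hpd p
          exact ((hpr p).dvd_mul.1 h7).resolve_left hp
      rw [h6, sum_left hn (Nat.div_dvd_of_dvd hB) (cop_of_dvd_sqf hn hB hq), xv_pos hq,
        mul_one, mul_comm (leg 2 q), sg2_pow, h2q]
      have h9 := hl2 q (hpr q) (hpd q) hq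
      rw [J_mul_left, J_mul_left, J_mul_left, J_pow_left, J_pow_left, J_pow_left] at h9
      have h10 : J 2 q ^ (ε + t).val = J 2 q ^ t.val * J 2 q ^ ε.val := by
        rw [← h2q]
        rcases z2 ε with h | h <;> rcases z2 t with h' | h' <;> rw [h, h']
        · simp
        · simp
        · simp
        · have e1 : ((1 : ZMod 2) + 1).val = 0 := rfl
          have e2 : (1 : ZMod 2).val = 1 := rfl
          rw [e1, e2, pow_zero, pow_one, sg2_sq]
      rw [h10, ← h9]
      ring
    · have h6 : ∑ p : n.primeFactors, leg p q * (xv B p + xv B q)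
          = ∑ p : n.primeFactors, leg p q * xv B p := by
        refine Finset.sum_congr rfl fun p _ => ?_
        rw [xv_neg hq, add_zero]
      rw [h6, sum_left hn hB, xv_neg hq, mul_zero, add_zero, mul_comm (leg 2 q), sg2_pow, h2q]
      · have h9 := hl1 q (hpr q) (hpd q) hq
        rw [J_mul_left, J_mul_left, J_pow_left, J_pow_left] at h9
        rw [← h9]
        ring
      · exact ((Nat.Prime.coprime_iff_not_dvd (hpr q)).2 hq).symm
  · rcases z2 c2 with hc0 | hc1
    · rw [hc0, zero_mul]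
    · rw [hc1, one_mul]
      apply sg2_inj0
      rw [sg2_add, sg2_add, sum_left hn hB (h3n hc1)]
      have h9 := h3 hc1
      rw [J_mul_left, J_mul_left, J_pow_left, J_pow_left] at h9
      have e2 : J 2 3 = -1 := by
        unfold J
        have : jacobiSym ((2 : ℕ) : ℤ) 3 = -1 := by norm_num
        rw [this]
        norm_num
      have e5 : J 5 3 = -1 := by
        unfold J
        have : jacobiSym ((5 : ℕ) : ℤ) 3 = -1 := by norm_num
        rw [this]
        norm_num
      have hz : ∀ x : ZMod 2, sg2 x = (-1) ^ x.val := by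
        intro x
        rcases z2 x with h | h <;> rw [h]
        · rw [sg2_zero]; simp
        · rw [sg2_one]; simp [ZMod.val_one]
      rw [e2, e5] at h9
      rw [hz, hz]
      linear_combination h9

end Vale.Agent.P017.H626
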