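import Vale.Agent.P017.H626.J2
import Vale.Agent.P017.H626.G1

/-!
The first descent.
-/

namespace Vale.Agent.P017.H626

open Finset Function Vale.Agent.P014.H580 Vale.Agent.P014.FM
open Vale.Agent.P017.H185 (Cond1 Cond2 exists_sqf exists_int_eq exists_prim two_adic_first
  five_adic_first prime_dvd_gen not_dvd_of_sqf zero_iff ne_iff ndvd_mul ndvd_sq J_prime_one)

theorem nloc_a {q : ℕ} (hq : q.Prime) {X Y Z b δ : ℤ} (h : X ^ 2 + q * δ * Y ^ 2 = b * Z ^ 2)
    (hδ : ¬ (q : ℤ) ∣ δ) (hprim : ¬ ((q : ℤ) ∣ X ∧ (q : ℤ) ∣ Y ∧ (q : ℤ) ∣ Z)) :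
    IsSquare (b : ZMod q) := by
  have := Fact.mk hq
  have hq' : Prime (q : ℤ) := Nat.prime_iff_prime_int.mp hq
  have hZ : ¬ (q : ℤ) ∣ Z := by
    intro hZ
    have h1 : (q : ℤ) ∣ X ^ 2 := by
      have : X ^ 2 = b * Z ^ 2 - q * (δ * Y ^ 2) := by linarith
      rw [this]
      exact dvd_sub (Dvd.dvd.mul_left (Dvd.dvd.pow hZ two_ne_zero) _) (dvd_mul_right _ _)
    obtain ⟨x, hx⟩ := hq'.dvd_of_dvd_pow h1
    obtain ⟨z, hz⟩ := hZ
    have h3 : (q : ℤ) ∣ δ * Y ^ 2 := by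
      refine ⟨b * z ^ 2 - x ^ 2, ?_⟩
      apply mul_left_cancel₀ hq'.ne_zero
      rw [hx, hz] at h
      linear_combination h
    rcases hq'.dvd_or_dvd h3 with h4 | h4
    · exact hδ h4
    · exact hprim ⟨⟨x, hx⟩, hq'.dvd_of_dvd_pow h4, ⟨z, hz⟩⟩
  have hZ0 : ((Z : ℤ) : ZMod q) ≠ 0 := ne_iff.mpr hZ
  refine ⟨(X : ZMod q) / Z, ?_⟩
  have h1 := congrArg (Int.cast : ℤ → ZMod q) h
  push_cast at h1
  rw [ZMod.natCast_self] at h1
  field_simp
  linear_combination -h1

theorem nloc_b {q : ℕ} (hq : q.Prime) {X Y Z β δ : ℤ}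
    (h : X ^ 2 + q * δ * Y ^ 2 = q * β * Z ^ 2)
    (hβ : ¬ (q : ℤ) ∣ β) (hprim : ¬ ((q : ℤ) ∣ X ∧ (q : ℤ) ∣ Y ∧ (q : ℤ) ∣ Z)) :
    IsSquare ((δ * β : ℤ) : ZMod q) := by
  have := Fact.mk hq
  have hq' : Prime (q : ℤ) := Nat.prime_iff_prime_int.mp hq
  have h1 : (q : ℤ) ∣ X ^ 2 := ⟨β * Z ^ 2 - δ * Y ^ 2, by linear_combination h⟩
  obtain ⟨x, hx⟩ := hq'.dvd_of_dvd_pow h1
  have h2 : q * x ^ 2 + δ * Y ^ 2 = β * Z ^ 2 := by
    apply mul_left_cancel₀ hq'.ne_zero
    rw [hx] at h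
    linear_combination h
  have hY : ¬ (q : ℤ) ∣ Y := by
    rintro ⟨y, hy⟩
    have h3 : (q : ℤ) ∣ β * Z ^ 2 := ⟨x ^ 2 + δ * q * y ^ 2, by rw [← h2, hy]; ring⟩
    rcases hq'.dvd_or_dvd h3 with h4 | h4
    · exact hβ h4
    · exact hprim ⟨⟨x, hx⟩, ⟨y, hy⟩, hq'.dvd_of_dvd_pow h4⟩
  have hY0 : ((Y : ℤ) : ZMod q) ≠ 0 := ne_iff.mpr hY
  refine ⟨(β * Z : ZMod q) / Y, ?_⟩
  have h3 := congrArg (Int.cast : ℤ → ZMod q) h2
  push_cast at h3 ⊢
  rw [ZMod.natCast_self] at h3
  field_simp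
  linear_combination (β : ZMod q) * h3

lemma J_of_sqZ {m : ℕ} {q : ℕ} (hq : q.Prime) (hqm : ¬ q ∣ m) {z : ℤ} (hz : z = m)
    (h : IsSquare (z : ZMod q)) : J m q = 1 := by
  apply J_of_sq hq hqm
  rw [hz] at h
  exact_mod_cast h

/-- the residue modulo three in the first descent -/
lemma first_three {b M e N d : ℤ} (hMe : IsCoprime M e) (hd : d % 3 = 1) (hb : ¬ (3 : ℤ) ∣ b)
    (h : (b * M ^ 2 + (-16 * d) * e ^ 2) * (b * M ^ 2 + (-25 * d) * e ^ 2) = b * N ^ 2) :
    b % 3 = 1 := by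
  by_contra hcon
  have hb2 : b % 3 = 2 := by omega
  have key : ∀ b d M e N : ZMod 3, b = 2 → d = 1 →
      (b * M ^ 2 + (-16 * d) * e ^ 2) * (b * M ^ 2 + (-25 * d) * e ^ 2) = b * N ^ 2 →
      M = 0 ∧ e = 0 := by decide
  have h1 := congrArg (Int.cast : ℤ → ZMod 3) h
  push_cast at h1
  have hbz : (b : ZMod 3) = 2 := by
    exact_mod_cast (ZMod.intCast_eq_intCast_iff_dvd_sub b 2 3).mpr (by push_cast; omega)
  have hdz : (d : ZMod 3) = 1 := by
    exact_mod_cast (ZMod.intCast_eq_intCast_iff_dvd_sub d 1 3).mpr (by push_cast; omega)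
  obtain ⟨h2, h3⟩ := key _ _ _ _ _ hbz hdz h1
  rw [zero_iff] at h2 h3
  exact Vale.Agent.P017.H185.cop_ndvd Nat.prime_three hMe h3 h2

lemma dvd_ten {k : ℕ} (hk : Squarefree k) (h : ∀ p : ℕ, p.Prime → p ∣ k → p = 2 ∨ p = 5) :
    ∃ ε α : ZMod 2, k = 2 ^ ε.val * 5 ^ α.val := by
  have h1 : k ∣ 10 := by
    rw [← Nat.prod_primeFactors_of_squarefree hk]
    apply Finset.prod_primes_dvd
    · intro p hp; exact (Nat.prime_of_mem_primeFactors hp).prime
    · intro p hp
      rcases h p (Nat.prime_of_mem_primeFactors hp) (Nat.dvd_of_mem_primeFactors hp) with h2 | h2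
      · rw [h2]; norm_num
      · rw [h2]; norm_num
  have h2 : k ≤ 10 := Nat.le_of_dvd (by norm_num) h1
  have e0 : (0 : ZMod 2).val = 0 := rfl
  have e1 : (1 : ZMod 2).val = 1 := rfl
  have h3 : k = 1 ∨ k = 2 ∨ k = 5 ∨ k = 10 := by
    interval_cases k <;> omega
  rcases h3 with rfl | rfl | rfl | rfl
  · exact ⟨0, 0, by rw [e0]; norm_num⟩
  · exact ⟨1, 0, by rw [e0, e1]; norm_num⟩
  · exact ⟨0, 1, by rw [e0, e1]; norm_num⟩
  · exact ⟨1, 1, by rw [e1]; norm_num⟩

lemma not_dvd_of_odd_dvd {n q : ℕ} (hodd : Odd n) (hq : q.Prime) (hqn : q ∣ n) (k : ℕ) :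
    ¬ q ∣ 2 ^ k := by
  intro h
  have h1 := (Nat.prime_dvd_prime_iff_eq hq Nat.prime_two).1 (hq.dvd_of_dvd_pow h)
  rw [h1] at hqn
  exact absurd (even_iff_two_dvd.2 hqn) (Nat.not_even_iff_odd.2 hodd)

/-- **the first descent** -/
theorem first_desc {n d : ℕ} {e2 t c2 : ZMod 2} (hd : d = 2 ^ t.val * n) (hn : Squarefree n)
    (hodd : Odd n) (hte : e2 = 0 → d % 4 = 3) (hC1 : c2 = 0 → d % 5 ≠ 1 ∧ d % 5 ≠ 4)
    (hC2 : c2 = 1 → d % 3 = 1) (hN : NA e2 t c2 n = 2) (hne : n ≠ 1 ∨ t = 1)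
    (hone : EqA (S := n.primeFactors) (fun p q => leg p q) (fun q => leg 2 q) (fun q => leg 5 q)
      (fun p => leg p 3) e2 t c2 (fun _ => 1) t 0) : Cond1 (d : ℚ) := by
  have hn0 := hn.ne_zero
  have hdpos : 0 < d := by
    rw [hd]
    exact Nat.mul_pos (Nat.pow_pos (by norm_num)) (Nat.pos_of_ne_zero hn0)
  have hdQ : (0 : ℚ) < d := by exact_mod_cast hdpos
  intro x y h hx
  have hx20 : x - 20 * d ≠ 0 := by
    intro h0
    have hx' : x = 20 * d := by linarith
    rw [hx'] at h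
    have : y ^ 2 = -(400 * (d : ℚ) ^ 3) := by rw [h]; ring
    have h3 : 0 < (d : ℚ) ^ 3 := by positivity
    nlinarith [sq_nonneg y]
  have hxpos : 0 < x := by
    rcases lt_or_gt_of_ne hx with hneg | hpos
    · exfalso
      have h3 : 0 < (x - 16 * d) * (x - 25 * d) := by nlinarith
      have h4 : y ^ 2 = x * ((x - 16 * d) * (x - 25 * d)) := by rw [h]; ring
      nlinarith [sq_nonneg y]
    · exact hpos
  obtain ⟨b, M, e, hb, hMe, hM, he, hXb⟩ := exists_sqf hx
  obtain ⟨N, hNN⟩ := exists_int_eq (Y := y) (α := -16 * (d : ℤ)) (β := -25 * (d : ℤ)) hb hM he hXb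
    (by push_cast; rw [h]; ring)
  have hr0 : (M / e : ℚ) ≠ 0 := div_ne_zero (by exact_mod_cast hM) (by exact_mod_cast he)
  have hbpos : 0 < b := by
    have h3 : (0 : ℚ) < (M / e : ℚ) ^ 2 := by positivity
    have h4 : (0 : ℚ) < b := by
      rw [hXb] at hxpos
      exact pos_of_mul_pos_left hxpos h3.le
    exact_mod_cast h4
  lift b to ℕ using hbpos.le
  have hbsq : Squarefree b := Int.squarefree_natCast.mp hb
  have hbp : ∀ p : ℕ, p.Prime → p ∣ b → ¬ p ∣ d → p = 2 ∨ p = 5 := by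
    intro p hp hpb hpd
    have hpbZ : (p : ℤ) ∣ (b : ℤ) := Int.natCast_dvd_natCast.mpr hpb
    by_contra hcon
    push Not at hcon
    apply prime_dvd_gen hp hb hMe hNN hpbZ
    · intro h1
      rcases (Nat.prime_iff_prime_int.mp hp).dvd_or_dvd h1 with h1 | h1
      · rw [Int.dvd_neg] at h1
        have h3 : p ∣ 2 ^ 4 := by exact_mod_cast h1
        exact hcon.1 ((Nat.prime_dvd_prime_iff_eq hp Nat.prime_two).mp (hp.dvd_of_dvd_pow h3))
      · exact hpd (by exact_mod_cast h1)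
    · intro h1
      rcases (Nat.prime_iff_prime_int.mp hp).dvd_or_dvd h1 with h1 | h1
      · rw [Int.dvd_neg] at h1
        have h3 : p ∣ 5 ^ 2 := by exact_mod_cast h1
        exact hcon.2 ((Nat.prime_dvd_prime_iff_eq hp Nat.prime_five).mp (hp.dvd_of_dvd_pow h3))
      · exact hpd (by exact_mod_cast h1)
  -- the norm equation
  obtain ⟨u, v, huv⟩ : ∃ u v : ℚ, u ^ 2 + d * v ^ 2 = b := by
    obtain ⟨r, hr⟩ : ∃ r : ℚ, r = M / e := ⟨_, rfl⟩
    rw [← hr] at hXb hr0
    push_cast at hXb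
    obtain ⟨z, hz⟩ : ∃ z, z = x - 20 * d := ⟨_, rfl⟩
    rw [← hz] at hx20
    have hy2 : y ^ 2 = b * r ^ 2 * (z ^ 2 - d * (b * r ^ 2)) := by
      rw [h, hz, hXb]; ring
    refine ⟨y / (r * z), b * r / z, ?_⟩
    rw [div_pow, div_pow, mul_pow, mul_pow, hy2]
    field_simp
    ring
  obtain ⟨X, Y, Z, hZ, hXX, hYY, hprim⟩ := exists_prim u v
  have heq : X ^ 2 + d * Y ^ 2 = b * Z ^ 2 := by
    have : (X : ℚ) ^ 2 + d * Y ^ 2 = b * Z ^ 2 := by
      rw [← hXX, ← hYY, ← huv]; ring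
    exact_mod_cast this
  -- decomposition of `b`
  obtain ⟨B, hB⟩ : ∃ B, B = Nat.gcd b n := ⟨_, rfl⟩
  have hBb : B ∣ b := by rw [hB]; exact Nat.gcd_dvd_left _ _
  have hBn : B ∣ n := by rw [hB]; exact Nat.gcd_dvd_right _ _
  obtain ⟨k, hk⟩ := hBb
  have hksq : Squarefree k := hbsq.squarefree_of_dvd ⟨B, by rw [hk]; ring⟩
  have hBk : Nat.Coprime B k := by
    have h1 : Squarefree (B * k) := by rw [← hk]; exact hbsq
    exact (Nat.squarefree_mul_iff.1 h1).1
  have hkn : ∀ p : ℕ, p.Prime → p ∣ k → ¬ p ∣ n := by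
    intro p hp hpk hpn
    have h1 : p ∣ B := by
      rw [hB]
      exact Nat.dvd_gcd (hpk.trans ⟨B, by rw [hk]; ring⟩) hpn
    have h2 := Nat.dvd_gcd h1 hpk
    rw [hBk] at h2
    exact hp.one_lt.ne' (Nat.dvd_one.1 h2)
  obtain ⟨ε, α, hεα⟩ := dvd_ten hksq (fun p hp hpk => by
    by_cases hp2 : p = 2
    · exact Or.inl hp2
    · refine hbp p hp (hpk.trans ⟨B, by rw [hk]; ring⟩) ?_
      rw [hd]
      intro h1
      rcases hp.dvd_mul.1 h1 with h1 | h1
      · exact hp2 ((Nat.prime_dvd_prime_iff_eq hp Nat.prime_two).1 (hp.dvd_of_dvd_pow h1))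
      · exact hkn p hp hpk h1)
  have hbe : b = 2 ^ ε.val * 5 ^ α.val * B := by rw [hk, hεα]; ring
  have e1 : (1 : ZMod 2).val = 1 := rfl
  have hα5 : α = 1 → ¬ 5 ∣ n ∧ 5 ∣ b := by
    intro h1
    have h2 : 5 ∣ k := by
      rw [hεα, h1, e1, pow_one]
      exact dvd_mul_left _ _
    exact ⟨hkn 5 Nat.prime_five h2, h2.trans ⟨B, by rw [hk]; ring⟩⟩
  have hε2 : ε = 1 → 2 ∣ b := by
    intro h1
    rw [hbe, h1, e1, pow_one, mul_assoc]
    exact dvd_mul_right _ _
  have hgcd : ∀ q : ℕ, q ∣ n → q ∣ b → q ∣ B := by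
    intro q h1 h2
    rw [hB]
    exact Nat.dvd_gcd h2 h1
  have hndelta : ∀ {q m : ℕ}, q.Prime → n = q * m → ¬ ((q : ℤ) ∣ ((2 ^ t.val * m : ℕ) : ℤ)) := by
    intro q m hq hqm h1
    rw [Int.natCast_dvd_natCast] at h1
    rcases hq.dvd_mul.1 h1 with h2 | h2
    · exact not_dvd_of_odd_dvd hodd hq ⟨m, hqm⟩ _ h2
    · obtain ⟨c, hc⟩ := h2
      have := hn q ⟨c, by rw [hqm, hc]; ring⟩
      exact hq.one_lt.ne' (Nat.isUnit_iff.mp this)
  have hEq : EqA (S := n.primeFactors) (fun p q => leg p q) (fun q => leg 2 q) (fun q => leg 5 q)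
      (fun p => leg p 3) e2 t c2 (xv B) ε α := by
    apply first_EqA hn hodd hBn
    · -- `ε`
      intro h0
      rcases z2 ε with h1 | h1
      · exact h1
      · exfalso
        have h4 := hte h0
        exact two_adic_first hb hMe (by omega) hNN (by exact_mod_cast hε2 h1)
    · -- `α`
      intro h0
      rcases z2 α with h1 | h1
      · exact h1
      · exfalso
        obtain ⟨h5n, h5b⟩ := hα5 h1
        have h5d : ¬ 5 ∣ d := by
          rw [hd]
          intro h2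
          rcases Nat.prime_five.dvd_mul.1 h2 with h2 | h2
          · exact absurd ((Nat.prime_dvd_prime_iff_eq Nat.prime_five Nat.prime_two).1
              (Nat.prime_five.dvd_of_dvd_pow h2)) (by norm_num)
          · exact h5n h2
        have h6 := five_adic_first hb hMe (fun h => h5d (by exact_mod_cast h)) hNN
          (by exact_mod_cast h5b)
        have key : ∀ z : ZMod 5, IsSquare (-z) → z = 0 ∨ z = 1 ∨ z = 4 := by decide
        have h7 := key ((d : ℤ) : ZMod 5) h6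
        push_cast at h7
        rcases h7 with h7 | h7 | h7
        · rw [ZMod.natCast_eq_zero_iff] at h7
          exact h5d h7
        · have h8 : ((d : ℕ) : ZMod 5) = ((1 : ℕ) : ZMod 5) := by exact_mod_cast h7
          rw [ZMod.natCast_eq_natCast_iff] at h8
          exact (hC1 h0).1 h8
        · have h8 : ((d : ℕ) : ZMod 5) = ((4 : ℕ) : ZMod 5) := by exact_mod_cast h7
          rw [ZMod.natCast_eq_natCast_iff] at h8
          exact (hC1 h0).2 h8
    · intro h1
      exact (hα5 h1).1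
    · intro h1
      have h2 := hC2 h1
      rw [Nat.coprime_comm, Nat.Prime.coprime_iff_not_dvd Nat.prime_three]
      intro h3
      have h4 : 3 ∣ d := by
        rw [hd]
        exact (h3.trans hBn).mul_left _
      omega
    · -- local conditions, first kind
      intro q hq hqn hqB
      obtain ⟨m, hm⟩ := hqn
      have h1 := nloc_a hq (X := X) (Y := Y) (Z := Z) (b := b) (δ := ((2 ^ t.val * m : ℕ) : ℤ))
        (by rw [← heq, hd, hm]; push_cast; ring) (hndelta hq hm) (hprim q hq)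
      rw [← hbe]
      exact J_of_sqZ hq (fun h => hqB (hgcd q ⟨m, hm⟩ h)) rfl h1
    · -- local conditions, second kind
      intro q hq hqn hqB
      obtain ⟨C, hC⟩ := hqB
      obtain ⟨m, hm⟩ := hBn
      have hnm : n / B = m := by
        rw [hm]
        exact Nat.mul_div_cancel_left _ (Nat.pos_of_ne_zero (by
          rintro h0
          rw [h0, zero_mul] at hm
          exact hn0 hm))
      rw [hnm]
      have hnq : n = q * (C * m) := by rw [hm, hC]; ring
      have hbq : (b : ℤ) = q * ((2 ^ ε.val * 5 ^ α.val * C : ℕ) : ℤ) := by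
        rw [hbe, hC]; push_cast; ring
      have hβ := not_dvd_of_sqf hq hb hbq
      have h1 := nloc_b hq (X := X) (Y := Y) (Z := Z)
        (β := ((2 ^ ε.val * 5 ^ α.val * C : ℕ) : ℤ)) (δ := ((2 ^ t.val * (C * m) : ℕ) : ℤ))
        (by rw [← hbq, ← heq, hd, hnq]; push_cast; ring) hβ (hprim q hq)
      have hδ := hndelta hq hnq
      rw [Int.natCast_dvd_natCast] at hβ hδ
      have h2 := J_of_sqZ hq (m := 2 ^ t.val * (C * m) * (2 ^ ε.val * 5 ^ α.val * C)) (by
        intro h3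
        rcases hq.dvd_mul.1 h3 with h3 | h3
        · exact hδ h3
        · exact hβ h3) (by push_cast; ring) h1
      have h3 : 2 ^ t.val * (C * m) * (2 ^ ε.val * 5 ^ α.val * C)
          = 2 ^ t.val * 2 ^ ε.val * 5 ^ α.val * m * (C * C) := by ring
      have hCq : Nat.Coprime C q := by
        rw [Nat.coprime_comm, Nat.Prime.coprime_iff_not_dvd hq]
        intro h4
        exact hδ ((h4.mul_right m).mul_left _)
      rw [h3, J_mul_left _ (C * C), J_mul_left C C, J_sq hCq, mul_one] at h2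
      exact h2
    · -- at three
      intro h1
      have h2 := hC2 h1
      have h3b : ¬ 3 ∣ b := by
        intro h3
        have := hbp 3 Nat.prime_three h3 (by omega)
        omega
      have h4 := first_three hMe (by omega) (by exact_mod_cast h3b) hNN
      rw [← hbe]
      unfold J
      have h5 : jacobiSym (b : ℤ) 3 = 1 := by
        by_contra h6
        exact (jac3 b).1 h6 (by omega)
      rw [h5]
      norm_num
  -- conclusion
  have hcard : Nat.card (KnA e2 t c2 n) = 2 := hN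
  have hpr : ∀ p : n.primeFactors, (p : ℕ).Prime := fun p => Nat.prime_of_mem_primeFactors p.2
  have e0 : (0 : ZMod 2).val = 0 := rfl
  refine ⟨M / e, ?_⟩
  by_cases hzero : ((xv B, ε, α) : (n.primeFactors → ZMod 2) × ZMod 2 × ZMod 2) = 0
  · left
    have h1 : ∀ p : n.primeFactors, ¬ (p : ℕ) ∣ B := by
      intro p hp
      have := congrFun (congrArg Prod.fst hzero) p
      rw [show (((xv B, ε, α) : (n.primeFactors → ZMod 2) × ZMod 2 × ZMod 2)).1 p = 1 from
        xv_pos hp] at this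
      exact one_ne_zero this
    have h2 : B = 1 := by
      by_contra hB1
      obtain ⟨p, hp, hpB⟩ := Nat.exists_prime_and_dvd hB1
      exact h1 ⟨p, Nat.mem_primeFactors.2 ⟨hp, hpB.trans hBn, hn0⟩⟩ hpB
    have h3 : ε = 0 := congrArg (fun z => z.2.1) hzero
    have h4 : α = 0 := congrArg (fun z => z.2.2) hzero
    have h5 : b = 1 := by rw [hbe, h2, h3, h4, e0]; norm_num
    rw [hXb, h5]; push_cast; ring
  · right
    have h0 : ((fun _ => 1, t, 0) : (n.primeFactors → ZMod 2) × ZMod 2 × ZMod 2) ≠ 0 := by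
      intro h1
      rcases hne with h2 | h2
      · obtain ⟨p, hp, hpn⟩ := Nat.exists_prime_and_dvd h2
        have := congrFun (congrArg Prod.fst h1) ⟨p, Nat.mem_primeFactors.2 ⟨hp, hpn, hn0⟩⟩
        exact one_ne_zero this
      · have h3 : t = 0 := congrArg (fun z => z.2.1) h1
        rw [h2] at h3
        exact one_ne_zero h3
    have hzz : EqA (S := n.primeFactors) (fun p q => leg p q) (fun q => leg 2 q)
        (fun q => leg 5 q) (fun p => leg p 3) e2 t c2 (fun _ => 0) 0 0 := by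
      refine ⟨fun _ => rfl, fun _ => rfl, fun q => ?_, ?_⟩
      · simp
      · simp
    have h1 := eq_of_two (P := fun z : (n.primeFactors → ZMod 2) × ZMod 2 × ZMod 2 =>
      EqA (S := n.primeFactors) (fun p q => leg p q) (fun q => leg 2 q)
        (fun q => leg 5 q) (fun p => leg p 3) e2 t c2 z.1 z.2.1 z.2.2) hcard hzz hEq hone hzero h0
    have h2 : ∀ p : n.primeFactors, (p : ℕ) ∣ B := by
      intro p
      by_contra hp
      have := congrFun (congrArg Prod.fst h1) p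
      rw [show (((xv B, ε, α) : (n.primeFactors → ZMod 2) × ZMod 2 × ZMod 2)).1 p = 0 from
        xv_neg hp] at this
      exact zero_ne_one this
    have h3 : B = n := by
      apply Nat.dvd_antisymm hBn
      conv_lhs => rw [← Nat.prod_primeFactors_of_squarefree hn]
      exact Finset.prod_primes_dvd _ (fun p hp => (Nat.prime_of_mem_primeFactors hp).prime)
        (fun p hp => h2 ⟨p, hp⟩)
    have h4 : ε = t := congrArg (fun z => z.2.1) h1
    have h5 : α = 0 := congrArg (fun z => z.2.2) h1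
    have h6 : b = d := by rw [hbe, h3, h4, h5, e0, hd]; ring
    rw [hXb, h6]; push_cast; ring

end Vale.Agent.P017.H626
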