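import Vale.Agent.P017.H626.J3

/-!
The vector of the second descent.
-/

namespace Vale.Agent.P017.H626

open Finset Function Vale.Agent.P014.H580 Vale.Agent.P014.FM
open Vale.Agent.P017.H185 (Cond1 Cond2 exists_sqf exists_int_eq two_adic_odd two_adic_even
  two_adic_even' three_dvd sq_of_dvd sq_of_ndvd
  prime_dvd_gen not_dvd_of_sqf zero_iff ne_iff ndvd_mul ndvd_sq J_prime_one)

/-- a form of reciprocity -/
lemma recip2 {p : ℕ} (hp : Odd p) {β : ℤ} (h : (p : ℤ) * β % 4 = 1) :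
    jacobiSym (-β) p = jacobiSym p β.natAbs := by
  rcases Nat.odd_mod_four_iff.mp (Nat.odd_iff.mp hp) with h1 | h1
  · have hβ : β % 4 = 1 := by
      have h2 : (p : ℤ) % 4 = 1 := by omega
      have h3 := Int.mul_emod (p : ℤ) β 4
      rw [h, h2] at h3
      omega
    rw [jacobiSym.neg _ hp, ZMod.χ₄_nat_one_mod_four h1, one_mul,
      Vale.Agent.P017.H185.J_recip hβ hp]
  · have hβ : β % 4 = 3 := by
      have h2 : (p : ℤ) % 4 = 3 := by omega
      have h3 := Int.mul_emod (p : ℤ) β 4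
      rw [h, h2] at h3
      omega
    rw [Vale.Agent.P017.H185.J_recip (b := -β) (by omega) hp, Int.natAbs_neg]

lemma J_def (a b : ℕ) : J a b = ((jacobiSym (a : ℤ) b : ℤ) : ℝ) := rfl

lemma J_two_mod {m : ℕ} (h : m % 8 = 1 ∨ m % 8 = 7) : J 2 m = 1 := by
  have hodd : Odd m := Nat.odd_iff.2 (by omega)
  rw [J_def]
  have h1 : jacobiSym ((2 : ℕ) : ℤ) m = 1 := by
    push_cast
    rw [jacobiSym.at_two hodd, ZMod.χ₈_nat_eq_if_mod_eight, if_neg (by omega), if_pos h]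
  rw [h1]
  norm_num

lemma J_two_three : J 2 3 = -1 := by
  rw [J_def]
  have : jacobiSym ((2 : ℕ) : ℤ) 3 = -1 := by norm_num
  rw [this]
  norm_num

lemma J_five_three : J 5 3 = -1 := by
  rw [J_def]
  have : jacobiSym ((5 : ℕ) : ℤ) 3 = -1 := by norm_num
  rw [this]
  norm_num

lemma sg2_cast {γ : ℕ} (hγ : γ ≤ 1) : sg2 ((γ : ℕ) : ZMod 2) = (-1) ^ γ := by
  interval_cases γ
  · rw [Nat.cast_zero, sg2_zero, pow_zero]
  · rw [Nat.cast_one, sg2_one, pow_one]

/-- the computation at a prime dividing `B` -/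
lemma KM_aux {n B γ p k : ℕ} {c c' : ℤ} (hn : Squarefree n) (hodd : Odd n)
    (hBn : B ∣ n) (hp : p.Prime) (hpB : p ∣ B) (hp3 : γ = 1 → Nat.Coprime p 3) (hγ : γ ≤ 1)
    (hcB : c.natAbs = 3 ^ γ * B) (hcc : c * c' = -((k * n : ℕ) : ℤ) * 9 ^ γ)
    (hc4 : c % 4 = 1) (loc1 : jacobiSym c' p = 1) :
    J p (B / p) * (J (n / p) p * J k p) * J p (3 ^ γ) = 1 := by
  have hn0 := hn.ne_zero
  have hB0 : B ≠ 0 := ne_zero_of_dvd_ne_zero hn0 hBn
  have h3γ : 3 ^ γ ≠ 0 := pow_ne_zero _ (by norm_num)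
  have hodd' : Odd p := Odd.of_dvd_nat hodd (hpB.trans hBn)
  obtain ⟨C, hC⟩ := hpB
  obtain ⟨m, hm⟩ := hBn
  have hBp : B / p = C := by rw [hC]; exact Nat.mul_div_cancel_left _ hp.pos
  have hnp : n / p = C * m := by
    rw [hm, hC, mul_assoc]; exact Nat.mul_div_cancel_left _ hp.pos
  rw [hBp, hnp]
  have hC0 : C ≠ 0 := by
    rintro rfl
    rw [mul_zero] at hC
    exact hB0 hC
  have hpc : (p : ℤ) ∣ c := by
    rw [Int.natCast_dvd, hcB, hC]
    exact ⟨3 ^ γ * C, by ring⟩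
  obtain ⟨β, hβ⟩ := hpc
  have hpp0 : (p : ℤ) ≠ 0 := by exact_mod_cast hp.ne_zero
  have hβa : β.natAbs = 3 ^ γ * C := by
    have h1 : p * β.natAbs = p * (3 ^ γ * C) := by
      rw [hβ, Int.natAbs_mul, Int.natAbs_natCast, hC] at hcB
      rw [hcB]; ring
    exact Nat.eq_of_mul_eq_mul_left hp.pos h1
  have hβc : β * c' = (-((k * (C * m) : ℕ) : ℤ)) * 9 ^ γ := by
    apply mul_left_cancel₀ hpp0
    rw [← mul_assoc, ← hβ, hcc, hm, hC]
    push_cast
    ring
  have hpC : ¬ p ∣ C := by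
    rintro ⟨u, hu⟩
    have := hn p ⟨u * m, by rw [hm, hC, hu]; ring⟩
    exact hp.one_lt.ne' (Nat.isUnit_iff.mp this)
  have hp3' : jacobiSym ((9 : ℤ) ^ γ) p = 1 := by
    rcases (by omega : γ = 0 ∨ γ = 1) with h1 | h1
    · rw [h1, pow_zero]
      exact jacobiSym.one_left _
    · rw [h1, pow_one]
      have h2 : (9 : ℤ) = 3 ^ 2 := by norm_num
      rw [h2]
      apply jacobiSym.sq_one'
      have h4 := hp3 h1
      rw [Nat.coprime_comm] at h4
      exact h4
  have h1 : jacobiSym (β * c') p = jacobiSym ((-((k * (C * m) : ℕ) : ℤ)) * 9 ^ γ) p := by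
    rw [hβc]
  rw [jacobiSym.mul_left, jacobiSym.mul_left, hp3', mul_one, loc1, mul_one,
    jacobiSym.neg _ hodd'] at h1
  have h2 := recip2 hodd' (β := β) (by rw [← hβ]; exact hc4)
  rw [jacobiSym.neg _ hodd', h1, ← mul_assoc] at h2
  have h3 : ZMod.χ₄ (p : ZMod 4) * ZMod.χ₄ (p : ZMod 4) = 1 := by
    rcases Nat.odd_mod_four_iff.mp (Nat.odd_iff.mp hodd') with h4 | h4
    · rw [ZMod.χ₄_nat_one_mod_four h4]; norm_num
    · rw [ZMod.χ₄_nat_three_mod_four h4]; norm_num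
  rw [h3, one_mul, hβa] at h2
  have h4 : J (k * (C * m)) p = J p (3 ^ γ * C) := by
    rw [J_def, J_def, h2]
  have h5 : J p C * (J (C * m) p * J k p) * J p (3 ^ γ)
      = J (k * (C * m)) p * J p (3 ^ γ * C) := by
    rw [J_mul_left k, J_mul_right _ _ _ h3γ hC0]
    ring
  rw [h5, h4]
  apply J_sq
  apply Nat.Coprime.mul_right
  · rcases (by omega : γ = 0 ∨ γ = 1) with h6 | h6
    · rw [h6, pow_zero]
      exact Nat.coprime_one_right _
    · rw [h6, pow_one]
      exact hp3 h6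
  · exact (Nat.Prime.coprime_iff_not_dvd hp).2 hpC

/-- **the vector of the second descent** -/
theorem KM {n B γ : ℕ} {c c' : ℤ} {e2 t c2 : ZMod 2} (hn : Squarefree n) (hodd : Odd n)
    (hBn : B ∣ n) (hγ : γ ≤ 1) (hγc : c2 = 0 → γ = 0) (h3n : c2 = 1 → ¬ 3 ∣ n)
    (h5n : c2 = 1 → ¬ 5 ∣ n) (hcB : c.natAbs = 3 ^ γ * B)
    (hcc : c * c' = -((2 ^ t.val * n : ℕ) : ℤ) * 9 ^ γ) (hc4 : c % 4 = 1)
    (hc8 : e2 = 1 → c % 8 = 1) (hc5 : c2 = 1 → jacobiSym c 5 = 1)
    (loc1 : ∀ q : ℕ, q.Prime → q ∣ B → jacobiSym c' q = 1)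
    (loc2 : ∀ q : ℕ, q.Prime → q ∣ n → ¬ q ∣ B → jacobiSym c q = 1) :
    EqT (S := n.primeFactors) (fun p q => leg p q) (fun q => leg 2 q) (fun q => leg 5 q)
      (fun p => leg p 3) e2 t c2 (xv B) (γ : ZMod 2) := by
  have hn0 := hn.ne_zero
  have hpr : ∀ p : n.primeFactors, (p : ℕ).Prime := fun p => Nat.prime_of_mem_primeFactors p.2
  have hpd : ∀ p : n.primeFactors, (p : ℕ) ∣ n := fun p => Nat.dvd_of_mem_primeFactors p.2
  have hodd' : ∀ p : n.primeFactors, Odd (p : ℕ) := fun p => Odd.of_dvd_nat hodd (hpd p)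
  have hB0 : B ≠ 0 := ne_zero_of_dvd_ne_zero hn0 hBn
  have h3γ : 3 ^ γ ≠ 0 := pow_ne_zero _ (by norm_num)
  have hγ1 : γ = 0 ∨ (γ = 1 ∧ c2 = 1) := by
    rcases z2 c2 with h | h
    · exact Or.inl (hγc h)
    · rcases (by omega : γ = 0 ∨ γ = 1) with h1 | h1
      · exact Or.inl h1
      · exact Or.inr ⟨h1, h⟩
  have hp3 : ∀ p : n.primeFactors, γ = 1 → Nat.Coprime (p : ℕ) 3 := by
    intro p h
    rcases hγ1 with h1 | ⟨-, h1⟩
    · omega
    · rw [Nat.coprime_primes (hpr p) Nat.prime_three]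
      intro h2
      apply h3n h1
      rw [← h2]
      exact hpd p
  have hs3 : ∀ p : n.primeFactors, sg2 ((γ : ZMod 2) * (c2 * leg p 3)) = J p (3 ^ γ) := by
    intro p
    rcases hγ1 with h1 | ⟨h1, h2⟩
    · rw [h1, Nat.cast_zero, zero_mul, sg2_zero, pow_zero, Vale.Agent.P014.FM.J_one_right]
    · rw [h2, one_mul, h1, Nat.cast_one, one_mul, pow_one, sg2_leg (hp3 p h1)]
  refine ⟨fun p => ?_, ?_, ?_⟩
  · apply sg2_inj0
    rw [sg2_add, sg2_add, hs3]
    by_cases hp : (p : ℕ) ∣ B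
    · rw [sum_right_self hn hBn p hp, xv_pos hp, one_mul, sg2_add, sum_left_self hn p, sg2_pow,
        sg2_leg (Nat.coprime_two_left.2 (hodd' p)), ← J_pow_left]
      exact KM_aux hn hodd hBn (hpr p) hp (hp3 p) hγ hcB hcc hc4 (loc1 p (hpr p) hp)
    · rw [sum_right hn hBn ((Nat.Prime.coprime_iff_not_dvd (hpr p)).2 hp), xv_neg hp, zero_mul,
        sg2_zero, mul_one]
      have h1 : J p B * J p (3 ^ γ) = J p (3 ^ γ * B) := by
        rw [J_mul_right _ _ _ h3γ hB0]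
        ring
      rw [h1, ← hcB, J_def, ← Vale.Agent.P017.H185.J_recip hc4 (hodd' p),
        loc2 p (hpr p) (hpd p) hp]
      norm_num
  · rcases z2 c2 with hc0 | hc1
    · rw [hγc hc0, hc0]
      simp
    · rw [hc1]
      simp_rw [one_mul]
      apply sg2_inj0
      have h5B : Nat.Coprime 5 B := by
        rw [Nat.Prime.coprime_iff_not_dvd Nat.prime_five]
        exact fun h => h5n hc1 (h.trans hBn)
      rw [sg2_add, sum_right hn hBn h5B, sg2_cast hγ]
      have h1 := hc5 hc1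
      have h2 := Vale.Agent.P017.H185.J_recip hc4 (n := 5) (by decide)
      rw [h1, hcB] at h2
      have h3 : J 5 (3 ^ γ * B) = 1 := by
        rw [J_def]
        push_cast at h2 ⊢
        rw [← h2]
        norm_num
      rw [J_mul_right _ _ _ h3γ hB0] at h3
      have h4 : J 5 (3 ^ γ) = (-1) ^ γ := by
        interval_cases γ
        · rw [pow_zero, pow_zero, Vale.Agent.P014.FM.J_one_right]
        · rw [pow_one, pow_one, J_five_three]
      rw [h4] at h3
      linear_combination h3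
  · rcases z2 e2 with he0 | he1
    · rw [he0]
      simp
    · rw [he1]
      simp_rw [one_mul, mul_one]
      have hγc2 : (γ : ZMod 2) * c2 = (γ : ZMod 2) := by
        rcases hγ1 with h1 | ⟨h1, h2⟩
        · rw [h1]; simp
        · rw [h2, mul_one]
      rw [hγc2]
      apply sg2_inj0
      rw [sg2_add, sum_right hn hBn (Nat.coprime_two_left.2 (Odd.of_dvd_nat hodd hBn)),
        sg2_cast hγ]
      have h1 := hc8 he1
      have h2 : J 2 (3 ^ γ * B) = 1 := by
        rw [← hcB]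
        apply J_two_mod
        omega
      rw [J_mul_right _ _ _ h3γ hB0] at h2
      have h4 : J 2 (3 ^ γ) = (-1) ^ γ := by
        interval_cases γ
        · rw [pow_zero, pow_zero, Vale.Agent.P014.FM.J_one_right]
        · rw [pow_one, pow_one, J_two_three]
      rw [h4] at h2
      linear_combination h2

end Vale.Agent.P017.H626
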