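import Vale.Agent.P017.H626.J4

/-!
The second descent.
-/

namespace Vale.Agent.P017.H626

open Finset Function Vale.Agent.P014.H580 Vale.Agent.P014.FM
open Vale.Agent.P017.H185 (Cond1 Cond2 exists_sqf exists_int_eq two_adic_odd two_adic_even
  two_adic_even' three_dvd sq_of_dvd sq_of_ndvd sq_mod8
  prime_dvd_gen not_dvd_of_sqf zero_iff ne_iff ndvd_mul ndvd_sq J_prime_one)

lemma xv_zero {n B : ℕ} (hn0 : n ≠ 0) (hBn : B ∣ n) (h : (xv B : n.primeFactors → ZMod 2) = 0) :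
    B = 1 := by
  by_contra hB1
  obtain ⟨p, hp, hpB⟩ := Nat.exists_prime_and_dvd hB1
  have h1 := congrFun h ⟨p, Nat.mem_primeFactors.2 ⟨hp, hpB.trans hBn, hn0⟩⟩
  rw [xv_pos hpB] at h1
  exact one_ne_zero h1

lemma xv_self {n B : ℕ} (hn : Squarefree n) (hBn : B ∣ n)
    (h : (xv B : n.primeFactors → ZMod 2) = xv n) : B = n := by
  apply Nat.dvd_antisymm hBn
  conv_lhs => rw [← Nat.prod_primeFactors_of_squarefree hn]
  refine Finset.prod_primes_dvd _ (fun p hp => (Nat.prime_of_mem_primeFactors hp).prime)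
    (fun p hp => ?_)
  by_contra hpB
  have h1 := congrFun h ⟨p, hp⟩
  rw [xv_neg hpB, xv_pos (Nat.dvd_of_mem_primeFactors hp)] at h1
  exact zero_ne_one h1

/-- the end of the second descent -/
theorem second_fin {n d γ : ℕ} {e2 t c2 : ZMod 2} (hd : d = 2 ^ t.val * n) (hn : Squarefree n)
    (hodd : Odd n) (ht : e2 = 0 → t = 0) (hte : e2 = 0 → d % 4 = 3)
    (hC2 : c2 = 1 → d % 3 = 1 ∧ (d % 5 = 1 ∨ d % 5 = 4)) (hN : NA e2 t c2 n = 2)
    (hγ : γ ≤ 1) (hγc : c2 = 0 → γ = 0) {c₁ c₁' : ℤ} (hcc : c₁ * c₁' = -(d : ℤ))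
    (hc4 : (3 ^ γ * c₁) % 4 = 1) (hc8 : e2 = 1 → (3 ^ γ * c₁) % 8 = 1)
    (hc5 : c2 = 1 → jacobiSym (3 ^ γ * c₁) 5 = 1)
    (loc1 : ∀ q : ℕ, q.Prime → q ≠ 2 → (q : ℤ) ∣ c₁ → IsSquare ((3 ^ γ * c₁' : ℤ) : ZMod q))
    (loc2 : ∀ q : ℕ, q.Prime → q ≠ 2 → (q : ℤ) ∣ c₁' → IsSquare ((3 ^ γ * c₁ : ℤ) : ZMod q)) :
    γ = 0 ∧ (c₁ = 1 ∨ c₁' = 1) := by
  have hn0 := hn.ne_zero
  have h5dvd : c2 = 1 → ¬ 5 ∣ n := by
    intro h1 h2
    have h3 : 5 ∣ d := by rw [hd]; exact h2.mul_left _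
    have := hC2 h1
    omega
  have h3dvd : c2 = 1 → ¬ 3 ∣ n := by
    intro h1 h2
    have h3 : 3 ∣ d := by rw [hd]; exact h2.mul_left _
    have := hC2 h1
    omega
  have hc₁o : c₁ % 2 = 1 := by
    rcases (by omega : γ = 0 ∨ γ = 1) with h | h <;> rw [h] at hc4 <;> omega
  obtain ⟨B, hB⟩ : ∃ B, B = c₁.natAbs := ⟨_, rfl⟩
  have hBodd : Odd B := Nat.odd_iff.2 (by omega)
  have hBd : B ∣ d := by
    have h1 : c₁ ∣ (d : ℤ) := by
      rw [← Int.dvd_neg, ← hcc]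
      exact dvd_mul_right _ _
    rw [hB]
    exact Int.natAbs_dvd_natAbs.2 h1
  have hBn : B ∣ n := by
    rw [hd] at hBd
    exact (Nat.Coprime.pow_right _ (Nat.coprime_two_right.2 hBodd)).dvd_of_dvd_mul_left hBd
  have hnsq : ∀ {q : ℕ}, q.Prime → q ≠ 2 → (q : ℤ) ∣ c₁ → ¬ (q : ℤ) ∣ c₁' := by
    intro q hq hq2 h1 h2
    have h3 : (q : ℤ) * q ∣ (d : ℤ) := by
      rw [← Int.dvd_neg, ← hcc]
      exact mul_dvd_mul h1 h2
    have h4 : q * q ∣ d := by exact_mod_cast h3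
    rw [hd] at h4
    have h5 : Nat.Coprime (q * q) (2 ^ t.val) := by
      apply Nat.Coprime.pow_right
      exact Nat.Coprime.mul_left ((Nat.coprime_primes hq Nat.prime_two).2 hq2)
        ((Nat.coprime_primes hq Nat.prime_two).2 hq2)
    exact hq.one_lt.ne' (Nat.isUnit_iff.mp (hn q (h5.dvd_of_dvd_mul_left h4)))
  have hJ3 : ∀ {q : ℕ}, q.Prime → q ∣ n → γ = 1 → q ≠ 3 := by
    intro q hq hqn h1 h2
    rcases z2 c2 with h3 | h3
    · have := hγc h3
      omega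
    · exact h3dvd h3 (h2 ▸ hqn)
  have hnd : ∀ {q : ℕ} {z : ℤ}, q.Prime → q ∣ n → ¬ (q : ℤ) ∣ z → ¬ (q : ℤ) ∣ 3 ^ γ * z := by
    intro q z hq hqn hz h1
    rcases (Nat.prime_iff_prime_int.mp hq).dvd_or_dvd h1 with h2 | h2
    · rcases (by omega : γ = 0 ∨ γ = 1) with h | h
      · rw [h, pow_zero] at h2
        have h3 : q ∣ 1 := by exact_mod_cast h2
        exact hq.one_lt.ne' (Nat.dvd_one.1 h3)
      · rw [h, pow_one] at h2
        have h3 : q ∣ 3 := by exact_mod_cast h2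
        exact hJ3 hq hqn h ((Nat.prime_dvd_prime_iff_eq hq Nat.prime_three).1 h3)
    · exact hz h2
  have hodd' : ∀ {q : ℕ}, q ∣ n → q ≠ 2 := by
    intro q hqn h2
    rw [h2] at hqn
    exact absurd (even_iff_two_dvd.2 hqn) (Nat.not_even_iff_odd.2 hodd)
  have hKM : EqT (S := n.primeFactors) (fun p q => leg p q) (fun q => leg 2 q)
      (fun q => leg 5 q) (fun p => leg p 3) e2 t c2 (xv B) (γ : ZMod 2) := by
    refine KM (c := 3 ^ γ * c₁) (c' := 3 ^ γ * c₁') hn hodd hBn hγ hγc h3dvd h5dvd ?_ ?_ hc4 hc8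
      hc5 ?_ ?_
    · rw [Int.natAbs_mul, Int.natAbs_pow, hB]
      rfl
    · have h1 : (3 ^ γ * c₁) * (3 ^ γ * c₁') = (c₁ * c₁') * (3 ^ γ * 3 ^ γ) := by ring
      have h2 : (3 : ℤ) ^ γ * 3 ^ γ = 9 ^ γ := by
        rw [← mul_pow]
        norm_num
      rw [h1, hcc, h2, hd]
    · intro q hq hqB
      have hqn := hqB.trans hBn
      have hqc : (q : ℤ) ∣ c₁ := by
        rw [Int.natCast_dvd, ← hB]
        exact hqB
      exact J_prime_one hq (hnd hq hqn (hnsq hq (hodd' hqn) hqc)) (loc1 q hq (hodd' hqn) hqc)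
    · intro q hq hqn hqB
      have hqc : ¬ (q : ℤ) ∣ c₁ := by
        rw [Int.natCast_dvd, ← hB]
        exact hqB
      have hqc' : (q : ℤ) ∣ c₁' := by
        have h1 : (q : ℤ) ∣ c₁ * c₁' := by
          rw [hcc, Int.dvd_neg, hd]
          exact_mod_cast hqn.mul_left _
        exact ((Nat.prime_iff_prime_int.mp hq).dvd_or_dvd h1).resolve_left hqc
      exact J_prime_one hq (hnd hq hqn hqc) (loc2 q hq (hodd' hqn) hqc')
  have hγ0 : ((γ : ℕ) : ZMod 2) = 0 → γ = 0 := by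
    intro h1
    rcases (by omega : γ = 0 ∨ γ = 1) with h | h
    · exact h
    · rw [h] at h1
      exact absurd h1 (by decide)
  have hcard : Nat.card (KrA (S := n.primeFactors) (fun p q => leg p q) (fun q => leg 2 q)
      (fun q => leg 5 q) (fun p => leg p 3) e2 t c2) = 2 := hN
  have hend : (xv B : n.primeFactors → ZMod 2) = 0 → γ = 0 → c₁ = 1 := by
    intro h1 h2
    have h3 := xv_zero hn0 hBn h1
    rw [h2, pow_zero, one_mul] at hc4
    omega
  rcases z2 e2 with he | he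
  · -- `2` unramified
    have ht0 := ht he
    have hdn : d = n := by
      rw [hd, ht0]
      simp
    have hd4 := hte he
    have hKM2 : EqT (S := n.primeFactors) (fun p q => leg p q) (fun q => leg 2 q)
        (fun q => leg 5 q) (fun p => leg p 3) e2 t c2 (xv n) ((0 : ℕ) : ZMod 2) := by
      refine KM (c := -(n : ℤ)) (c' := 1) hn hodd dvd_rfl (by norm_num) (fun _ => rfl)
        h3dvd h5dvd ?_ ?_ ?_ ?_ ?_ ?_ ?_
      · rw [Int.natAbs_neg, Int.natAbs_natCast, pow_zero, one_mul]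
      · rw [← hd, hdn, pow_zero]
      · omega
      · intro h1
        rw [he] at h1
        exact absurd h1 (by decide)
      · intro h1
        obtain ⟨-, h2⟩ := hC2 h1
        rw [jacobiSym.mod_left]
        rcases h2 with h2 | h2
        · have h3 : -(n : ℤ) % ((5 : ℕ) : ℤ) = 4 := by omega
          rw [h3]
          norm_num
        · have h3 : -(n : ℤ) % ((5 : ℕ) : ℤ) = 1 := by omega
          rw [h3]
          norm_num
      · intro q _ _
        exact jacobiSym.one_left _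
      · intro q _ h1 h2
        exact absurd h1 h2
    have hne : ¬ ((xv n : n.primeFactors → ZMod 2) = 0 ∧ ((0 : ℕ) : ZMod 2) = 0) := by
      rintro ⟨h1, -⟩
      have := xv_zero hn0 dvd_rfl h1
      omega
    rcases dual_two hcard hKM hKM2 hne with ⟨h1, h2⟩ | ⟨h1, h2⟩
    · have h3 := hγ0 h2
      exact ⟨h3, Or.inl (hend h1 h3)⟩
    · have h3 := hγ0 (by rw [h2]; simp)
      refine ⟨h3, Or.inr ?_⟩
      have h4 := xv_self hn hBn h1
      rw [h3, pow_zero, one_mul] at hc4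
      have h5 : c₁ = -(d : ℤ) := by omega
      rw [h5] at hcc
      have hd0 : -(d : ℤ) ≠ 0 := by omega
      exact mul_left_cancel₀ hd0 (by rw [hcc, mul_one])
  · obtain ⟨h1, h2⟩ := dual_one he hcard hKM
    have h3 := hγ0 h2
    exact ⟨h3, Or.inl (hend h1 h3)⟩

/-- the class modulo five in the second descent -/
lemma second_five {b M e N d : ℤ} (hMe : IsCoprime M e) (hd : d % 5 = 1 ∨ d % 5 = 4)
    (hb : ¬ (5 : ℤ) ∣ b)
    (h : (b * M ^ 2 + d * e ^ 2) * (b * M ^ 2 + 81 * d * e ^ 2) = b * N ^ 2) :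
    b % 5 = 1 ∨ b % 5 = 4 := by
  by_contra hcon
  have hb2 : b % 5 = 2 ∨ b % 5 = 3 := by omega
  have key : ∀ b d M e N : ZMod 5, (b = 2 ∨ b = 3) → (d = 1 ∨ d = 4) →
      (b * M ^ 2 + d * e ^ 2) * (b * M ^ 2 + 81 * d * e ^ 2) = b * N ^ 2 →
      M = 0 ∧ e = 0 := by decide
  have h1 := congrArg (Int.cast : ℤ → ZMod 5) h
  push_cast at h1
  have hbz : (b : ZMod 5) = 2 ∨ (b : ZMod 5) = 3 := by
    rcases hb2 with h2 | h2
    · left
      exact_mod_cast (ZMod.intCast_eq_intCast_iff_dvd_sub b 2 5).mpr (by push_cast; omega)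
    · right
      exact_mod_cast (ZMod.intCast_eq_intCast_iff_dvd_sub b 3 5).mpr (by push_cast; omega)
  have hdz : (d : ZMod 5) = 1 ∨ (d : ZMod 5) = 4 := by
    rcases hd with h2 | h2
    · left
      exact_mod_cast (ZMod.intCast_eq_intCast_iff_dvd_sub d 1 5).mpr (by push_cast; omega)
    · right
      exact_mod_cast (ZMod.intCast_eq_intCast_iff_dvd_sub d 4 5).mpr (by push_cast; omega)
  obtain ⟨h2, h3⟩ := key _ _ _ _ _ hbz hdz h1
  rw [zero_iff] at h2 h3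
  exact Vale.Agent.P017.H185.cop_ndvd Nat.prime_five hMe h3 h2

end Vale.Agent.P017.H626
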