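import Vale.Agent.P017.H626.J5

/-!
The second descent, continued.
-/

namespace Vale.Agent.P017.H626

open Finset Function Vale.Agent.P014.H580 Vale.Agent.P014.FM
open Vale.Agent.P017.H185 (Cond1 Cond2 exists_sqf exists_int_eq two_adic_odd two_adic_even
  two_adic_even' three_dvd sq_of_dvd sq_of_ndvd sq_mod8 sqf_dvd_of_primes
  prime_dvd_gen not_dvd_of_sqf zero_iff ne_iff ndvd_mul ndvd_sq J_prime_one)

lemma mod8_aux {x y : ℤ} (hx : x % 2 = 1) (h : (8 : ℤ) ∣ x * y - x) : y % 8 = 1 := by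
  have h1 : (8 : ℤ) ∣ x * (y - 1) := by
    have : x * (y - 1) = x * y - x := by ring
    rw [this]
    exact h
  have h2 : IsCoprime (8 : ℤ) x := by
    have h3 : IsCoprime (2 : ℤ) x := by
      refine ⟨-(x / 2), 1, ?_⟩
      have := Int.emod_add_mul_ediv x 2
      omega
    have h4 : (8 : ℤ) = 2 ^ 3 := by norm_num
    rw [h4]
    exact h3.pow_left
  have h5 := h2.dvd_of_dvd_mul_left h1
  omega

/-- **the second descent** -/
theorem second_desc {n d : ℕ} {e2 t c2 : ZMod 2} (hd : d = 2 ^ t.val * n) (hn : Squarefree n)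
    (hodd : Odd n) (ht : e2 = 0 → t = 0) (hte : e2 = 0 → d % 4 = 3)
    (hte1 : e2 = 1 → t = 0 → d % 4 = 1) (hC1 : c2 = 0 → d % 3 ≠ 1)
    (hC2 : c2 = 1 → d % 3 = 1 ∧ (d % 5 = 1 ∨ d % 5 = 4)) (hN : NA e2 t c2 n = 2) :
    Cond2 (d : ℚ) := by
  have hn0 := hn.ne_zero
  have e0 : (0 : ZMod 2).val = 0 := rfl
  have e1 : (1 : ZMod 2).val = 1 := rfl
  have hdsq : Squarefree d := by
    rw [hd]
    rcases z2 t with h | h
    · rw [h, e0, pow_zero, one_mul]
      exact hn
    · rw [h, e1, pow_one]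
      exact (Nat.squarefree_mul_iff).2 ⟨Nat.coprime_two_left.2 hodd, Nat.prime_two.squarefree, hn⟩
  have hdpos : 0 < d := Nat.pos_of_ne_zero hdsq.ne_zero
  have hdsqZ : Squarefree (d : ℤ) := Int.squarefree_natCast.mpr hdsq
  intro X Y h hX
  obtain ⟨b, M, e, hb, hMe, hM, he, hXb⟩ := exists_sqf hX
  obtain ⟨N, hNN⟩ := exists_int_eq (Y := Y) (α := (d : ℤ)) (β := 81 * (d : ℤ)) hb hM he hXb
    (by push_cast; rw [h])
  have hbprime : ∀ p : ℕ, p.Prime → (p : ℤ) ∣ b → (p : ℤ) ∣ (d : ℤ) ∨ (p = 3 ∧ d % 3 = 1) := by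
    intro p hp hpb
    by_cases hpd : (p : ℤ) ∣ (d : ℤ)
    · exact Or.inl hpd
    right
    by_cases h2 : (p : ℤ) ∣ (81 * (d : ℤ) : ℤ)
    · have hp3 : p = 3 := by
        rcases (Nat.prime_iff_prime_int.mp hp).dvd_or_dvd h2 with h2 | h2
        · have h4 : p ∣ 3 ^ 4 := by exact_mod_cast h2
          exact (Nat.prime_dvd_prime_iff_eq hp Nat.prime_three).mp (hp.dvd_of_dvd_pow h4)
        · exact absurd h2 hpd
      subst hp3
      have h5 := three_dvd (d := (d : ℤ)) hb hMe hNN hpb hpd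
      refine ⟨rfl, ?_⟩
      have h6 := (ZMod.intCast_eq_intCast_iff_dvd_sub (d : ℤ) 1 3).1 (by exact_mod_cast h5)
      push_cast at h6
      omega
    · exact absurd (prime_dvd_gen hp hb hMe hNN hpb hpd h2) id
  obtain ⟨γ, b₁, hγ, hγc, hbb, hb₁d⟩ : ∃ (γ : ℕ) (b₁ : ℤ), γ ≤ 1 ∧ (c2 = 0 → γ = 0) ∧
      b = 3 ^ γ * b₁ ∧ b₁ ∣ (d : ℤ) := by
    by_cases hcase : (3 : ℤ) ∣ b ∧ ¬ (3 : ℤ) ∣ (d : ℤ)
    · obtain ⟨⟨b₁, hb₁⟩, h3d⟩ := hcase
      have h3 : d % 3 = 1 := by
        rcases hbprime 3 Nat.prime_three (by exact_mod_cast Dvd.intro _ hb₁.symm) with h1 | h1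
        · exact absurd (by exact_mod_cast h1) h3d
        · exact h1.2
      refine ⟨1, b₁, le_rfl, fun h0 => absurd h3 (hC1 h0), by rw [pow_one]; exact hb₁, ?_⟩
      have hb₁sq : Squarefree b₁ := hb.squarefree_of_dvd ⟨3, by rw [hb₁]; ring⟩
      have := sqf_dvd_of_primes (Int.squarefree_natAbs.mpr hb₁sq) (X := (d : ℤ))
        (fun p hp hpb => by
          have hpb' : (p : ℤ) ∣ b₁ := Int.natCast_dvd.mpr hpb
          rcases hbprime p hp (by rw [hb₁]; exact hpb'.mul_left 3) with h1 | h1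
          · exact h1
          · exfalso
            rw [h1.1] at hpb'
            exact not_dvd_of_sqf Nat.prime_three hb (by push_cast; exact hb₁) hpb')
      exact Int.natAbs_dvd.mp this
    · refine ⟨0, b, by norm_num, fun _ => rfl, by rw [pow_zero, one_mul], ?_⟩
      have := sqf_dvd_of_primes (Int.squarefree_natAbs.mpr hb) (X := (d : ℤ))
        (fun p hp hpb => by
          have hpb' : (p : ℤ) ∣ b := Int.natCast_dvd.mpr hpb
          rcases hbprime p hp hpb' with h1 | h1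
          · exact h1
          · by_contra h2
            apply hcase
            rw [h1.1] at hpb' h2
            exact ⟨by exact_mod_cast hpb', by exact_mod_cast h2⟩)
      exact Int.natAbs_dvd.mp this
  obtain ⟨b₁', hb₁'⟩ : ∃ b₁', b₁ * b₁' = -(d : ℤ) := by
    obtain ⟨c, hc⟩ := hb₁d
    exact ⟨-c, by rw [hc]; ring⟩
  have hb0 : b ≠ 0 := hb.ne_zero
  have hndsq : ∀ {p : ℕ} {c : ℤ}, p.Prime → (d : ℤ) = p * c → ¬ (p : ℤ) ∣ c := by
    intro p c hp hc
    exact not_dvd_of_sqf hp hdsqZ hc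
  have h99 : (3 : ℤ) ^ γ * 3 ^ γ = 9 ^ γ := by
    rw [← mul_pow]
    norm_num
  have hprod : b * (3 ^ γ * b₁') = -(d : ℤ) * 9 ^ γ := by
    rw [hbb, ← h99, ← hb₁']
    ring
  have hγ3 : γ = 1 → d % 3 = 1 ∧ (d % 5 = 1 ∨ d % 5 = 4) := by
    intro h1
    rcases z2 c2 with h2 | h2
    · have := hγc h2
      omega
    · exact hC2 h2
  have loc1 : ∀ p : ℕ, p.Prime → p ≠ 2 → (p : ℤ) ∣ b₁ →
      IsSquare ((3 ^ γ * b₁' : ℤ) : ZMod p) := by
    intro p hp hp2 hpb₁
    have hpb : (p : ℤ) ∣ b := by rw [hbb]; exact hpb₁.mul_left _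
    obtain ⟨β, hβ⟩ := hpb
    obtain ⟨δ, hδ⟩ := hpb₁.trans hb₁d
    have hβ' := not_dvd_of_sqf hp hb hβ
    have h1 := sq_of_dvd hp hb hMe hNN hδ (hndsq hp hδ) hβ
    have hp0 : (p : ℤ) ≠ 0 := by exact_mod_cast hp.ne_zero
    have h2 : β * (3 ^ γ * b₁') = -δ * 9 ^ γ := by
      apply mul_left_cancel₀ hp0
      rw [← mul_assoc, ← hβ, hprod, hδ]; ring
    have := Fact.mk hp
    have hβ0 : (β : ZMod p) ≠ 0 := ne_iff.mpr hβ'
    obtain ⟨z, hz⟩ := h1
    have h3 := congrArg (Int.cast : ℤ → ZMod p) h2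
    have h4 := congrArg (Int.cast : ℤ → ZMod p) h99
    push_cast at hz h3 h4 ⊢
    refine ⟨3 ^ γ * z / β, ?_⟩
    field_simp
    linear_combination (β : ZMod p) * h3 + (3 : ZMod p) ^ γ * 3 ^ γ * hz + (δ : ZMod p) * β * h4
  have loc2 : ∀ p : ℕ, p.Prime → p ≠ 2 → (p : ℤ) ∣ b₁' →
      IsSquare ((3 ^ γ * b₁ : ℤ) : ZMod p) := by
    intro p hp hp2 hpb
    have hpd : (p : ℤ) ∣ (d : ℤ) := by
      rw [← Int.dvd_neg, ← hb₁']; exact hpb.mul_left b₁
    have hpd' := hpd
    obtain ⟨δ, hδ⟩ := hpd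
    have hpb2 : ¬ (p : ℤ) ∣ b := by
      intro hpb2
      rw [hbb] at hpb2
      rcases (Nat.prime_iff_prime_int.mp hp).dvd_or_dvd hpb2 with h1 | h1
      · rcases (by omega : γ = 0 ∨ γ = 1) with h2 | h2
        · rw [h2, pow_zero] at h1
          have h3 : p ∣ 1 := by exact_mod_cast h1
          exact hp.one_lt.ne' (Nat.dvd_one.1 h3)
        · rw [h2, pow_one] at h1
          have h3 : p ∣ 3 := by exact_mod_cast h1
          have h4 := (Nat.prime_dvd_prime_iff_eq hp Nat.prime_three).1 h3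
          have h5 := (hγ3 h2).1
          have h6 : 3 ∣ d := by
            rw [h4] at hpd'
            exact_mod_cast hpd'
          omega
      · obtain ⟨β, hβ⟩ := h1
        obtain ⟨β', hβ'⟩ := hpb
        apply hndsq hp hδ
        have hp0 : (p : ℤ) ≠ 0 := by exact_mod_cast hp.ne_zero
        refine ⟨-(β * β'), ?_⟩
        apply mul_left_cancel₀ hp0
        rw [← hδ]
        have : (d : ℤ) = -(b₁ * b₁') := by rw [hb₁']; ring
        rw [this, hβ, hβ']; ring
    rw [← hbb]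
    exact sq_of_ndvd hp hMe hNN hδ (hndsq hp hδ) hpb2
  have hJ5 : ∀ z : ℤ, z % 5 = 1 ∨ z % 5 = 4 → jacobiSym z 5 = 1 := by
    intro z hz
    rw [jacobiSym.mod_left]
    rcases hz with h1 | h1
    · have h3 : z % ((5 : ℕ) : ℤ) = 1 := by exact_mod_cast h1
      rw [h3]
      norm_num
    · have h3 : z % ((5 : ℕ) : ℤ) = 4 := by exact_mod_cast h1
      rw [h3]
      norm_num
  have hb5 : c2 = 1 → jacobiSym b 5 = 1 := by
    intro h1
    obtain ⟨-, h2⟩ := hC2 h1
    have h5b : ¬ (5 : ℤ) ∣ b := by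
      intro h3
      rcases hbprime 5 Nat.prime_five (by exact_mod_cast h3) with h4 | h4
      · have : 5 ∣ d := by exact_mod_cast h4
        omega
      · exact absurd h4.1 (by norm_num)
    exact hJ5 b (second_five hMe (by omega) h5b hNN)
  have hb5' : c2 = 1 → jacobiSym (3 ^ γ * b₁') 5 = 1 := by
    intro h1
    obtain ⟨-, h2⟩ := hC2 h1
    have h3 : jacobiSym (b * (3 ^ γ * b₁')) 5 = 1 := by
      rw [hprod]
      apply hJ5
      rcases (by omega : γ = 0 ∨ γ = 1) with h4 | h4 <;> rw [h4] <;> omega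
    rw [jacobiSym.mul_left, hb5 h1, one_mul] at h3
    exact h3
  -- the two conclusions
  have direct : b % 4 = 1 → (e2 = 1 → b % 8 = 1) → γ = 0 ∧ (b₁ = 1 ∨ b₁' = 1) := by
    intro h4 h8
    rw [hbb] at h4 h8 hb5
    exact second_fin hd hn hodd ht hte hC2 hN hγ hγc hb₁' h4 h8 hb5 loc1 loc2
  have swapped : (3 ^ γ * b₁') % 8 = 1 → γ = 0 ∧ (b₁' = 1 ∨ b₁ = 1) := by
    intro h8
    exact second_fin hd hn hodd ht hte hC2 hN hγ hγc (by rw [mul_comm]; exact hb₁')
      (by omega) (fun _ => h8) hb5' loc2 loc1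
  have h9γ : ∃ k : ℤ, (9 : ℤ) ^ γ = 8 * k + 1 := by
    rcases (by omega : γ = 0 ∨ γ = 1) with h4 | h4
    · exact ⟨0, by rw [h4]; norm_num⟩
    · exact ⟨1, by rw [h4]; norm_num⟩
  obtain ⟨k9, hk9⟩ := h9γ
  have hfin : γ = 0 ∧ (b₁ = 1 ∨ b₁' = 1) := by
    rcases z2 t with ht0 | ht1
    · have hdn : d = n := by rw [hd, ht0, e0, pow_zero, one_mul]
      have hdo : d % 2 = 1 := by
        rw [hdn]
        exact Nat.odd_iff.1 hodd
      have hbo : b % 2 = 1 := by
        by_contra hcon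
        have h1 : ((2 : ℕ) : ℤ) ∣ b := by push_cast; omega
        rcases hbprime 2 Nat.prime_two h1 with h2 | h2
        · push_cast at h2
          omega
        · exact absurd h2.1 (by norm_num)
      obtain ⟨hA, hB⟩ := two_adic_odd (d := (d : ℤ)) hMe hbo (by omega) hNN
      rcases z2 e2 with he0 | he1
      · have h3 := hte he0
        refine direct (hA (by omega)) (fun h4 => ?_)
        rw [he0] at h4
        exact absurd h4 (by decide)
      · have h3 := hte1 he1 ht0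
        rcases hB (by omega) with h8 | h8
        · exact direct (by omega) (fun _ => h8)
        · have h9 : (3 ^ γ * b₁') % 8 = 1 := by
            apply mod8_aux hbo
            obtain ⟨j, hj⟩ : ∃ j, b + d = 8 * j := ⟨(b + d) / 8, by omega⟩
            refine ⟨-(j + d * k9), ?_⟩
            rw [hprod, hk9]
            linear_combination (-1 : ℤ) * hj
          obtain ⟨h10, h11⟩ := swapped h9
          exact ⟨h10, h11.symm⟩
    · have hdn : d = 2 * n := by rw [hd, ht1, e1, pow_one]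
      have he1 : e2 = 1 := by
        rcases z2 e2 with he0 | he1
        · have := ht he0
          rw [ht1] at this
          exact absurd this (by decide)
        · exact he1
      have hno : (n : ℤ) % 2 = 1 := by
        have := Nat.odd_iff.1 hodd
        omega
      have hdnZ : (d : ℤ) = 2 * (n : ℤ) := by rw [hdn]; push_cast; ring
      by_cases hb2 : b % 2 = 0
      · obtain ⟨β, hβ⟩ : ∃ β, b = 2 * β := ⟨b / 2, by omega⟩
        have hβ2 := not_dvd_of_sqf Nat.prime_two hb (by push_cast; exact hβ)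
        have hβo : β % 2 = 1 := by push_cast at hβ2; omega
        have h8 := two_adic_even' hMe hβo hno hdnZ hβ hNN
        have h1 : β * (3 ^ γ * b₁') = -(n : ℤ) * 9 ^ γ := by
          apply mul_left_cancel₀ (show (2 : ℤ) ≠ 0 by norm_num)
          rw [← mul_assoc, ← hβ, hprod, hdnZ]; ring
        have h9 : (3 ^ γ * b₁') % 8 = 1 := by
          apply mod8_aux hβo
          obtain ⟨j, hj⟩ : ∃ j, β + n = 8 * j := ⟨(β + n) / 8, by omega⟩
          refine ⟨-(j + n * k9), ?_⟩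
          rw [h1, hk9]
          linear_combination (-1 : ℤ) * hj
        obtain ⟨h10, h11⟩ := swapped h9
        exact ⟨h10, h11.symm⟩
      · have h8 := two_adic_even hMe (by omega) hno hdnZ hNN
        exact direct (by omega) (fun _ => h8)
  refine ⟨M / e, ?_⟩
  obtain ⟨h1, h2⟩ := hfin
  rw [h1, pow_zero, one_mul] at hbb
  rcases h2 with h2 | h2
  · left; rw [hXb, hbb, h2]; push_cast; ring
  · right
    rw [h2, mul_one] at hb₁'
    rw [hXb, hbb, hb₁']; push_cast; ring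

end Vale.Agent.P017.H626
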