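import Vale.Agent.P017.H626.J6

/-!
Finiteness for the eight families.
-/

namespace Vale.Agent.P017.H626

open NumberField Finset Function Vale.Agent.P014.H580 Vale.Agent.P014.FM
open Vale.Agent.P017.H185 (QF X015 finite_X015 finite_EK finite_EQ' finite_ED exists_QF)

universe u

lemma J_two_five : J 2 5 = -1 := by
  rw [J_def]
  have : jacobiSym ((2 : ℕ) : ℤ) 5 = -1 := by norm_num
  rw [this]
  norm_num

lemma J_two_pow {c : ℕ} (h : J 2 c = -1) (t : ZMod 2) (n : ℕ) :
    J (2 ^ t.val * n) c = sg2 t * J n c := by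
  rw [J_mul_left, J_pow_left, h]
  congr 1
  rcases z2 t with ht | ht
  · rw [ht, sg2_zero]
    simp
  · rw [ht, sg2_one]
    simp [ZMod.val_one]

lemma J_tw {c : ℕ} (h : J 2 c = -1) (t : ZMod 2) (n : ℕ) :
    J (2 ^ t.val * n) c = 1 ↔ J n c = sg2 t := by
  rw [J_two_pow h]
  rcases sg2_val t with ht | ht <;> rw [ht]
  · rw [one_mul]
  · constructor
    · intro h1
      linarith
    · intro h1
      rw [h1]
      norm_num

lemma J_one_iff (a c : ℕ) : J a c = 1 ↔ jacobiSym (a : ℤ) c = 1 := by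
  rw [J_def]
  norm_cast

lemma J3_iff (t : ZMod 2) (n : ℕ) : J n 3 = sg2 t ↔ (2 ^ t.val * n) % 3 = 1 := by
  rw [← J_tw J_two_three, J_one_iff, ← not_iff_not]
  exact jac3 _

lemma J5_iff (t : ZMod 2) (n : ℕ) : J n 5 = sg2 t ↔
    (2 ^ t.val * n) % 5 = 1 ∨ (2 ^ t.val * n) % 5 = 4 := by
  rw [← J_tw J_two_five, J_one_iff, ← not_iff_not]
  rw [not_or]
  exact jac5 _

lemma e4'_iff_one {n : ℕ} : e4' n = 1 ↔ n % 4 = 3 := by
  unfold e4'
  split_ifs with h
  · exact ⟨fun _ => h, fun _ => rfl⟩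
  · exact ⟨fun h' => absurd h' (by decide), fun h' => absurd h' h⟩

lemma e4'_iff_zero {n : ℕ} : e4' n = 0 ↔ n % 4 ≠ 3 := by
  unfold e4'
  split_ifs with h
  · exact ⟨fun h' => absurd h' (by decide), fun h' => absurd h h'⟩
  · exact ⟨fun _ => h, fun _ => rfl⟩

/-- **finiteness for the families** -/
theorem fin_Fam {e2 t s c2 : ZMod 2} (hT : Ty e2 t s) {n : ℕ} (hn : Squarefree n)
    (hF : Fam c2 t s n) (hne : n ≠ 1 ∨ t = 1) (hN : NA e2 t c2 n = 2) {d : ℕ}
    (hd : d = 2 ^ t.val * n) {K : Type u} [Field K] [NumberField K] (q : QF K d) :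
    Finite (X015.baseChange K).toAffine.Point := by
  have hodd := hF.1
  have e0 : (0 : ZMod 2).val = 0 := rfl
  have hno := Nat.odd_iff.1 hodd
  have ht : e2 = 0 → t = 0 := by
    intro he
    rcases hT with ⟨-, h, -⟩ | ⟨-, h, -⟩ | ⟨h, -⟩
    · exact h
    · exact h
    · rw [he] at h
      exact absurd h (by decide)
  have hte : e2 = 0 → d % 4 = 3 := by
    intro he
    rcases hT with ⟨-, h1, h2⟩ | ⟨h, -, -⟩ | ⟨h, -⟩
    · have h3 := hF.2.1
      rw [h2, e4'_iff_one] at h3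
      rw [hd, h1, e0, pow_zero, one_mul]
      exact h3
    · rw [he] at h
      exact absurd h (by decide)
    · rw [he] at h
      exact absurd h (by decide)
  have hte1 : e2 = 1 → t = 0 → d % 4 = 1 := by
    intro he ht0
    rcases hT with ⟨h, -, -⟩ | ⟨-, -, h2⟩ | ⟨-, h⟩
    · rw [he] at h
      exact absurd h (by decide)
    · have h3 := hF.2.1
      rw [h2, e4'_iff_zero] at h3
      rw [hd, ht0, e0, pow_zero, one_mul]
      omega
    · rw [ht0] at h
      exact absurd h (by decide)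
  have hC1 : c2 = 0 → d % 3 ≠ 1 ∧ d % 5 ≠ 1 ∧ d % 5 ≠ 4 := by
    intro hc
    obtain ⟨h3, h5⟩ := hF.2.2.1 hc
    rw [Ne, J3_iff, ← hd] at h3
    rw [Ne, J5_iff, ← hd, not_or] at h5
    exact ⟨h3, h5⟩
  have hC2 : c2 = 1 → d % 3 = 1 ∧ (d % 5 = 1 ∨ d % 5 = 4) := by
    intro hc
    obtain ⟨h3, h5⟩ := hF.2.2.2 hc
    rw [J3_iff, ← hd] at h3
    rw [J5_iff, ← hd] at h5
    exact ⟨h3, h5⟩
  have hr : c2 * (∑ p : n.primeFactors, leg (p : ℕ) 3 + t) = 0 := by
    rcases z2 c2 with hc | hc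
    · rw [hc, zero_mul]
    · obtain ⟨h3, -⟩ := hF.2.2.2 hc
      have h4 := sum_leg3 hn (cop_of_J (by norm_num) h3)
      rw [h3] at h4
      rw [sg2_inj h4, zmod2_add_self, mul_zero]
  have hone := one_KrA (S := n.primeFactors) (fun p q => leg p q) (fun q => leg 2 q)
    (fun q => leg 5 q) (fun p => leg p 3) e2 t c2 ht hr
  have c1 := first_desc hd hn hodd hte (fun h => (hC1 h).2) (fun h => (hC2 h).1) hN hne hone
  have c2' := second_desc hd hn hodd ht hte hte1 (fun h => (hC1 h).1) hC2 hN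
  have hd0 : (d : ℚ) ≠ 0 := by exact_mod_cast q.d_pos.ne'
  exact finite_X015 K (finite_EK q finite_EQ' (finite_ED hd0 c1 c2'))

/-- the discriminants, odd case -/
theorem FinPts_three {d : ℕ} (hd4 : d % 4 = 3)
    (h : ∀ (K : Type u) [Field K] [NumberField K] (_ : QF K d),
      Finite (X015.baseChange K).toAffine.Point) : FinPts.{u} d := by
  intro K _ _ _ _ hK
  obtain ⟨d', ⟨q⟩⟩ := exists_QF K
  have hdn : d' = d := by
    by_cases hd : d' % 4 = 3
    · rw [discr_three q hd] at hK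
      omega
    · rw [discr_other q hd] at hK
      omega
  subst hdn
  exact h K q

/-- the discriminants, even case -/
theorem FinPts_other {d : ℕ} (hd4 : d % 4 ≠ 3) (hd : Squarefree d)
    (h : ∀ (K : Type u) [Field K] [NumberField K] (_ : QF K d),
      Finite (X015.baseChange K).toAffine.Point) : FinPts.{u} (4 * d) := by
  intro K _ _ _ _ hK
  obtain ⟨d', ⟨q⟩⟩ := exists_QF K
  have hdn : d' = d := by
    by_cases hd : d' % 4 = 3
    · rw [discr_three q hd] at hK
      omega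
    · rw [discr_other q hd] at hK
      omega
  subst hdn
  exact h K q

end Vale.Agent.P017.H626
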